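import Mathlib

/-!
# ROW 285 / PK-REG ([B] Lemma 4.4) / Gauss : exponential moments of linear and quadratic forms under a centred Gaussian      (architect helper15)   -- KEEP

MATHLIB ONLY.  `regGauss Γ` = centred Gaussian measure on `ι → ℝ` with covariance `Γ` (`RG.gauss G Γ = regGauss Γ` by `rfl`), `regQf Γ b = b ⬝ᵥ Γ *ᵥ b` (the variance of `ζ ↦ b ⬝ᵥ ζ`).
OUTPUT (used by `Reg/Main.lean`, and free for PK-OBS, PK-HOL, PK-SCAL):  `reg_gauss_comb`:
  `E exp (t ⟨b,ζ⟩ + c ∑_k ⟨B_k,ζ⟩²) ≤ exp (t² Var⟨b,ζ⟩ + 2 c τ)`   if   `Cov (⟨B_k,ζ⟩)_k ≤ Λ`, trace `≤ τ`, `8 c Λ ≤ 1`.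

## LEAF `REG-G1` : `reg_gauss1`, `reg_gauss_pi`   (~120 lines)
PLAN.  `gaussianReal 0 1 = volume.withDensity (gaussianPDF 0 1)` (`gaussianReal_of_var_ne_zero`), `lintegral_withDensity_eq_lintegral_mul`; `exp(c x²) (2π)^{-1/2} exp(-x²/2) = (2π)^{-1/2} exp(-(1/2-c) x²)`,
`integral_gaussian (1/2 - c) = √(π/(1/2-c))` (`ofReal_integral_eq_lintegral_ofReal` with `integrable_exp_neg_mul_sq`): value `(1-2c)^{-1/2}`; `(1-x)^{-1/2} ≤ exp x` for `0 ≤ x ≤ 1/2`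
(`1 - x ≥ exp(-2x)`: `Real.one_sub_le_exp_neg`-type / concavity; e.g. `exp(-2x) ≤ 1 - 2x + 2x² ≤ 1 - x`, `Real.exp_bound`…, or `Real.add_one_le_exp` applied to `x/(1-x) ≤ 2x`: `1/(1-x) = 1 + x/(1-x) ≤ exp(x/(1-x)) ≤ exp(2x)`).
`reg_gauss_pi`: `exp (∑ ..) = ∏ exp`, `ENNReal.ofReal_prod_of_nonneg`, `lintegral_fintype_prod_eq_prod` (product measure), `Finset.prod_le_prod'`.
## LEAF `REG-G2` : `reg_gauss_quad0`   (~200 lines)
PLAN.  `lintegral_map` twice: `regGauss S`, `multivariateGaussian 0 S = (stdGaussian _).map (fun x => 0 + toEuclideanCLM (CFC.sqrt S) x)`;  `stdGaussian_eq_map_pi_orthonormalBasis hS.isHermitian.eigenvectorBasis`.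
For `N = ∑ y_i • v_i`: `∑_k (√S N)_k² = ‖√S N‖² = ⟪N, S N⟫ = ∑ λ_i y_i²` (`√S` self-adjoint, `CFC.sqrt_mul_sqrt_self`, `Matrix.IsHermitian.mulVec_eigenvectorBasis`, orthonormality).  `0 ≤ λ_i` (`PosSemidef.eigenvalues_nonneg`), `λ_i ≤ Λ` (test `hΛ` with `v_i`), `∑ λ_i = trace S` (`IsHermitian.trace_eq_sum_eigenvalues`).  Then `reg_gauss_pi` with `a λ_i ≤ 1/4`.
## LEAF `REG-G3` : `reg_gauss_prob`, `reg_gauss_map`, `reg_gauss_lin`   (~200 lines)
PLAN.  `reg_gauss_map`: both sides are images of Gaussian measures on Euclidean spaces: `IsGaussian.ext` / `Measure.ext_of_charFun` with `charFun_multivariateGaussian`, `charFun_map..`; `B Γ Bᵀ` is PSD (`PosSemidef.mul_mul_conjTranspose_same`).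
`reg_gauss_lin`: `IsGaussian.map_eq_gaussianReal`, variance by `covarianceBilin_multivariateGaussian`; `mgf_gaussianReal`; or `reg_gauss_map` with `κ = Unit` and `measurePreserving_eval_multivariateGaussian`.
## LEAF `REG-G4` : `reg_gauss_quad`, `reg_gauss_comb`   (~200 lines)
PLAN.  `reg_gauss_quad`: `lintegral_map` with `reg_gauss_map`, then `reg_gauss_quad0` for `S = B Γ Bᵀ`: `u ⬝ᵥ S *ᵥ u = regQf Γ (∑ u_k • B k)`, `trace S = ∑_k regQf Γ (B k)`.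
`reg_gauss_comb`: `ENNReal.lintegral_mul_le_Lp_mul_Lq` with `p = q = 2` (`Real.HolderConjugate.two_two`), `exp(x+y) = exp x exp y`, squares `exp(2x)`; `reg_gauss_lin` with `2t`: `exp((2t)²/2 · V) = exp(2 t² V)`, `reg_gauss_quad` with `a = 2c`; `ENNReal.ofReal_rpow_of_pos`, `(exp z)^(1/2) = exp(z/2)`.
## LEAF `REG-G5` : `reg_qf_nonneg`, `reg_qf_add_le`, `reg_qf_sub_le`, `reg_qf_sum_le`, `reg_qf_schur`   (~150 lines)
PLAN.  `PosSemidef`: `0 ≤ regQf Γ (b - c)` and symmetry give `2 b Γ c ≤ bΓb + cΓc`.  Sum: Cauchy-Schwarz by induction, or `regQf Γ b = ‖√Γ b‖²`; simplest: `inner_mul_le_norm_mul_norm`-free: induction on the finset using `regQf (x+y) ≤ (1+1/n) ..`; or convexity: `regQf Γ (∑_{i ∈ s} b_i) ≤ |s| ∑ regQf Γ (b_i)` from `0 ≤ ∑_{i,j} regQf Γ (b_i - b_j)`.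
Schur: `|β_z β_z' Γ_zz'| ≤ (β_z² + β_z'²)/2 |Γ_zz'|`, symmetry of `Γ` (`hΓ.isHermitian`).
Helper lemmas with prefix `regg_`.
-/

set_option autoImplicit false

namespace Claimed.Agent.R285.Reg

open MeasureTheory ProbabilityTheory Matrix
open scoped ENNReal NNReal

noncomputable section

variable {ι κ : Type} [Fintype ι] [DecidableEq ι] [Fintype κ] [DecidableEq κ]

/-- centred Gaussian measure on `ι → ℝ` with covariance `Γ` -/
def regGauss (Γ : Matrix ι ι ℝ) : Measure (ι → ℝ) :=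
  (multivariateGaussian 0 Γ).map (MeasurableEquiv.toLp 2 (ι → ℝ)).symm

/-- the quadratic form of `Γ` -/
def regQf (Γ : Matrix ι ι ℝ) (b : ι → ℝ) : ℝ := b ⬝ᵥ Γ *ᵥ b

/-! ### LEAF `REG-G1` -/

theorem regg_inv_le_exp {x : ℝ} (h0 : 0 ≤ x) (h1 : x ≤ 1 / 2) : 1 / (1 - x) ≤ Real.exp (2 * x) := by
  have hx : 0 < 1 - x := by linarith
  have e : 1 / (1 - x) = x / (1 - x) + 1 := by field_simp; ring
  rw [e]
  refine (Real.add_one_le_exp _).trans (Real.exp_le_exp.2 ?_)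
  rw [div_le_iff₀ hx]
  nlinarith

theorem reg_gauss1 {c : ℝ} (h0 : 0 ≤ c) (h1 : c ≤ 1 / 4) :
    ∫⁻ x, ENNReal.ofReal (Real.exp (c * x ^ 2)) ∂(gaussianReal 0 1) ≤ ENNReal.ofReal (Real.exp (2 * c)) := by
  have hb : 0 < 1 / 2 - c := by linarith
  have hm : Measurable fun x : ℝ => ENNReal.ofReal (Real.exp (c * x ^ 2)) := by fun_prop
  rw [gaussianReal_of_var_ne_zero 0 one_ne_zero,
    lintegral_withDensity_eq_lintegral_mul _ (measurable_gaussianPDF 0 1) hm]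
  have e : ∀ x : ℝ, (gaussianPDF 0 1 * fun x => ENNReal.ofReal (Real.exp (c * x ^ 2))) x
      = ENNReal.ofReal ((√(2 * Real.pi))⁻¹ * Real.exp (-(1 / 2 - c) * x ^ 2)) := by
    intro x
    simp only [Pi.mul_apply, gaussianPDF, gaussianPDFReal]
    rw [← ENNReal.ofReal_mul (by positivity)]
    congr 1
    simp only [NNReal.coe_one, mul_one, sub_zero]
    rw [mul_assoc, ← Real.exp_add]
    congr 2
    ring
  simp_rw [e]
  rw [← ofReal_integral_eq_lintegral_ofReal ((integrable_exp_neg_mul_sq hb).const_mul _)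
    (ae_of_all _ fun x => by positivity)]
  apply ENNReal.ofReal_le_ofReal
  rw [integral_const_mul, integral_gaussian, ← Real.sqrt_inv, ← Real.sqrt_mul (by positivity)]
  rw [Real.sqrt_le_left (Real.exp_pos _).le, ← Real.exp_nat_mul]
  have e2 : (2 * Real.pi)⁻¹ * (Real.pi / (1 / 2 - c)) = 1 / (1 - 2 * c) := by
    have hpi := Real.pi_pos
    have h3 : (1 : ℝ) - 2 * c ≠ 0 := by linarith
    have h4 : (1 : ℝ) / 2 - c ≠ 0 := hb.ne'
    field_simp
  rw [e2]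
  refine (regg_inv_le_exp (by linarith) (by linarith)).trans (le_of_eq ?_)
  congr 1

theorem reg_gauss_pi (l : ι → ℝ) (h0 : ∀ i, 0 ≤ l i) (h1 : ∀ i, l i ≤ 1 / 4) :
    ∫⁻ x : ι → ℝ, ENNReal.ofReal (Real.exp (∑ i, l i * x i ^ 2)) ∂(Measure.pi fun _ : ι => gaussianReal 0 1)
      ≤ ENNReal.ofReal (Real.exp (2 * ∑ i, l i)) := by
  have hm : ∀ i, Measurable fun x : ℝ => ENNReal.ofReal (Real.exp (l i * x ^ 2)) := fun i => by
    fun_prop
  have e : ∀ x : ι → ℝ, ENNReal.ofReal (Real.exp (∑ i, l i * x i ^ 2))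
      = ∏ i, ENNReal.ofReal (Real.exp (l i * x i ^ 2)) := by
    intro x
    rw [Real.exp_sum, ENNReal.ofReal_prod_of_nonneg fun i _ => (Real.exp_pos _).le]
  simp_rw [e]
  have hind : iIndepFun (fun i (x : ι → ℝ) => ENNReal.ofReal (Real.exp (l i * x i ^ 2)))
      (Measure.pi fun _ : ι => gaussianReal 0 1) :=
    iIndepFun_pi (X := fun i (x : ℝ) => ENNReal.ofReal (Real.exp (l i * x ^ 2)))
      fun i => (hm i).aemeasurable
  rw [lintegral_prod_eq_prod_lintegral_of_indepFun Finset.univ _ hind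
    fun i => (hm i).comp (measurable_pi_apply i)]
  have e2 : ∀ i, ∫⁻ x : ι → ℝ, ENNReal.ofReal (Real.exp (l i * x i ^ 2))
      ∂(Measure.pi fun _ : ι => gaussianReal 0 1)
      = ∫⁻ x, ENNReal.ofReal (Real.exp (l i * x ^ 2)) ∂(gaussianReal 0 1) := fun i =>
    (measurePreserving_eval (fun _ : ι => gaussianReal 0 1) i).lintegral_comp (hm i)
  simp_rw [e2]
  rw [Finset.mul_sum, Real.exp_sum, ENNReal.ofReal_prod_of_nonneg fun i _ => (Real.exp_pos _).le]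
  exact Finset.prod_le_prod' fun i _ => reg_gauss1 (h0 i) (h1 i)

/-! ### LEAF `REG-G5` -/

theorem reg_qf_nonneg {Γ : Matrix ι ι ℝ} (hΓ : Γ.PosSemidef) (b : ι → ℝ) : 0 ≤ regQf Γ b := by
  have h := hΓ.dotProduct_mulVec_nonneg b
  rwa [star_trivial] at h

theorem regg_parallelogram (Γ : Matrix ι ι ℝ) (b c : ι → ℝ) :
    regQf Γ (b + c) + regQf Γ (b - c) = 2 * regQf Γ b + 2 * regQf Γ c := by
  unfold regQf
  simp only [mulVec_add, mulVec_sub, add_dotProduct, sub_dotProduct, dotProduct_add, dotProduct_sub]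
  ring

theorem reg_qf_add_le {Γ : Matrix ι ι ℝ} (hΓ : Γ.PosSemidef) (b c : ι → ℝ) :
    regQf Γ (b + c) ≤ 2 * regQf Γ b + 2 * regQf Γ c := by
  have h1 := regg_parallelogram Γ b c
  have h2 := reg_qf_nonneg hΓ (b - c)
  linarith

theorem reg_qf_sub_le {Γ : Matrix ι ι ℝ} (hΓ : Γ.PosSemidef) (b c : ι → ℝ) :
    regQf Γ (b - c) ≤ 2 * regQf Γ b + 2 * regQf Γ c := by
  have h1 := regg_parallelogram Γ b c
  have h2 := reg_qf_nonneg hΓ (b + c)
  linarith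

/-- weighted form: `n Q(x+y) + Q(n x - y) = n (1+n) Q(x) + (n+1) Q(y)` -/
theorem regg_weighted (Γ : Matrix ι ι ℝ) (x y : ι → ℝ) (n : ℝ) :
    n * regQf Γ (x + y) + regQf Γ (n • x - y) = n * (1 + n) * regQf Γ x + (n + 1) * regQf Γ y := by
  unfold regQf
  simp only [mulVec_add, mulVec_sub, mulVec_smul, add_dotProduct, sub_dotProduct, dotProduct_add,
    dotProduct_sub, smul_dotProduct, dotProduct_smul, smul_eq_mul]
  ring

theorem reg_qf_sum_le {Γ : Matrix ι ι ℝ} (hΓ : Γ.PosSemidef) {J : Type} (s : Finset J) (b : J → ι → ℝ) :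
    regQf Γ (∑ j ∈ s, b j) ≤ s.card * ∑ j ∈ s, regQf Γ (b j) := by
  classical
  induction s using Finset.induction_on with
  | empty => simp [regQf]
  | insert a s ha ih =>
    rw [Finset.sum_insert ha, Finset.sum_insert ha, Finset.card_insert_of_notMem ha]
    rcases Nat.eq_zero_or_pos s.card with h0 | hpos
    · rw [Finset.card_eq_zero] at h0
      subst h0
      simp
    · have hn : (0 : ℝ) < s.card := by exact_mod_cast hpos
      have h1 := regg_weighted Γ (b a) (∑ j ∈ s, b j) s.card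
      have h2 := reg_qf_nonneg hΓ ((s.card : ℝ) • b a - ∑ j ∈ s, b j)
      have h3 : (s.card : ℝ) * regQf Γ (b a + ∑ j ∈ s, b j)
          ≤ s.card * ((s.card + 1 : ℝ) * (regQf Γ (b a) + ∑ j ∈ s, regQf Γ (b j))) := by
        have h4 : ((s.card : ℝ) + 1) * regQf Γ (∑ j ∈ s, b j)
            ≤ ((s.card : ℝ) + 1) * (s.card * ∑ j ∈ s, regQf Γ (b j)) :=
          mul_le_mul_of_nonneg_left ih (by positivity)
        nlinarith
      have h5 := le_of_mul_le_mul_left h3 hn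
      push_cast
      exact h5

/-- Schur test on a support `T` -/
theorem reg_qf_schur {Γ : Matrix ι ι ℝ} (hΓ : Γ.PosSemidef) (T : Finset ι) (β : ι → ℝ) (hβ : ∀ z, z ∉ T → β z = 0)
    {R : ℝ} (hR : ∀ z ∈ T, ∑ z' ∈ T, |Γ z z'| ≤ R) : regQf Γ β ≤ R * ∑ z, β z ^ 2 := by
  have hsymm : ∀ z z', Γ z z' = Γ z' z := fun z z' => by
    have h := hΓ.isHermitian.apply z z'
    simpa using h.symm
  have e1 : regQf Γ β = ∑ z ∈ T, ∑ z' ∈ T, β z * (Γ z z' * β z') := by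
    unfold regQf dotProduct mulVec dotProduct
    rw [← Finset.sum_subset (Finset.subset_univ T) fun z _ hz => by rw [hβ z hz, zero_mul]]
    refine Finset.sum_congr rfl fun z _ => ?_
    rw [← Finset.sum_subset (Finset.subset_univ T) fun z' _ hz' => by rw [hβ z' hz', mul_zero],
      Finset.mul_sum]
  have e2 : ∑ z, β z ^ 2 = ∑ z ∈ T, β z ^ 2 :=
    (Finset.sum_subset (Finset.subset_univ T) fun z _ hz => by rw [hβ z hz]; simp).symm
  have h1 : ∀ z z', β z * (Γ z z' * β z') ≤ |Γ z z'| * (β z ^ 2 / 2) + |Γ z z'| * (β z' ^ 2 / 2) := by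
    intro z z'
    have h2 : β z * (Γ z z' * β z') ≤ |Γ z z'| * |β z * β z'| := by
      rw [← abs_mul]
      refine le_trans (le_of_eq ?_) (le_abs_self _)
      ring
    have h3 : |β z * β z'| ≤ β z ^ 2 / 2 + β z' ^ 2 / 2 := by
      rw [abs_le]
      constructor <;> nlinarith [sq_nonneg (β z - β z'), sq_nonneg (β z + β z')]
    calc β z * (Γ z z' * β z') ≤ |Γ z z'| * |β z * β z'| := h2
      _ ≤ |Γ z z'| * (β z ^ 2 / 2 + β z' ^ 2 / 2) := mul_le_mul_of_nonneg_left h3 (abs_nonneg _)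
      _ = _ := by ring
  have h4 : ∑ z ∈ T, ∑ z' ∈ T, |Γ z z'| * (β z ^ 2 / 2) ≤ R * ∑ z ∈ T, β z ^ 2 / 2 := by
    rw [Finset.mul_sum]
    refine Finset.sum_le_sum fun z hz => ?_
    rw [← Finset.sum_mul]
    exact mul_le_mul_of_nonneg_right (hR z hz) (by positivity)
  have h5 : ∑ z ∈ T, ∑ z' ∈ T, |Γ z z'| * (β z' ^ 2 / 2) ≤ R * ∑ z ∈ T, β z ^ 2 / 2 := by
    rw [Finset.sum_comm]
    refine le_trans (le_of_eq ?_) h4
    refine Finset.sum_congr rfl fun z _ => Finset.sum_congr rfl fun z' _ => ?_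
    rw [hsymm]
  rw [e1, e2]
  calc ∑ z ∈ T, ∑ z' ∈ T, β z * (Γ z z' * β z')
      ≤ ∑ z ∈ T, ∑ z' ∈ T, (|Γ z z'| * (β z ^ 2 / 2) + |Γ z z'| * (β z' ^ 2 / 2)) :=
        Finset.sum_le_sum fun z _ => Finset.sum_le_sum fun z' _ => h1 z z'
    _ = ∑ z ∈ T, ∑ z' ∈ T, |Γ z z'| * (β z ^ 2 / 2) + ∑ z ∈ T, ∑ z' ∈ T, |Γ z z'| * (β z' ^ 2 / 2) := by
        simp_rw [Finset.sum_add_distrib]
    _ ≤ R * ∑ z ∈ T, β z ^ 2 / 2 + R * ∑ z ∈ T, β z ^ 2 / 2 := add_le_add h4 h5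
    _ = R * ∑ z ∈ T, β z ^ 2 := by
        rw [← Finset.sum_div]; ring

/-! ### LEAF `REG-G3` -/

instance reg_gauss_prob (Γ : Matrix ι ι ℝ) : IsProbabilityMeasure (regGauss Γ) :=
  Measure.isProbabilityMeasure_map (MeasurableEquiv.measurable _).aemeasurable

theorem regg_psd_conj {Γ : Matrix ι ι ℝ} (hΓ : Γ.PosSemidef) (B : Matrix κ ι ℝ) :
    (B * Γ * Bᵀ).PosSemidef := by
  have h := hΓ.mul_mul_conjTranspose_same B
  rwa [conjTranspose_eq_transpose_of_trivial] at h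

theorem regg_mv_map {Γ : Matrix ι ι ℝ} (hΓ : Γ.PosSemidef) (B : Matrix κ ι ℝ) :
    (multivariateGaussian 0 Γ).map
      (fun x : EuclideanSpace ℝ ι => (WithLp.toLp 2 (B *ᵥ x.ofLp) : EuclideanSpace ℝ κ))
      = multivariateGaussian 0 (B * Γ * Bᵀ) := by
  have hS := regg_psd_conj hΓ B
  have hmeas : Measurable
      (fun x : EuclideanSpace ℝ ι => (WithLp.toLp 2 (B *ᵥ x.ofLp) : EuclideanSpace ℝ κ)) := by
    fun_prop
  apply Measure.ext_of_charFun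
  ext t
  rw [charFun_apply, integral_map hmeas.aemeasurable (by fun_prop), charFun_multivariateGaussian hS]
  have e : ∀ x : EuclideanSpace ℝ ι,
      inner ℝ (WithLp.toLp 2 (B *ᵥ x.ofLp) : EuclideanSpace ℝ κ) t
        = inner ℝ x (WithLp.toLp 2 (Bᵀ *ᵥ t.ofLp) : EuclideanSpace ℝ ι) := by
    intro x
    rw [EuclideanSpace.inner_eq_star_dotProduct, EuclideanSpace.inner_eq_star_dotProduct]
    simp only [star_trivial]
    rw [Matrix.dotProduct_mulVec, Matrix.mulVec_transpose]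
  simp_rw [e]
  rw [← charFun_apply, charFun_multivariateGaussian hΓ]
  simp only [inner_zero_right]
  congr 4
  rw [← Matrix.mulVec_mulVec, ← Matrix.mulVec_mulVec, Matrix.dotProduct_mulVec t.ofLp B,
    Matrix.mulVec_transpose]

/-- the image of a Gaussian under a linear map -/
theorem reg_gauss_map {Γ : Matrix ι ι ℝ} (hΓ : Γ.PosSemidef) (B : Matrix κ ι ℝ) :
    (regGauss Γ).map (fun ζ => B *ᵥ ζ) = regGauss (B * Γ * Bᵀ) := by
  unfold regGauss
  have hm1 : Measurable (fun ζ : ι → ℝ => B *ᵥ ζ) := by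
    have hc : Continuous (fun ζ : ι → ℝ => B *ᵥ ζ) := by fun_prop
    exact hc.measurable
  have hm2 : Measurable
      (fun x : EuclideanSpace ℝ ι => (WithLp.toLp 2 (B *ᵥ x.ofLp) : EuclideanSpace ℝ κ)) := by
    fun_prop
  rw [← regg_mv_map hΓ B, Measure.map_map hm1 (MeasurableEquiv.measurable _),
    Measure.map_map (MeasurableEquiv.measurable _) hm2]
  rfl

/-- the law of a linear form -/
theorem regg_lin_law {Γ : Matrix ι ι ℝ} (hΓ : Γ.PosSemidef) (b : ι → ℝ) :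
    (regGauss Γ).map (fun ζ => b ⬝ᵥ ζ) = gaussianReal 0 (regQf Γ b).toNNReal := by
  obtain ⟨B, hB⟩ : ∃ B : Matrix Unit ι ℝ, B = Matrix.of fun _ i => b i := ⟨_, rfl⟩
  have hS := regg_psd_conj hΓ B
  have h1 := reg_gauss_map hΓ B
  have h2 := (measurePreserving_eval_multivariateGaussian (μ := 0) hS (i := ())).map_eq
  have hm1 : Measurable (fun ζ : ι → ℝ => B *ᵥ ζ) := by
    have hc : Continuous (fun ζ : ι → ℝ => B *ᵥ ζ) := by fun_prop
    exact hc.measurable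
  have e1 : (fun ζ : ι → ℝ => b ⬝ᵥ ζ) = (fun y : Unit → ℝ => y ()) ∘ fun ζ : ι → ℝ => B *ᵥ ζ := by
    funext ζ
    rw [hB]
    rfl
  rw [e1, ← Measure.map_map (measurable_pi_apply ()) hm1, h1]
  unfold regGauss
  rw [Measure.map_map (measurable_pi_apply ()) (MeasurableEquiv.measurable _)]
  have e2 : ((fun y : Unit → ℝ => y ()) ∘ ⇑(MeasurableEquiv.toLp 2 (Unit → ℝ)).symm)
      = fun x : EuclideanSpace ℝ Unit => x () := rfl
  rw [e2, h2]
  have e3 : (B * Γ * Bᵀ) () () = regQf Γ b := by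
    rw [hB]
    unfold regQf
    rw [Matrix.mul_apply, dotProduct_mulVec, dotProduct]
    refine Finset.sum_congr rfl fun i _ => ?_
    rw [Matrix.mul_apply]
    rfl
  rw [e3]
  rfl

/-- the exact exponential moment of a linear form -/
theorem reg_gauss_lin {Γ : Matrix ι ι ℝ} (hΓ : Γ.PosSemidef) (b : ι → ℝ) (t : ℝ) :
    ∫⁻ ζ, ENNReal.ofReal (Real.exp (t * (b ⬝ᵥ ζ))) ∂(regGauss Γ) = ENNReal.ofReal (Real.exp (t ^ 2 / 2 * regQf Γ b)) := by
  have hm : Measurable (fun ζ : ι → ℝ => b ⬝ᵥ ζ) := by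
    have hc : Continuous (fun ζ : ι → ℝ => b ⬝ᵥ ζ) := by fun_prop
    exact hc.measurable
  have hf : Measurable fun y : ℝ => ENNReal.ofReal (Real.exp (t * y)) := by fun_prop
  have h1 := lintegral_map (μ := regGauss Γ) hf hm
  rw [← h1, regg_lin_law hΓ b,
    ← ofReal_integral_eq_lintegral_ofReal (integrable_exp_mul_gaussianReal t)
      (ae_of_all _ fun y => (Real.exp_pos _).le)]
  congr 1
  have h2 := mgf_gaussianReal (p := gaussianReal 0 (regQf Γ b).toNNReal) (X := id)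
    (μ := 0) (v := (regQf Γ b).toNNReal) (by simp) t
  have h3 : mgf id (gaussianReal 0 (regQf Γ b).toNNReal) t
      = ∫ y, Real.exp (t * y) ∂(gaussianReal 0 (regQf Γ b).toNNReal) := rfl
  rw [← h3, h2, Real.coe_toNNReal _ (reg_qf_nonneg hΓ b)]
  congr 1
  ring

/-! ### LEAF `REG-G2` -/

theorem regg_gauss_one : regGauss (1 : Matrix ι ι ℝ) = Measure.pi fun _ : ι => gaussianReal 0 1 := by
  unfold regGauss
  rw [multivariateGaussian_zero_one, ← map_pi_eq_stdGaussian,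
    Measure.map_map (MeasurableEquiv.measurable _) (by fun_prop)]
  have e : (⇑(MeasurableEquiv.toLp 2 (ι → ℝ)).symm ∘ WithLp.toLp 2) = id := rfl
  rw [e, Measure.map_id]

/-- spectral factorisation `S = C Cᵀ`, `Cᵀ C` diagonal -/
theorem regg_factor {S : Matrix ι ι ℝ} (hS : S.PosSemidef) :
    ∃ (C : Matrix ι ι ℝ) (d : ι → ℝ), C * 1 * Cᵀ = S ∧ Cᵀ * C = diagonal d ∧ (∀ i, 0 ≤ d i) ∧
      S.trace = ∑ i, d i ∧ ∀ i, ∃ u : ι → ℝ, u ⬝ᵥ u = 1 ∧ u ⬝ᵥ S *ᵥ u = d i := by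
  obtain ⟨U, hU⟩ : ∃ U : Matrix ι ι ℝ, U = (hS.1.eigenvectorUnitary : Matrix ι ι ℝ) := ⟨_, rfl⟩
  obtain ⟨d, hd⟩ : ∃ d : ι → ℝ, d = hS.1.eigenvalues := ⟨_, rfl⟩
  have hd0 : ∀ i, 0 ≤ d i := fun i => by rw [hd]; exact hS.eigenvalues_nonneg i
  have hUU : Uᵀ * U = 1 := by
    have h := Unitary.coe_star_mul_self hS.1.eigenvectorUnitary
    rw [← hU] at h
    rwa [star_eq_conjTranspose, conjTranspose_eq_transpose_of_trivial] at h
  have hspec : S = U * diagonal d * Uᵀ := by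
    have h := hS.1.spectral_theorem
    rw [Unitary.conjStarAlgAut_apply, ← hU, star_eq_conjTranspose,
      conjTranspose_eq_transpose_of_trivial] at h
    rw [hd]
    exact h
  have hsq : diagonal (fun i => √(d i)) * diagonal (fun i => √(d i)) = diagonal d := by
    rw [diagonal_mul_diagonal]
    congr 1
    funext i
    exact Real.mul_self_sqrt (hd0 i)
  refine ⟨U * diagonal (fun i => √(d i)), d, ?_, ?_, hd0, ?_, ?_⟩
  · rw [mul_one, transpose_mul, diagonal_transpose, hspec, Matrix.mul_assoc, ← Matrix.mul_assoc _ _ Uᵀ,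
      hsq, Matrix.mul_assoc]
  · rw [transpose_mul, diagonal_transpose, Matrix.mul_assoc, ← Matrix.mul_assoc Uᵀ, hUU,
      Matrix.one_mul, hsq]
  · rw [hd]
    have h := hS.1.trace_eq_sum_eigenvalues
    simpa using h
  · intro i
    refine ⟨⇑(hS.1.eigenvectorBasis i), ?_, ?_⟩
    · have h1 := hS.1.eigenvectorBasis.orthonormal.1 i
      have h2 := real_inner_self_eq_norm_sq (hS.1.eigenvectorBasis i)
      rw [h1, EuclideanSpace.inner_eq_star_dotProduct, star_trivial] at h2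
      simpa using h2
    · have h1 := hS.1.eigenvectorBasis.orthonormal.1 i
      have h2 := real_inner_self_eq_norm_sq (hS.1.eigenvectorBasis i)
      rw [h1, EuclideanSpace.inner_eq_star_dotProduct, star_trivial] at h2
      rw [hS.1.mulVec_eigenvectorBasis, dotProduct_smul, hd]
      have h3 : (hS.1.eigenvectorBasis i).ofLp ⬝ᵥ (hS.1.eigenvectorBasis i).ofLp = 1 := by
        simpa using h2
      rw [h3]
      simp

theorem reg_gauss_quad0 {S : Matrix ι ι ℝ} (hS : S.PosSemidef) {Λ a : ℝ}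
    (hΛ : ∀ u : ι → ℝ, u ⬝ᵥ S *ᵥ u ≤ Λ * (u ⬝ᵥ u)) (ha : 0 ≤ a) (hs : 4 * a * Λ ≤ 1) :
    ∫⁻ x, ENNReal.ofReal (Real.exp (a * ∑ i, x i ^ 2)) ∂(regGauss S) ≤ ENNReal.ofReal (Real.exp (2 * a * S.trace)) := by
  obtain ⟨C, d, hC1, hC2, hd0, htr, hev⟩ := regg_factor hS
  have hdΛ : ∀ i, d i ≤ Λ := fun i => by
    obtain ⟨u, hu1, hu2⟩ := hev i
    have h := hΛ u
    rw [hu1, hu2, mul_one] at h
    exact h
  have hm1 : Measurable (fun ζ : ι → ℝ => C *ᵥ ζ) := by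
    have hc : Continuous (fun ζ : ι → ℝ => C *ᵥ ζ) := by fun_prop
    exact hc.measurable
  have hf : Measurable fun x : ι → ℝ => ENNReal.ofReal (Real.exp (a * ∑ i, x i ^ 2)) := by fun_prop
  rw [← hC1, ← reg_gauss_map PosSemidef.one C, lintegral_map hf hm1, regg_gauss_one, hC1, htr]
  have e : ∀ y : ι → ℝ, a * ∑ i, (C *ᵥ y) i ^ 2 = ∑ i, (a * d i) * y i ^ 2 := by
    intro y
    have h1 : ∑ i, (C *ᵥ y) i ^ 2 = (C *ᵥ y) ⬝ᵥ (C *ᵥ y) := by
      unfold dotProduct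
      exact Finset.sum_congr rfl fun i _ => sq _
    rw [h1, dotProduct_mulVec, ← mulVec_transpose, dotProduct_comm, mulVec_mulVec, hC2]
    unfold dotProduct
    rw [Finset.mul_sum]
    refine Finset.sum_congr rfl fun i _ => ?_
    rw [mulVec_diagonal]
    ring
  simp_rw [e]
  refine (reg_gauss_pi (fun i => a * d i) (fun i => mul_nonneg ha (hd0 i)) fun i => ?_).trans
    (le_of_eq ?_)
  · have h1 : a * d i ≤ a * Λ := mul_le_mul_of_nonneg_left (hdΛ i) ha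
    linarith
  · rw [← Finset.mul_sum]
    congr 2
    ring

/-! ### LEAF `REG-G4` -/

/-- `E exp (a |Z|²) ≤ exp (2 a tr Cov Z)` for `Z = (⟨B_k, ζ⟩)_k`, `4 a ‖Cov Z‖ ≤ 1` -/
theorem reg_gauss_quad {Γ : Matrix ι ι ℝ} (hΓ : Γ.PosSemidef) (B : κ → ι → ℝ) {Λ τ a : ℝ}
    (hop : ∀ u : κ → ℝ, regQf Γ (∑ k, u k • B k) ≤ Λ * ∑ k, u k ^ 2) (htr : ∑ k, regQf Γ (B k) ≤ τ)
    (ha : 0 ≤ a) (hs : 4 * a * Λ ≤ 1) :
    ∫⁻ ζ, ENNReal.ofReal (Real.exp (a * ∑ k, (B k ⬝ᵥ ζ) ^ 2)) ∂(regGauss Γ) ≤ ENNReal.ofReal (Real.exp (2 * a * τ)) := by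
  obtain ⟨M, hM⟩ : ∃ M : Matrix κ ι ℝ, M = Matrix.of B := ⟨_, rfl⟩
  have hS := regg_psd_conj hΓ M
  have hm1 : Measurable (fun ζ : ι → ℝ => M *ᵥ ζ) := by
    have hc : Continuous (fun ζ : ι → ℝ => M *ᵥ ζ) := by fun_prop
    exact hc.measurable
  have hf : Measurable fun x : κ → ℝ => ENNReal.ofReal (Real.exp (a * ∑ k, x k ^ 2)) := by fun_prop
  have e1 : ∀ ζ : ι → ℝ, ENNReal.ofReal (Real.exp (a * ∑ k, (B k ⬝ᵥ ζ) ^ 2))
      = ENNReal.ofReal (Real.exp (a * ∑ k, (M *ᵥ ζ) k ^ 2)) := by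
    intro ζ
    rw [hM]
    rfl
  have h1 := lintegral_map (μ := regGauss Γ) hf hm1
  rw [lintegral_congr e1, ← h1, reg_gauss_map hΓ M]
  have hq : ∀ u : κ → ℝ, u ⬝ᵥ (M * Γ * Mᵀ) *ᵥ u = regQf Γ (∑ k, u k • B k) := by
    intro u
    have h2 : ∑ k, u k • B k = Mᵀ *ᵥ u := by
      funext i
      rw [hM, Finset.sum_apply]
      unfold mulVec dotProduct
      refine Finset.sum_congr rfl fun k _ => ?_
      simp [mul_comm]
    rw [h2]
    unfold regQf
    rw [← mulVec_mulVec, ← mulVec_mulVec, dotProduct_mulVec, ← mulVec_transpose]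
  have htrace : (M * Γ * Mᵀ).trace = ∑ k, regQf Γ (B k) := by
    unfold Matrix.trace
    refine Finset.sum_congr rfl fun k _ => ?_
    rw [hM, Matrix.diag_apply]
    unfold regQf
    rw [Matrix.mul_apply, dotProduct_mulVec, dotProduct]
    refine Finset.sum_congr rfl fun i _ => ?_
    rw [Matrix.mul_apply]
    rfl
  refine (reg_gauss_quad0 hS (Λ := Λ) (fun u => ?_) ha hs).trans ?_
  · rw [hq]
    refine (hop u).trans (le_of_eq ?_)
    congr 1
    unfold dotProduct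
    exact Finset.sum_congr rfl fun i _ => sq _
  · apply ENNReal.ofReal_le_ofReal
    apply Real.exp_le_exp.2
    rw [htrace]
    exact mul_le_mul_of_nonneg_left htr (by positivity)

/-- **OUTPUT** -/
theorem reg_gauss_comb {Γ : Matrix ι ι ℝ} (hΓ : Γ.PosSemidef) (b : ι → ℝ) (B : κ → ι → ℝ) {Λ τ c : ℝ} (t : ℝ)
    (hop : ∀ u : κ → ℝ, regQf Γ (∑ k, u k • B k) ≤ Λ * ∑ k, u k ^ 2) (htr : ∑ k, regQf Γ (B k) ≤ τ)
    (hc : 0 ≤ c) (hs : 8 * c * Λ ≤ 1) :
    ∫⁻ ζ, ENNReal.ofReal (Real.exp (t * (b ⬝ᵥ ζ) + c * ∑ k, (B k ⬝ᵥ ζ) ^ 2)) ∂(regGauss Γ)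
      ≤ ENNReal.ofReal (Real.exp (t ^ 2 * regQf Γ b + 2 * c * τ)) := by
  have hmb : ∀ v : ι → ℝ, Measurable (fun ζ : ι → ℝ => v ⬝ᵥ ζ) := by
    intro v
    have hc : Continuous (fun ζ : ι → ℝ => v ⬝ᵥ ζ) := by fun_prop
    exact hc.measurable
  have hf : Measurable fun ζ : ι → ℝ => ENNReal.ofReal (Real.exp (t * (b ⬝ᵥ ζ))) := by
    have := hmb b
    fun_prop
  have hg : Measurable fun ζ : ι → ℝ => ENNReal.ofReal (Real.exp (c * ∑ k, (B k ⬝ᵥ ζ) ^ 2)) := by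
    have := fun k => hmb (B k)
    fun_prop
  have h := ENNReal.lintegral_mul_le_Lp_mul_Lq (regGauss Γ) Real.HolderConjugate.two_two
    hf.aemeasurable hg.aemeasurable
  have e0 : ∀ ζ : ι → ℝ, ENNReal.ofReal (Real.exp (t * (b ⬝ᵥ ζ) + c * ∑ k, (B k ⬝ᵥ ζ) ^ 2))
      = ((fun ζ : ι → ℝ => ENNReal.ofReal (Real.exp (t * (b ⬝ᵥ ζ))))
        * fun ζ : ι → ℝ => ENNReal.ofReal (Real.exp (c * ∑ k, (B k ⬝ᵥ ζ) ^ 2))) ζ := by
    intro ζ
    rw [Real.exp_add, ENNReal.ofReal_mul (Real.exp_pos _).le]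
    rfl
  rw [lintegral_congr e0]
  refine h.trans ?_
  have e1 : ∀ ζ : ι → ℝ, (ENNReal.ofReal (Real.exp (t * (b ⬝ᵥ ζ)))) ^ (2 : ℝ)
      = ENNReal.ofReal (Real.exp ((2 * t) * (b ⬝ᵥ ζ))) := by
    intro ζ
    rw [ENNReal.ofReal_rpow_of_pos (Real.exp_pos _), ← Real.exp_mul]
    congr 2
    ring
  have e2 : ∀ ζ : ι → ℝ, (ENNReal.ofReal (Real.exp (c * ∑ k, (B k ⬝ᵥ ζ) ^ 2))) ^ (2 : ℝ)
      = ENNReal.ofReal (Real.exp ((2 * c) * ∑ k, (B k ⬝ᵥ ζ) ^ 2)) := by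
    intro ζ
    rw [ENNReal.ofReal_rpow_of_pos (Real.exp_pos _), ← Real.exp_mul]
    congr 2
    ring
  rw [lintegral_congr e1, lintegral_congr e2, reg_gauss_lin hΓ b (2 * t)]
  have h2 := reg_gauss_quad hΓ B hop htr (a := 2 * c) (by positivity) (by linarith)
  calc _ ≤ (ENNReal.ofReal (Real.exp ((2 * t) ^ 2 / 2 * regQf Γ b))) ^ (1 / 2 : ℝ)
        * (ENNReal.ofReal (Real.exp (2 * (2 * c) * τ))) ^ (1 / 2 : ℝ) := by gcongr
    _ = _ := by
      rw [ENNReal.ofReal_rpow_of_pos (Real.exp_pos _), ENNReal.ofReal_rpow_of_pos (Real.exp_pos _),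
        ← Real.exp_mul, ← Real.exp_mul, ← ENNReal.ofReal_mul (Real.exp_pos _).le, ← Real.exp_add]
      congr 2
      ring

/-! ### sums of independent Gaussians, reflection (helper223, for `L53-B1`, `L-OBS-TB4`) -/

theorem regg_mv_add {Γ Γ' : Matrix ι ι ℝ} (hΓ : Γ.PosSemidef) (hΓ' : Γ'.PosSemidef) :
    ((multivariateGaussian 0 Γ).prod (multivariateGaussian 0 Γ')).map (fun x => x.1 + x.2)
      = multivariateGaussian 0 (Γ + Γ') := by
  apply Measure.ext_of_charFun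
  ext t
  have h := charFun_conv (μ := multivariateGaussian 0 Γ) (ν := multivariateGaussian 0 Γ') t
  rw [Measure.conv] at h
  rw [h, charFun_multivariateGaussian hΓ, charFun_multivariateGaussian hΓ', charFun_multivariateGaussian (hΓ.add hΓ'),
    ← Complex.exp_add]
  congr 1
  simp only [inner_zero_right, Matrix.add_mulVec, dotProduct_add]
  push_cast
  ring

/-- the sum of two independent Gaussians -/
theorem reg_gauss_add {Γ Γ' : Matrix ι ι ℝ} (hΓ : Γ.PosSemidef) (hΓ' : Γ'.PosSemidef) :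
    ((regGauss Γ).prod (regGauss Γ')).map (fun x => x.1 + x.2) = regGauss (Γ + Γ') := by
  unfold regGauss
  rw [← regg_mv_add hΓ hΓ', Measure.map_prod_map _ _ (MeasurableEquiv.measurable _) (MeasurableEquiv.measurable _),
    Measure.map_map (by fun_prop) (by fun_prop), Measure.map_map (MeasurableEquiv.measurable _) (by fun_prop)]
  rfl

/-- linear images, function form -/
theorem reg_gauss_map' {Γ : Matrix ι ι ℝ} (hΓ : Γ.PosSemidef) (B : Matrix κ ι ℝ) (f : (ι → ℝ) → κ → ℝ)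
    (hf : ∀ ζ, f ζ = B *ᵥ ζ) : (regGauss Γ).map f = regGauss (B * Γ * Bᵀ) := by
  rw [← reg_gauss_map hΓ B]
  congr 1
  funext ζ
  exact hf ζ

theorem reg_gauss_neg {Γ : Matrix ι ι ℝ} (hΓ : Γ.PosSemidef) : (regGauss Γ).map (fun ζ => -ζ) = regGauss Γ := by
  rw [reg_gauss_map' hΓ (-1 : Matrix ι ι ℝ) _ (fun ζ => by rw [Matrix.neg_mulVec, Matrix.one_mulVec])]
  congr 1
  simp

end

end Claimed.Agent.R285.Reg
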