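import Mathlib

/-!
# ROW 285 / PK-REG ([B] Lemma 4.4) / Zlat : one-dimensional inequalities on `ℤ`      (architect helper15)   -- KEEP

MATHLIB ONLY.
## LEAF `REG-Z1` : `reg_z1_fwd`, `reg_z1_bwd`   (~150 lines)     the discrete Sobolev inequality on an interval of `q` sites
PLAN.  For `i, j ∈ [s, s+q)`: `u i - u j = ± ∑_{k between} (u (k+1) - u k)` (`Finset.sum_Ico_consecutive`-type telescoping on `ℤ`; or induction on the distance), so by Cauchy-Schwarz
`(u i - u j)² ≤ q ∑_{k ∈ [s, s+q)} (u (k+1) - u k)²` (`Finset.sum_mul_sq_le_sq_mul_sq` / `inner_mul_le_norm_mul_norm`; at most `q` terms, the missing terms are `≥ 0`).  `u i² ≤ 2 u j² + 2 (u i - u j)²`; average over the `q` values of `j` (`Int.card_Ico`).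
`bwd` from `fwd` by the reflection `u' k = u (-k)` (or the same proof).
## LEAF `REG-Z2` : `reg_log_sum`   (~100 lines)
PLAN.  `posLog (S/(m+j)) ≤ posLog (S/(1+j))` (`Real.posLog_le_posLog`/monotone), `= 0` for `j + 1 ≥ S`; `∑_{j < S} log (S/(j+1)) = S log S - log S! ≤ S` because `S^S / S! ≤ exp S` (`Real.pow_div_factorial_le_exp`).
-/

set_option autoImplicit false

namespace Claimed.Agent.R285.Reg

noncomputable section

/-! ### LEAF `REG-Z1` -/

theorem regz_nat (v : ℕ → ℝ) (q i : ℕ) (hi : i < q) :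
    v i ^ 2 ≤ 2 / q * ∑ j ∈ Finset.range q, v j ^ 2
      + 2 * q * ∑ j ∈ Finset.range q, (v (j + 1) - v j) ^ 2 := by
  obtain ⟨D, hD⟩ : ∃ D, D = ∑ j ∈ Finset.range q, (v (j + 1) - v j) ^ 2 := ⟨_, rfl⟩
  have hD0 : 0 ≤ D := by rw [hD]; positivity
  have hq : (0 : ℝ) < q := by exact_mod_cast (by omega : 0 < q)
  have tele : ∀ a b, a ≤ b → b < q → (v b - v a) ^ 2 ≤ q * D := by
    intro a b hab hb
    have h1 : ∑ k ∈ Finset.Ico a b, (v (k + 1) - v k) = v b - v a := by
      rw [Finset.sum_Ico_eq_sum_range]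
      have h2 := Finset.sum_range_sub (fun n => v (a + n)) (b - a)
      simp only [add_zero] at h2
      rw [show a + (b - a) = b by omega] at h2
      rw [← h2]
      rfl
    rw [← h1]
    calc (∑ k ∈ Finset.Ico a b, (v (k + 1) - v k)) ^ 2
        ≤ (Finset.Ico a b).card * ∑ k ∈ Finset.Ico a b, (v (k + 1) - v k) ^ 2 :=
          sq_sum_le_card_mul_sum_sq
      _ ≤ q * D := by
        have hc : ((Finset.Ico a b).card : ℝ) ≤ q := by
          rw [Nat.card_Ico]
          exact_mod_cast (by omega : b - a ≤ q)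
        have hs : ∑ k ∈ Finset.Ico a b, (v (k + 1) - v k) ^ 2 ≤ D := by
          rw [hD]
          refine Finset.sum_le_sum_of_subset_of_nonneg (fun k hk => ?_) (fun _ _ _ => by positivity)
          rw [Finset.mem_Ico] at hk
          rw [Finset.mem_range]
          omega
        exact mul_le_mul hc hs (Finset.sum_nonneg fun _ _ => by positivity) hq.le
  have pair : ∀ j, j < q → (v i - v j) ^ 2 ≤ q * D := by
    intro j hj
    rcases le_total j i with h | h
    · exact tele j i h hi
    · have h2 := tele i j h hj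
      nlinarith
  have each : ∀ j ∈ Finset.range q, v i ^ 2 ≤ 2 * v j ^ 2 + 2 * (q * D) := by
    intro j hj
    have h2 := pair j (Finset.mem_range.1 hj)
    nlinarith [sq_nonneg (v i - 2 * v j)]
  have hsum := Finset.sum_le_sum each
  rw [Finset.sum_const, Finset.card_range, nsmul_eq_mul, Finset.sum_add_distrib, Finset.sum_const,
    Finset.card_range, nsmul_eq_mul, ← Finset.mul_sum] at hsum
  rw [← hD]
  have h3 : v i ^ 2 = (q * v i ^ 2) / q := by field_simp
  rw [h3, div_le_iff₀ hq]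
  refine hsum.trans (le_of_eq ?_)
  field_simp

theorem regz_reindex (f : ℤ → ℝ) (s : ℤ) (q : ℕ) :
    ∑ j ∈ Finset.Ico s (s + q), f j = ∑ n ∈ Finset.range q, f (s + n) := by
  refine Finset.sum_nbij' (fun j => (j - s).toNat) (fun n => s + (n : ℤ)) ?_ ?_ ?_ ?_ ?_
  · intro j hj
    rw [Finset.mem_Ico] at hj
    rw [Finset.mem_range]
    omega
  · intro n hn
    rw [Finset.mem_range] at hn
    rw [Finset.mem_Ico]
    omega
  · intro j hj
    rw [Finset.mem_Ico] at hj
    show s + ((j - s).toNat : ℤ) = j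
    omega
  · intro n hn
    show (s + (n : ℤ) - s).toNat = n
    omega
  · intro j hj
    rw [Finset.mem_Ico] at hj
    congr 1
    show j = s + ((j - s).toNat : ℤ)
    omega

theorem regz_reindex' (f : ℤ → ℝ) (s : ℤ) (q : ℕ) :
    ∑ j ∈ Finset.Ico s (s + q), f j = ∑ n ∈ Finset.range q, f (s + q - 1 - n) := by
  rw [regz_reindex, ← Finset.sum_range_reflect]
  refine Finset.sum_congr rfl fun n hn => ?_
  rw [Finset.mem_range] at hn
  congr 1
  omega

theorem reg_z1_fwd (u : ℤ → ℝ) (s : ℤ) (q : ℕ) (i : ℤ) (hi : i ∈ Finset.Ico s (s + q)) :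
    u i ^ 2 ≤ 2 / q * ∑ j ∈ Finset.Ico s (s + q), u j ^ 2 + 2 * q * ∑ j ∈ Finset.Ico s (s + q), (u (j + 1) - u j) ^ 2 := by
  rw [Finset.mem_Ico] at hi
  have h := regz_nat (fun n => u (s + n)) q (i - s).toNat (by omega)
  rw [regz_reindex, regz_reindex]
  have e1 : s + ((i - s).toNat : ℤ) = i := by omega
  simp only [e1] at h
  refine h.trans (le_of_eq ?_)
  congr 2
  refine Finset.sum_congr rfl fun n _ => ?_
  congr 3
  push_cast
  ring

theorem reg_z1_bwd (u : ℤ → ℝ) (s : ℤ) (q : ℕ) (i : ℤ) (hi : i ∈ Finset.Ico s (s + q)) :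
    u i ^ 2 ≤ 2 / q * ∑ j ∈ Finset.Ico s (s + q), u j ^ 2 + 2 * q * ∑ j ∈ Finset.Ico s (s + q), (u (j + -1) - u j) ^ 2 := by
  rw [Finset.mem_Ico] at hi
  have h := regz_nat (fun n => u (s + q - 1 - n)) q (s + q - 1 - i).toNat (by omega)
  rw [regz_reindex', regz_reindex']
  have e1 : s + q - 1 - ((s + q - 1 - i).toNat : ℤ) = i := by omega
  simp only [e1] at h
  refine h.trans (le_of_eq ?_)
  congr 2
  refine Finset.sum_congr rfl fun n _ => ?_
  congr 3
  push_cast
  ring

/-! ### LEAF `REG-Z2` -/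

theorem reg_log_sum (S m N : ℕ) (hm : 1 ≤ m) :
    ∑ j ∈ Finset.range N, (1 + Real.posLog ((S : ℝ) / ((m : ℝ) + j))) ≤ N + S := by
  obtain ⟨a, ha⟩ : ∃ a : ℕ → ℝ, ∀ j, a j = Real.posLog ((S : ℝ) / ((j : ℝ) + 1)) :=
    ⟨_, fun _ => rfl⟩
  have ha0 : ∀ j, 0 ≤ a j := fun j => by rw [ha]; exact Real.posLog_nonneg
  have h1 : ∀ j : ℕ, Real.posLog ((S : ℝ) / ((m : ℝ) + j)) ≤ a j := by
    intro j
    rw [ha]
    apply Real.posLog_le_posLog (by positivity)
    apply div_le_div_of_nonneg_left (by positivity) (by positivity)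
    have : (1 : ℝ) ≤ m := by exact_mod_cast hm
    linarith
  have h2 : ∀ j, a (S + j) = 0 := by
    intro j
    rw [ha, Real.posLog_eq_zero_iff, abs_of_nonneg (by positivity), div_le_one (by positivity)]
    push_cast
    linarith [(Nat.cast_nonneg j : (0 : ℝ) ≤ j)]
  have h3 : ∑ j ∈ Finset.range S, a j ≤ S := by
    have e1 : ∀ j ∈ Finset.range S, a j = Real.log ((S : ℝ) / ((j : ℝ) + 1)) := by
      intro j hj
      rw [Finset.mem_range] at hj
      rw [ha]
      apply Real.posLog_eq_log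
      rw [abs_of_nonneg (by positivity), one_le_div (by positivity)]
      exact_mod_cast hj
    rw [Finset.sum_congr rfl e1, ← Real.log_prod]
    · rcases Nat.eq_zero_or_pos S with rfl | hS
      · simp
      have hSr : (0 : ℝ) < S := by exact_mod_cast hS
      rw [Real.log_le_iff_le_exp (Finset.prod_pos fun j _ => by positivity)]
      have e2 : ∏ j ∈ Finset.range S, ((S : ℝ) / ((j : ℝ) + 1)) = (S : ℝ) ^ S / (S.factorial : ℝ) := by
        rw [Finset.prod_div_distrib, Finset.prod_const, Finset.card_range,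
          ← Finset.prod_range_add_one_eq_factorial]
        push_cast
        rfl
      rw [e2]
      exact Real.pow_div_factorial_le_exp _ hSr.le S
    · intro j hj
      rw [Finset.mem_range] at hj
      have hSr : (0 : ℝ) < S := by exact_mod_cast (by omega : 0 < S)
      positivity
  calc ∑ j ∈ Finset.range N, (1 + Real.posLog ((S : ℝ) / ((m : ℝ) + j)))
      = N + ∑ j ∈ Finset.range N, Real.posLog ((S : ℝ) / ((m : ℝ) + j)) := by
        rw [Finset.sum_add_distrib]; simp
    _ ≤ N + ∑ j ∈ Finset.range N, a j := by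
        have := Finset.sum_le_sum fun j (_ : j ∈ Finset.range N) => h1 j
        linarith
    _ ≤ N + ∑ j ∈ Finset.range (S + N), a j := by
        have := Finset.sum_le_sum_of_subset_of_nonneg
          (Finset.range_subset_range.2 (by omega : N ≤ S + N)) (fun j _ _ => ha0 j)
        linarith
    _ = N + ∑ j ∈ Finset.range S, a j := by
        rw [Finset.sum_range_add]; simp [h2]
    _ ≤ N + S := by linarith

end

end Claimed.Agent.R285.Reg
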