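import Claimed.Agent.R285.Base.RG
import Claimed.Agent.R285.Reg.Gauss
import Claimed.Agent.R285.Reg.Zlat
import Claimed.Agent.R285.Hol.Tn

/-!
# ROW 285 / PK-REG ([B] Lemma 4.4) / Lat : the folded lattice `G.V`, neighbours, differences, distances      (architect helper15)   -- KEEP

Free for every package which works with `Base/RG.lean` (PK-GEO, PK-KER, PK-LOC ..).  `regNb G v e = G.π (G.ι v + dir e)` is the neighbour of `v` in the direction `e`
(at a free wall it is `v` itself), `regOpp e` the opposite direction, `regD1 G i j` the explicit one-dimensional distance.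

## LEAF `REG-L1` : `reg_dir_opp`, `reg_opp_opp`, `reg_fold_coe`, `reg_pi_iota`, `reg_iota_nb`, `reg_nb_rev`, `reg_nb_wall`, `reg_dif_lift`   (~200 lines)
PLAN.  `fin_cases e <;> simp [dir, regOpp]`.  `G.fold (i : ℤ) = i` for `i : Fin G.M`: `unfold Geom.fold; split` (or `cases h : G.bc`), `Int.emod_eq_of_lt`, `Fin.ext`, `omega`.
`reg_nb_rev`: one coordinate changes by `±1`.  Periodic: `fold (fold (x ± 1) ∓ 1) = x` by `Int.emod_emod_of_dvd`/`Int.add_mul_emod_self`; free: if `x ± 1 ∈ [0, M)` no folding; otherwise `fold (x ± 1) = x` (`-1 ↦ 0`, `M ↦ M - 1`), excluded by `h`.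
It is convenient to prove first the 1D statements for `G.fold` : `reg_fold_step (i : Fin G.M) (σ = ±1) : G.fold (i + σ) = i ∨ (G.fold ((G.fold (i + σ) : ℕ) - σ) = i)`.
## LEAF `REG-L2` : `reg_difs_one`, `reg_difs_cons`, `reg_difs_add`, `reg_difs_smul`, `reg_difs_sum`, `reg_d2_le_nab`, `reg_nab2_le`   (~150 lines)
PLAN.  `difs a f = (List.ofFn a).foldr ..`; `List.ofFn_succ`, `Fin.cons`; linearity by induction on `r` through `reg_difs_cons` (every `a : Fin (r+1) → Fin 4` is `Fin.cons (a 0) (Fin.tail a)`: `Fin.cons_self_tail`).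
`nab`: `Finset.le_sup` with the word `![e, e']`; `Finset.sup_le`.
## LEAF `REG-L3` : `reg_row_dot`, `reg_row_cov`, `reg_row_qf`, `reg_vec_ext`   (~200 lines)
PLAN.  `ζ = ∑ z, ζ z • Pi.single z 1`, `G.lift` is linear, `reg_difs_sum`, `reg_difs_smul`.  `kdif G a c Γ x y = difs a (fun x' => difs c (fun y' => Γ (π x') (π y')) y) x`; `Γ *ᵥ regRow c w = fun z => difs c (G.lift (Γ z)) (ι w)` by `reg_row_dot` (with `dotProduct_comm`), then `reg_row_dot` again.
## LEAF `REG-L4` : `reg_d1_self`, `reg_d1_le`, `reg_d1_comm`, `reg_d1_triangle`, `reg_d1_card`, `reg_d1_ball`, `reg_d1_le_dist_fst`, `reg_d1_le_dist_snd`, `reg_dist_self`   (~250 lines)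
PLAN.  `cases G.bc`, `omega` on `natAbs`.  `reg_d1_card`: `j = i ± k` (mod `M`): injection into a 2-element set.  `reg_d1_ball`: `{j | d ≤ r} = ⋃_{k ≤ r} {j | d = k}`, and `{d = 0} = {i}`.
`dist`: `Nat.sInf_mem` (non-empty: `x = G.ι w`, `reg_pi_iota`) gives `x` with `π x = w`; `fold x₁ = w₁` forces `x₁ ≡ w₁ (mod M)` (periodic), `x₁ ≡ w₁` or `x₁ ≡ -1 - w₁ (mod 2M)` (free): then `|x₁ - v₁| ≥ regD1` by `omega` after writing `x₁ = w₁ + k M`.  `reg_dist_self`: `Nat.sInf_le`/`nonpos_iff_eq_zero`.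
Helper lemmas with prefix `regl_`.
-/

set_option autoImplicit false

namespace Claimed.Agent.R285.Reg

open scoped BigOperators ENNReal NNReal
open MeasureTheory Matrix
open Claimed.Agent.R285.RG

noncomputable section

variable (G : Geom)

/-- the neighbour of `v` in the direction `e` -/
def regNb (v : G.V) (e : Fin 4) : G.V := G.π (G.ι v + dir e)

/-- the opposite direction -/
def regOpp (e : Fin 4) : Fin 4 := ![1, 0, 3, 2] e

/-- the explicit one-dimensional distance -/
def regD1 (i j : Fin G.M) : ℕ :=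
  match G.bc with
  | BC.per => min ((i : ℤ) - j).natAbs (G.M - ((i : ℤ) - j).natAbs)
  | BC.free => ((i : ℤ) - j).natAbs

/-- the linear form `ζ ↦ ∇^a ζ (v)` as a vector -/
def regRow {r : ℕ} (a : Fin r → Fin 4) (v : G.V) : G.V → ℝ :=
  fun z => difs a (G.lift (Pi.single z (1 : ℝ))) (G.ι v)

theorem reg_gauss_eq (Γ : Matrix G.V G.V ℝ) : gauss G Γ = regGauss Γ := rfl

/-! ### LEAF `REG-L1` -/

theorem regl_fold_per (h : G.bc = BC.per) (x : ℤ) : (((G.fold x : Fin G.M) : ℕ) : ℤ) = x % G.M := by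
  have h0 : (0 : ℤ) < G.M := by exact_mod_cast G.hM
  have h1 := Int.emod_nonneg x h0.ne'
  unfold Geom.fold
  split
  · simp only
    omega
  · rename_i h'
    rw [h] at h'
    cases h'

theorem regl_fold_free (h : G.bc = BC.free) (x : ℤ) : (((G.fold x : Fin G.M) : ℕ) : ℤ) =
    if x % (2 * G.M) < G.M then x % (2 * G.M) else 2 * G.M - 1 - x % (2 * G.M) := by
  have h0 : (0 : ℤ) < 2 * G.M := by have := G.hM; omega
  have h1 := Int.emod_nonneg x h0.ne'
  have h2 := Int.emod_lt_of_pos x h0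
  unfold Geom.fold
  split
  · rename_i h'
    rw [h] at h'
    cases h'
  · simp only
    split_ifs <;> omega

theorem regl_bc (G : Geom) : G.bc = BC.per ∨ G.bc = BC.free := by
  cases G.bc <;> simp

theorem regl_emod_eq (x r k M : ℤ) (h : x = r + k * M) (h0 : 0 ≤ r) (h1 : r < M) : x % M = r := by
  rw [h, Int.add_mul_emod_self_right, Int.emod_eq_of_lt h0 h1]

/-- no folding inside the square -/
theorem regl_fold_in (x : ℤ) (h0 : 0 ≤ x) (h1 : x < G.M) : (((G.fold x : Fin G.M) : ℕ) : ℤ) = x := by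
  rcases regl_bc G with h | h
  · rw [regl_fold_per G h, Int.emod_eq_of_lt h0 h1]
  · rw [regl_fold_free G h, Int.emod_eq_of_lt h0 (by omega), if_pos h1]

theorem regl_fold_M_per (h : G.bc = BC.per) : (((G.fold (G.M : ℤ) : Fin G.M) : ℕ) : ℤ) = 0 := by
  rw [regl_fold_per G h, Int.emod_self]

theorem regl_fold_neg_per (h : G.bc = BC.per) : (((G.fold (-1 : ℤ) : Fin G.M) : ℕ) : ℤ) = G.M - 1 := by
  have := G.hM
  rw [regl_fold_per G h, regl_emod_eq (-1) (G.M - 1) (-1) G.M (by ring) (by omega) (by omega)]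

theorem regl_fold_M_free (h : G.bc = BC.free) : (((G.fold (G.M : ℤ) : Fin G.M) : ℕ) : ℤ) = G.M - 1 := by
  have := G.hM
  rw [regl_fold_free G h, Int.emod_eq_of_lt (by omega) (by omega), if_neg (by omega)]
  ring

theorem regl_fold_neg_free (h : G.bc = BC.free) : (((G.fold (-1 : ℤ) : Fin G.M) : ℕ) : ℤ) = 0 := by
  have := G.hM
  rw [regl_fold_free G h, regl_emod_eq (-1) (2 * G.M - 1) (-1) (2 * G.M) (by ring) (by omega) (by omega), if_neg (by omega)]
  ring

theorem reg_fold_coe (i : Fin G.M) : G.fold ((i : ℕ) : ℤ) = i := by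
  have hi := i.2
  apply Fin.ext
  have := regl_fold_in G ((i : ℕ) : ℤ) (by omega) (by omega)
  exact_mod_cast this

/-- reversal of a genuine one-dimensional step -/
theorem regl_step_rev (i : Fin G.M) (σ : ℤ) (hσ : σ = 1 ∨ σ = -1) (h : G.fold (((i : ℕ) : ℤ) + σ) ≠ i) :
    G.fold ((((G.fold (((i : ℕ) : ℤ) + σ) : Fin G.M) : ℕ) : ℤ) + -σ) = i := by
  have hi := i.2
  have hM := G.hM
  have key : ∀ j : Fin G.M, (((j : Fin G.M) : ℕ) : ℤ) = ((i : ℕ) : ℤ) → j = i := fun j hj => Fin.ext (by exact_mod_cast hj)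
  by_cases hin : 0 ≤ ((i : ℕ) : ℤ) + σ ∧ ((i : ℕ) : ℤ) + σ < G.M
  · rw [regl_fold_in G _ hin.1 hin.2]
    have : ((i : ℕ) : ℤ) + σ + -σ = ((i : ℕ) : ℤ) := by ring
    rw [this, reg_fold_coe]
  · rcases regl_bc G with hb | hb
    · rcases hσ with rfl | rfl
      · have h1 : ((i : ℕ) : ℤ) + 1 = G.M := by omega
        rw [h1, regl_fold_M_per G hb]
        apply key
        have : (0 : ℤ) + -1 = -1 := by ring
        rw [this, regl_fold_neg_per G hb]; omega
      · have h1 : ((i : ℕ) : ℤ) + -1 = -1 := by omega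
        rw [h1, regl_fold_neg_per G hb]
        apply key
        have : ((G.M : ℤ) - 1) + - -1 = G.M := by ring
        rw [this, regl_fold_M_per G hb]; omega
    · exfalso
      apply h
      apply key
      rcases hσ with rfl | rfl
      · have h1 : ((i : ℕ) : ℤ) + 1 = G.M := by omega
        rw [h1, regl_fold_M_free G hb]; omega
      · have h1 : ((i : ℕ) : ℤ) + -1 = -1 := by omega
        rw [h1, regl_fold_neg_free G hb]; omega

theorem reg_dir_opp (e : Fin 4) : dir (regOpp e) = -dir e := by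
  fin_cases e <;> simp [dir, regOpp]

theorem reg_opp_opp (e : Fin 4) : regOpp (regOpp e) = e := by
  fin_cases e <;> simp [regOpp]

theorem reg_pi_iota (v : G.V) : G.π (G.ι v) = v := by
  unfold Geom.π Geom.ι
  simp only [reg_fold_coe]

/-- a step which stays in the square is not folded -/
theorem reg_iota_nb (v : G.V) (e : Fin 4) (h1 : 0 ≤ (G.ι v + dir e).1) (h2 : (G.ι v + dir e).1 < G.M)
    (h3 : 0 ≤ (G.ι v + dir e).2) (h4 : (G.ι v + dir e).2 < G.M) : G.ι (regNb G v e) = G.ι v + dir e := by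
  unfold regNb
  exact Prod.ext (regl_fold_in G _ h1 h2) (regl_fold_in G _ h3 h4)

/-- a step only changes the coordinate of its axis -/
theorem reg_nb_wall (v : G.V) (e : Fin 4) :
    regNb G v e = (G.fold ((v.1 : ℕ) + (dir e).1), G.fold ((v.2 : ℕ) + (dir e).2)) := rfl

/-- reversal of a genuine step -/
theorem reg_nb_rev (v : G.V) (e : Fin 4) (h : regNb G v e ≠ v) : regNb G (regNb G v e) (regOpp e) = v := by
  rw [reg_nb_wall G (regNb G v e), reg_dir_opp]
  rw [reg_nb_wall] at h ⊢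
  obtain ⟨i, j⟩ := v
  simp only at h ⊢
  fin_cases e
  · have h1 : G.fold (((j : ℕ) : ℤ) + (dir 0).2) = j := by simp [dir, reg_fold_coe]
    have h2 : G.fold (((i : ℕ) : ℤ) + 1) ≠ i := by
      intro h3; apply h; simp only [Fin.zero_eta, h1]; simp [dir, h3]
    have h3 := regl_step_rev G i 1 (Or.inl rfl) h2
    simp only [Fin.zero_eta, h1]
    simp [dir, h3, reg_fold_coe]
  · have h1 : G.fold (((j : ℕ) : ℤ) + (dir 1).2) = j := by simp [dir, reg_fold_coe]
    have h2 : G.fold (((i : ℕ) : ℤ) + -1) ≠ i := by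
      intro h3; apply h; simp only [Fin.mk_one, h1]; simp [dir, h3]
    have h3 := regl_step_rev G i (-1) (Or.inr rfl) h2
    simp only [Fin.mk_one, h1]
    simp only [neg_neg] at h3
    simp [dir, h3, reg_fold_coe]
  · have h1 : G.fold (((i : ℕ) : ℤ) + (dir 2).1) = i := by simp [dir, reg_fold_coe]
    have h2 : G.fold (((j : ℕ) : ℤ) + 1) ≠ j := by
      intro h3; apply h; simp only [Fin.reduceFinMk, h1]; simp [dir, h3]
    have h3 := regl_step_rev G j 1 (Or.inl rfl) h2
    simp only [Fin.reduceFinMk, h1]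
    simp [dir, h3, reg_fold_coe]
  · have h1 : G.fold (((i : ℕ) : ℤ) + (dir 3).1) = i := by simp [dir, reg_fold_coe]
    have h2 : G.fold (((j : ℕ) : ℤ) + -1) ≠ j := by
      intro h3; apply h; simp only [Fin.reduceFinMk, h1]; simp [dir, h3]
    have h3 := regl_step_rev G j (-1) (Or.inr rfl) h2
    simp only [Fin.reduceFinMk, h1]
    simp only [neg_neg] at h3
    simp [dir, h3, reg_fold_coe]

theorem reg_dif_lift {α : Type} [AddGroup α] (φ : G.V → α) (v : G.V) (e : Fin 4) :
    dif (dir e) (G.lift φ) (G.ι v) = φ (regNb G v e) - φ v := by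
  unfold dif Geom.lift
  rw [reg_pi_iota]
  rfl

/-! ### LEAF `REG-L2` -/

theorem reg_difs_one {α : Type} [AddGroup α] (e : Fin 4) (f : ℤ × ℤ → α) : difs ![e] f = dif (dir e) f := by
  rw [Hol.difs_one]
  rfl

theorem reg_difs_cons {α : Type} [AddGroup α] {r : ℕ} (e : Fin 4) (a : Fin r → Fin 4) (f : ℤ × ℤ → α) :
    difs (Fin.cons e a : Fin (r + 1) → Fin 4) f = dif (dir e) (difs a f) := by
  unfold difs
  rw [List.ofFn_succ]
  simp only [Fin.cons_zero, Fin.cons_succ, List.foldr_cons]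

theorem reg_difs_add {r : ℕ} (a : Fin r → Fin 4) (f g : ℤ × ℤ → ℝ) : difs a (f + g) = difs a f + difs a g := by
  funext x
  exact Hol.difs_add a f g x

theorem reg_difs_smul {r : ℕ} (a : Fin r → Fin 4) (c : ℝ) (f : ℤ × ℤ → ℝ) : difs a (c • f) = c • difs a f := by
  funext x
  exact Hol.difs_map (AddMonoidHom.mulLeft c) a f x

theorem reg_difs_zero {r : ℕ} (a : Fin r → Fin 4) : difs a (0 : ℤ × ℤ → ℝ) = 0 := by
  have := reg_difs_smul a 0 0
  simpa using this

theorem reg_difs_sum {r : ℕ} (a : Fin r → Fin 4) {J : Type} (s : Finset J) (f : J → ℤ × ℤ → ℝ) :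
    difs a (∑ j ∈ s, f j) = ∑ j ∈ s, difs a (f j) := by
  classical
  induction s using Finset.induction_on with
  | empty => simp [reg_difs_zero]
  | insert j s hj ih => rw [Finset.sum_insert hj, Finset.sum_insert hj, reg_difs_add, ih]

theorem regl_difs_two {α : Type} [AddGroup α] (e e' : Fin 4) (f : ℤ × ℤ → α) :
    difs ![e, e'] f = dif (dir e) (dif (dir e') f) := by
  have h : (![e, e'] : Fin 2 → Fin 4) = Fin.cons e ![e'] := rfl
  rw [h, reg_difs_cons, reg_difs_one]

theorem reg_d2_le_nab (e e' : Fin 4) (f : ℤ × ℤ → ℝ) (x : ℤ × ℤ) :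
    |dif (dir e) (dif (dir e') f) x| ≤ (nab 2 f x : ℝ) := by
  have h := Finset.le_sup (f := fun a : Fin 2 → Fin 4 => ‖difs a f x‖₊) (Finset.mem_univ ![e, e'])
  have h2 : (‖difs ![e, e'] f x‖₊ : ℝ) ≤ (nab 2 f x : ℝ) := by exact_mod_cast h
  rwa [regl_difs_two, coe_nnnorm, Real.norm_eq_abs] at h2

theorem reg_nab2_le (f : ℤ × ℤ → ℝ) (x : ℤ × ℤ) {K : ℝ} (hK : 0 ≤ K)
    (h : ∀ e e' : Fin 4, |dif (dir e) (dif (dir e') f) x| ≤ K) : (nab 2 f x : ℝ) ≤ K := by
  have h1 : nab 2 f x ≤ K.toNNReal := by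
    unfold nab
    refine Finset.sup_le fun a _ => ?_
    have ha : a = ![a 0, a 1] := by
      funext i; fin_cases i <;> rfl
    rw [ha, regl_difs_two]
    refine NNReal.coe_le_coe.1 ?_
    rw [coe_nnnorm, Real.norm_eq_abs, Real.coe_toNNReal _ hK]
    exact h _ _
  have h2 := NNReal.coe_le_coe.2 h1
  rwa [Real.coe_toNNReal _ hK] at h2

/-! ### LEAF `REG-L3` -/

theorem regl_lift_sum (ζ : G.V → ℝ) : G.lift ζ = ∑ z, ζ z • G.lift (Pi.single z (1 : ℝ)) := by
  funext x
  simp only [Geom.lift, Finset.sum_apply, Pi.smul_apply, smul_eq_mul, Pi.single_apply, mul_ite, mul_one, mul_zero,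
    Finset.sum_ite_eq, Finset.mem_univ, if_true]

theorem reg_row_dot {r : ℕ} (a : Fin r → Fin 4) (v : G.V) (ζ : G.V → ℝ) :
    regRow G a v ⬝ᵥ ζ = difs a (G.lift ζ) (G.ι v) := by
  conv_rhs => rw [regl_lift_sum G ζ, reg_difs_sum]
  simp only [reg_difs_smul, Finset.sum_apply, Pi.smul_apply, smul_eq_mul, dotProduct, regRow]
  exact Finset.sum_congr rfl fun z _ => mul_comm _ _

theorem reg_row_cov {r r' : ℕ} (a : Fin r → Fin 4) (c : Fin r' → Fin 4) (Γ : Matrix G.V G.V ℝ) (v w : G.V) :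
    regRow G a v ⬝ᵥ Γ *ᵥ regRow G c w = kdif G a c Γ (G.ι v) (G.ι w) := by
  rw [reg_row_dot]
  unfold kdif
  congr 1
  funext x'
  show (Γ *ᵥ regRow G c w) (G.π x') = _
  have h : (Γ *ᵥ regRow G c w) (G.π x') = regRow G c w ⬝ᵥ Γ (G.π x') := by
    rw [Matrix.mulVec, dotProduct_comm]
  rw [h, reg_row_dot]
  rfl

theorem reg_row_qf {r : ℕ} (a : Fin r → Fin 4) (Γ : Matrix G.V G.V ℝ) (u : G.V → ℝ) :
    regQf Γ (∑ v, u v • regRow G a v) = ∑ v, ∑ w, u v * u w * kdif G a a Γ (G.ι v) (G.ι w) := by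
  unfold regQf
  rw [Matrix.mulVec_sum, sum_dotProduct]
  refine Finset.sum_congr rfl fun v _ => ?_
  rw [dotProduct_sum]
  refine Finset.sum_congr rfl fun w _ => ?_
  rw [Matrix.mulVec_smul, smul_dotProduct, dotProduct_smul, reg_row_cov]
  simp only [smul_eq_mul]
  ring

theorem reg_vec_ext {ι : Type} [Fintype ι] (b c : ι → ℝ) (h : ∀ ζ : ι → ℝ, b ⬝ᵥ ζ = c ⬝ᵥ ζ) : b = c := by
  classical
  funext i
  have := h (Pi.single i 1)
  simpa using this

/-! ### LEAF `REG-L4` -/

theorem regl_d1_per (h : G.bc = BC.per) (i j : Fin G.M) :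
    regD1 G i j = min ((i : ℤ) - j).natAbs (G.M - ((i : ℤ) - j).natAbs) := by
  unfold regD1; rw [h]

theorem regl_d1_free (h : G.bc = BC.free) (i j : Fin G.M) : regD1 G i j = ((i : ℤ) - j).natAbs := by
  unfold regD1; rw [h]

theorem reg_d1_self (i : Fin G.M) : regD1 G i i = 0 := by
  rcases regl_bc G with h | h
  · rw [regl_d1_per G h]; simp
  · rw [regl_d1_free G h]; simp

theorem reg_d1_le (i j : Fin G.M) : regD1 G i j ≤ ((i : ℤ) - j).natAbs := by
  rcases regl_bc G with h | h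
  · rw [regl_d1_per G h]; omega
  · rw [regl_d1_free G h]

theorem reg_d1_comm (i j : Fin G.M) : regD1 G i j = regD1 G j i := by
  rcases regl_bc G with h | h
  · rw [regl_d1_per G h, regl_d1_per G h]; omega
  · rw [regl_d1_free G h, regl_d1_free G h]; omega

theorem reg_d1_triangle (i j k : Fin G.M) : regD1 G i k ≤ regD1 G i j + regD1 G j k := by
  have hi := i.2; have hj := j.2; have hk := k.2
  rcases regl_bc G with h | h
  · rw [regl_d1_per G h, regl_d1_per G h, regl_d1_per G h]; omega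
  · rw [regl_d1_free G h, regl_d1_free G h, regl_d1_free G h]; omega

theorem regl_d1_zero (i j : Fin G.M) (h : regD1 G i j = 0) : i = j := by
  have hi := i.2; have hj := j.2
  apply Fin.ext
  rcases regl_bc G with hb | hb
  · rw [regl_d1_per G hb] at h; omega
  · rw [regl_d1_free G hb] at h; omega

theorem reg_d1_card (i : Fin G.M) (k : ℕ) : (Finset.univ.filter fun j => regD1 G i j = k).card ≤ 2 := by
  have hi := i.2
  have h2 : (Finset.univ : Finset Bool).card = 2 := rfl
  rw [← h2]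
  refine Finset.card_le_card_of_injOn
    (fun j : Fin G.M => decide (((j : ℕ) : ℤ) = (i : ℕ) + k ∨ ((j : ℕ) : ℤ) = (i : ℕ) + k - G.M)) (fun _ _ => Finset.mem_univ _) ?_
  intro j hj j' hj' hjj
  simp only [Finset.coe_filter, Finset.mem_univ, true_and, Set.mem_setOf_eq] at hj hj'
  simp only [decide_eq_decide] at hjj
  have hj2 := j.2; have hj2' := j'.2
  apply Fin.ext
  rcases regl_bc G with hb | hb
  · rw [regl_d1_per G hb] at hj hj'; omega
  · rw [regl_d1_free G hb] at hj hj'; omega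

theorem reg_d1_ball (i : Fin G.M) (r : ℕ) : (Finset.univ.filter fun j => regD1 G i j ≤ r).card ≤ 2 * r + 1 := by
  induction r with
  | zero =>
    have : (Finset.univ.filter fun j => regD1 G i j ≤ 0) ⊆ {i} := by
      intro j hj
      simp only [Finset.mem_filter, Finset.mem_univ, true_and, Nat.le_zero] at hj
      simp [regl_d1_zero G i j hj]
    simpa using Finset.card_le_card this
  | succ r ih =>
    have : (Finset.univ.filter fun j => regD1 G i j ≤ r + 1)
        ⊆ (Finset.univ.filter fun j => regD1 G i j ≤ r) ∪ (Finset.univ.filter fun j => regD1 G i j = r + 1) := by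
      intro j hj
      simp only [Finset.mem_filter, Finset.mem_univ, true_and, Finset.mem_union] at hj ⊢
      omega
    have h1 := (Finset.card_le_card this).trans (Finset.card_union_le _ _)
    have h2 := reg_d1_card G i (r + 1)
    omega

/-- the folded point is at least as close as any of its lifts -/
theorem regl_d1_le_fold (i : Fin G.M) (x : ℤ) : regD1 G i (G.fold x) ≤ (x - (i : ℕ)).natAbs := by
  have hi := i.2
  have hM := G.hM
  rcases regl_bc G with hb | hb
  · have h0 : (0 : ℤ) < G.M := by exact_mod_cast hM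
    have hv := regl_fold_per G hb x
    have h1 := Int.emod_nonneg x h0.ne'
    have h2 := Int.emod_lt_of_pos x h0
    have h3 := Int.emod_add_mul_ediv x G.M
    rw [regl_d1_per G hb]
    set t := (G.M : ℤ) * (x / G.M) with ht
    have ht3 : t = 0 ∨ (G.M : ℤ) ≤ t ∨ t ≤ -(G.M : ℤ) := by
      rcases lt_trichotomy (x / (G.M : ℤ)) 0 with hk | hk | hk
      · right; right
        have : (G.M : ℤ) * (x / G.M) ≤ (G.M : ℤ) * (-1) := by
          apply mul_le_mul_of_nonneg_left (by omega) h0.le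
        rw [ht]; linarith
      · left; rw [ht, hk, mul_zero]
      · right; left
        have : (G.M : ℤ) * 1 ≤ (G.M : ℤ) * (x / G.M) := by
          apply mul_le_mul_of_nonneg_left (by omega) h0.le
        rw [ht]; linarith
    omega
  · have h0 : (0 : ℤ) < 2 * G.M := by omega
    have hv := regl_fold_free G hb x
    have h1 := Int.emod_nonneg x h0.ne'
    have h2 := Int.emod_lt_of_pos x h0
    have h3 := Int.emod_add_mul_ediv x (2 * G.M)
    rw [regl_d1_free G hb]
    set t := (2 * G.M : ℤ) * (x / (2 * G.M)) with ht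
    have ht3 : t = 0 ∨ (2 * G.M : ℤ) ≤ t ∨ t ≤ -(2 * G.M : ℤ) := by
      rcases lt_trichotomy (x / (2 * G.M : ℤ)) 0 with hk | hk | hk
      · right; right
        have : (2 * G.M : ℤ) * (x / (2 * G.M)) ≤ (2 * G.M : ℤ) * (-1) := by
          apply mul_le_mul_of_nonneg_left (by omega) h0.le
        rw [ht]; linarith
      · left; rw [ht, hk, mul_zero]
      · right; left
        have : (2 * G.M : ℤ) * 1 ≤ (2 * G.M : ℤ) * (x / (2 * G.M)) := by
          apply mul_le_mul_of_nonneg_left (by omega) h0.le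
        rw [ht]; linarith
    split_ifs at hv <;> omega

theorem regl_dist_spec (v w : G.V) :
    ∃ x : ℤ × ℤ, G.π x = w ∧ G.dist v w = max (x.1 - (G.ι v).1).natAbs (x.2 - (G.ι v).2).natAbs := by
  have hne : {n : ℕ | ∃ x : ℤ × ℤ, G.π x = w ∧ n = max (x.1 - (G.ι v).1).natAbs (x.2 - (G.ι v).2).natAbs}.Nonempty :=
    ⟨_, G.ι w, reg_pi_iota G w, rfl⟩
  exact Nat.sInf_mem hne

theorem regl_dist_le (v : G.V) (x : ℤ × ℤ) :
    G.dist v (G.π x) ≤ max (x.1 - (G.ι v).1).natAbs (x.2 - (G.ι v).2).natAbs :=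
  Nat.sInf_le ⟨x, rfl, rfl⟩

theorem reg_d1_le_dist_fst (v w : G.V) : regD1 G v.1 w.1 ≤ G.dist v w := by
  obtain ⟨x, hx, hd⟩ := regl_dist_spec G v w
  rw [hd, ← hx]
  exact (regl_d1_le_fold G v.1 x.1).trans (le_max_left _ _)

theorem reg_d1_le_dist_snd (v w : G.V) : regD1 G v.2 w.2 ≤ G.dist v w := by
  obtain ⟨x, hx, hd⟩ := regl_dist_spec G v w
  rw [hd, ← hx]
  exact (regl_d1_le_fold G v.2 x.2).trans (le_max_right _ _)

theorem reg_dist_self (v : G.V) : G.dist v v = 0 := by
  have h := regl_dist_le G v (G.ι v)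
  rw [reg_pi_iota] at h
  simpa using h

end

end Claimed.Agent.R285.Reg
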