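import Claimed.Agent.R285.Reg.Var

/-!
# ROW 285 / PK-REG ([B] Lemma 4.4) / Main : THE EXPORTS      (architect helper15)   -- KEEP

`reg_regulator`, `reg_regulator_mono`, `reg_regulator_add`, `reg_regulator_terminal` = the four statements of section 3 of `R285/Read/B4.lean`, VERBATIM.
This file is glue: everything is PROVED from the leaves of `Reg/*.lean`.
-/

set_option autoImplicit false

namespace Claimed.Agent.R285.Reg

open scoped BigOperators ENNReal NNReal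
open MeasureTheory Matrix
open Claimed.Agent.R285.RG

noncomputable section

variable {G : Geom}

theorem reg_two_pow (n : ℕ) (x : ℝ) :
    ENNReal.ofReal (Real.exp (x + n * Real.log 2)) = 2 ^ n * ENNReal.ofReal (Real.exp x) := by
  rw [Real.exp_add, mul_comm, ENNReal.ofReal_mul (Real.exp_pos _).le]
  congr 1
  rw [mul_comm, Real.exp_mul, Real.exp_log (by norm_num), Real.rpow_natCast,
    ENNReal.ofReal_pow (by norm_num)]
  norm_num

/-- one step, main estimate -/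
theorem reg_step_main {g g' : Grid G} (N : Nest g g') (hg : g.Ok) (hg' : g'.Ok) {L : ℕ} (hL : 5 ≤ L)
    (hS : g'.m = L * g.m) {C : ℝ} {ρ : ℕ} {Γ : Matrix G.V G.V ℝ} (h : RegCov G C ρ g.m g'.m Γ) (hC : 1 ≤ C)
    {δ κ : ℝ} (h0 : 0 < δ) (h1 : δ ≤ 1 / 64) (hκ : 0 < κ)
    (hκV : 4 * κ * (C * (64 + 8 * ((4 * ρ + 10) * (4 * ρ + 8)))) ≤ δ / 2)
    (hs : 8 * (23 * (2 * κ)) * (340 * C) ≤ 1) (hp : 2 * (23 * (2 * κ)) * (34000 * C) ≤ Real.log 2)
    (X : Finset g.I) (Y : Finset g'.I) (hXY : N.cl X ⊆ Y) (φ : G.V → ℝ) :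
    ∫⁻ ζ, ENNReal.ofReal (Real.exp (κ * U g δ X (φ + ζ))) ∂(gauss G Γ)
      ≤ 2 ^ X.card * ENNReal.ofReal (Real.exp (κ * U g' δ Y φ)) := by
  have hC0 : 0 ≤ C := by linarith
  set CV : ℝ := C * (64 + 8 * ((4 * ρ + 10) * (4 * ρ + 8))) with hCV
  have hCV0 : 0 ≤ CV := by positivity
  have key := reg_master g hg h.fluc hC0 h0.le (by linarith) X (regBv (g.Dm X) φ)
    (κ * (gE G (g.Dm X) φ + 2 * δ * PE G g.m (g.Dm X) φ + 2 * TE g (g.collar X) φ)) (2 * κ) (2 * κ)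
    (by linarith) hs (fun ζ => κ * U g δ X (φ + ζ)) (fun ζ => by
      have e1 := reg_U_expand g h0.le X φ ζ
      rw [reg_bil_eq] at e1
      have e2 := mul_le_mul_of_nonneg_left e1 hκ.le
      linarith)
  refine key.trans ?_
  rw [← reg_two_pow]
  refine ENNReal.ofReal_le_ofReal (Real.exp_le_exp.2 ?_)
  have hv := reg_var_main N hg hg' h hC0 X Y hXY φ
  have hd := reg_det_main N hg hg' hL hS h0 h1 hκ hCV0 hκV X Y hXY φ
  have hv' : (2 * κ) ^ 2 * regQf Γ (regBv (g.Dm X) φ) ≤ (2 * κ) ^ 2 * (CV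
      * (gE G (g'.Dm Y \ g.Dm X) φ + PE G g'.m (g'.Dm Y) φ + TE g' (g'.collar Y) φ)) :=
    mul_le_mul_of_nonneg_left hv (by positivity)
  have hx : 2 * (23 * (2 * κ)) * (34000 * C * X.card) ≤ X.card * Real.log 2 := by
    have : (0 : ℝ) ≤ X.card := Nat.cast_nonneg _
    calc 2 * (23 * (2 * κ)) * (34000 * C * X.card) = X.card * (2 * (23 * (2 * κ)) * (34000 * C)) := by ring
      _ ≤ X.card * Real.log 2 := mul_le_mul_of_nonneg_left hp this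
  linarith

/-- one step, small polymers -/
theorem reg_step_small {g g' : Grid G} (N : Nest g g') (hg : g.Ok) (hg' : g'.Ok) {L : ℕ} (hL : 0 < L)
    (hS : g'.m = L * g.m) {C : ℝ} {Γ : Matrix G.V G.V ℝ} (h : FlucOK G C g.m Γ) (hC : 1 ≤ C)
    {δ κ : ℝ} (h0 : 0 < δ) (h1 : δ ≤ 1) (hκ : 0 < κ)
    (hs : 8 * (23 * (2 * κ)) * (340 * C) ≤ 1) (hp : 2 * (23 * (2 * κ)) * (34000 * C) ≤ Real.log 2)
    (X : Finset g.I) (hX : 4 * (32000 * (X.card : ℝ) + 260) ≤ (L : ℝ) ^ 2) (φ : G.V → ℝ) :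
    ∫⁻ ζ, ENNReal.ofReal (Real.exp (κ * U g δ X (φ + ζ))) ∂(gauss G Γ)
      ≤ 2 ^ X.card * ENNReal.ofReal (Real.exp (κ / 2 * U g' δ (N.cl X) φ)) := by
  have hC0 : 0 ≤ C := by linarith
  have key := reg_master g hg h hC0 h0.le h1 X 0 (2 * κ * U g δ X φ) 0 (2 * κ)
    (by linarith) hs (fun ζ => κ * U g δ X (φ + ζ)) (fun ζ => by
      have e1 := reg_U_add_le g h0.le X φ ζ
      have e2 := mul_le_mul_of_nonneg_left e1 hκ.le
      linarith)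
  refine key.trans ?_
  rw [← reg_two_pow]
  refine ENNReal.ofReal_le_ofReal (Real.exp_le_exp.2 ?_)
  have hsm := reg_small_U N hg hg' hL hS h0.le h1 X (N.cl X) (Finset.Subset.refl _) φ
  have hU : 0 ≤ U g' δ (N.cl X) φ := reg_U_nonneg g' h0.le _ _
  have hL2 : (0 : ℝ) < (L : ℝ) ^ 2 := by positivity
  have hq : (32000 * (X.card : ℝ) + 260) / (L : ℝ) ^ 2 ≤ 1 / 4 := by
    rw [div_le_iff₀ hL2]
    linarith
  have hsm' : U g δ X φ ≤ 1 / 4 * U g' δ (N.cl X) φ := hsm.trans (mul_le_mul_of_nonneg_right hq hU)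
  have hx : 2 * (23 * (2 * κ)) * (34000 * C * X.card) ≤ X.card * Real.log 2 := by
    have : (0 : ℝ) ≤ X.card := Nat.cast_nonneg _
    calc 2 * (23 * (2 * κ)) * (34000 * C * X.card) = X.card * (2 * (23 * (2 * κ)) * (34000 * C)) := by ring
      _ ≤ X.card * Real.log 2 := mul_le_mul_of_nonneg_left hp this
  have h3 : 2 * κ * U g δ X φ ≤ κ / 2 * U g' δ (N.cl X) φ := by
    have := mul_le_mul_of_nonneg_left hsm' (show 0 ≤ 2 * κ by linarith)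
    linarith
  simp only [ne_eq, OfNat.ofNat_ne_zero, not_false_eq_true, zero_pow, zero_mul, add_zero]
  linarith

/-- **Lemma 4.4** (= `B4.regulator`) -/
theorem reg_regulator (Ck ck : ℝ) (ρ R n0 : ℕ) : ∃ D1 : ℕ, ∃ δ0 > (0 : ℝ), ∀ δ ∈ Set.Ioc 0 δ0, ∃ κ0 > (0 : ℝ), ∀ κmin > (0 : ℝ),
    ∃ ℓ0 : ℕ, ∀ D0 ≥ D1, ∀ (G : Geom) (ℓ : ℕ), ℓ0 ≤ ℓ → ∀ (P : Pair G D0 ℓ) (Γ : Matrix G.V G.V ℝ), ShellOK Ck ck ρ P Γ →
      ∀ κ ∈ Set.Icc κmin κ0, RegStable R n0 2 δ κ P (Extra.zero _) (Extra.zero _) Γ := by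
  set C : ℝ := max Ck 1 with hCdef
  have hC : 1 ≤ C := le_max_right _ _
  have hC0 : 0 < C := by linarith
  set CV : ℝ := C * (64 + 8 * ((4 * ρ + 10) * (4 * ρ + 8))) with hCV
  have hCV0 : 0 < CV := by positivity
  have hlog : 0 < Real.log 2 := Real.log_pos (by norm_num)
  refine ⟨0, 1 / 64, by norm_num, fun δ hδ => ?_⟩
  refine ⟨min (δ / (8 * CV)) (min (1 / (8 * 46 * 340 * C)) (Real.log 2 / (92 * 34000 * C))), ?_, fun κmin _ => ?_⟩
  · have := hδ.1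
    positivity
  refine ⟨4 * (32000 * n0 + 260), fun D0 _ G ℓ hℓ P Γ hΓ κ hκ => ?_⟩
  have hκ0 : 0 < κ := lt_of_lt_of_le (by assumption) hκ.1
  have hk1 : κ ≤ δ / (8 * CV) := hκ.2.trans (min_le_left _ _)
  have hk2 : κ ≤ 1 / (8 * 46 * 340 * C) := hκ.2.trans ((min_le_right _ _).trans (min_le_left _ _))
  have hk3 : κ ≤ Real.log 2 / (92 * 34000 * C) := hκ.2.trans ((min_le_right _ _).trans (min_le_right _ _))
  have hκV : 4 * κ * CV ≤ δ / 2 := by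
    rw [le_div_iff₀ (by positivity)] at hk1
    linarith
  have hs : 8 * (23 * (2 * κ)) * (340 * C) ≤ 1 := by
    rw [le_div_iff₀ (by positivity)] at hk2
    linarith
  have hp : 2 * (23 * (2 * κ)) * (34000 * C) ≤ Real.log 2 := by
    rw [le_div_iff₀ (by positivity)] at hk3
    linarith
  have hcov := reg_cov_of_shell hΓ
  have hLge : 4 * (32000 * n0 + 260) ≤ 2 ^ ℓ := hℓ.trans (Nat.lt_two_pow_self).le
  have hL5 : 5 ≤ 2 ^ ℓ := by omega
  constructor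
  · intro X Y hXY φ
    have := reg_step_main P.N P.ok P.ok' hL5 P.hS hcov hC hδ.1 hδ.2 hκ0 hκV hs hp X Y hXY φ
    simpa [Wt, Extra.zero] using this
  · intro X _ hX φ
    have hXL : 4 * (32000 * (X.card : ℝ) + 260) ≤ ((2 ^ ℓ : ℕ) : ℝ) ^ 2 := by
      have h1 : (X.card : ℝ) ≤ n0 := by exact_mod_cast hX
      have h2 : (4 * (32000 * (n0 : ℝ) + 260)) ≤ ((2 ^ ℓ : ℕ) : ℝ) := by exact_mod_cast hLge
      have h3 : (1 : ℝ) ≤ ((2 ^ ℓ : ℕ) : ℝ) := by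
        have : (5 : ℝ) ≤ ((2 ^ ℓ : ℕ) : ℝ) := by exact_mod_cast hL5
        linarith
      nlinarith
    have := reg_step_small P.N P.ok P.ok' (by omega) P.hS hcov.fluc hC hδ.1 (by linarith [hδ.2]) hκ0 hs hp X hXL φ
    simpa [Wt, Extra.zero] using this

/-- **Lemma 4.4**, monotonicity (= `B4.regulator_mono`) -/
theorem reg_regulator_mono : ∃ δ0 > (0 : ℝ), ∀ δ ∈ Set.Ioc 0 δ0, ∀ (G : Geom) (g : Grid G), g.Ok →
    ∀ X X' : Finset g.I, X ⊆ X' → ∀ φ, U g δ X φ ≤ U g δ X' φ :=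
  ⟨1 / 64, by norm_num, fun _ hδ _ _ hg _ _ h φ => reg_mono hg hδ.1.le hδ.2 h φ⟩

/-- additivity (= `B4.regulator_add`) -/
theorem reg_regulator_add (G : Geom) (g : Grid G) (hg : g.Ok) (δ : ℝ) (X X' : Finset g.I) (h : g.Sep 5 X X')
    (φ : G.V → ℝ) : U g δ (X ∪ X') φ = U g δ X φ + U g δ X' φ :=
  reg_add hg δ X X' h φ

/-- **Lemma 4.4**, terminal scale (= `B4.regulator_terminal`) -/
theorem reg_regulator_terminal (Ct : ℝ) : ∃ δ0 > (0 : ℝ), ∀ δ ∈ Set.Ioc 0 δ0, ∃ κ0 > (0 : ℝ), ∃ C : ℝ≥0∞, C ≠ ⊤ ∧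
    ∀ κ ∈ Set.Ioc 0 κ0, ∀ (G : Geom) (g : Grid G), g.Ok → ∀ Γ : Matrix G.V G.V ℝ, Γ.PosSemidef → TermBounds G Ct g.m Γ →
      ∀ X : Finset g.I, ∫⁻ ζ, ENNReal.ofReal (W g δ κ X ζ) ∂(gauss G Γ) ≤ C ^ X.card := by
  set C : ℝ := max Ct 1 with hCdef
  have hC : 1 ≤ C := le_max_right _ _
  have hC0 : 0 < C := by linarith
  refine ⟨1, one_pos, fun δ hδ => ⟨1 / (8 * 23 * 340 * C), by positivity,
    ENNReal.ofReal (Real.exp (2 * (23 * (1 / (8 * 23 * 340 * C))) * (34000 * C))), ENNReal.ofReal_ne_top,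
    fun κ hκ G g hg Γ hΓ hT X => ?_⟩⟩
  have hs : 8 * (23 * κ) * (340 * C) ≤ 1 := by
    have := hκ.2
    rw [le_div_iff₀ (by positivity)] at this
    linarith
  have key := reg_master g hg (reg_fluc_of_term hΓ hT) hC0.le hδ.1.le hδ.2 X 0 0 0 κ hκ.1.le hs
    (fun ζ => κ * U g δ X ζ) (fun ζ => by simp)
  refine (key.trans ?_)
  rw [← ENNReal.ofReal_pow (Real.exp_pos _).le, ← Real.exp_nat_mul]
  refine ENNReal.ofReal_le_ofReal (Real.exp_le_exp.2 ?_)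
  have hx : (0 : ℝ) ≤ X.card := Nat.cast_nonneg _
  have h2 : 2 * (23 * κ) * (34000 * C) ≤ 2 * (23 * (1 / (8 * 23 * 340 * C))) * (34000 * C) := by
    have := hκ.2
    gcongr
  have h3 := mul_le_mul_of_nonneg_left h2 hx
  simp only [ne_eq, OfNat.ofNat_ne_zero, not_false_eq_true, zero_pow, zero_mul, add_zero, zero_add]
  linarith

end

end Claimed.Agent.R285.Reg
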