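import Claimed.Agent.R285.Reg.Lat

/-!
# ROW 285 / PK-REG ([B] Lemma 4.4) / Grid : blocks are rectangles, index distance, collars, nested grids      (architect helper15; PROVED helper246: the file is sorry-free)   -- KEEP

Free for every package which works with `Base/RG.lean` (PK-GEO ..).   Everything follows from `Grid.Ok` (`blk1` monotone, surjective, fibres of size in `[m, 2m)`) and `Nest.comm`.

## LEAF `REG-D1` : `reg_mem_sites`, `reg_mem_Dm`, `reg_sites_sum`, `reg_sites_mono`, `reg_sites_sdiff`, `reg_sites_union`, `reg_fiber`, `reg_block_rect`, `reg_block_card_le`, `reg_block_card_ge`   (~250 lines)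
PLAN.  `Grid.sites` is a filter: `simp [Grid.sites]`.  `reg_sites_sum`: `Finset.sum_fiberwise_of_maps_to` / `Finset.sum_biUnion`.
`reg_fiber`: the fibre `T = univ.filter (blk1 · = c)` is non-empty (`surj`) and order-convex (`mono`): `s = (T.min' _ : ℕ)`, `q = T.card`; a convex subset of `Fin M` containing its minimum `s` and of cardinality `q` is `[s, s+q)` (compare with `Finset.Ico`: `T = Ico min (max+1)`, `Nat.card_Ico`/`Fin.card_Icc`).
`reg_block_rect`: two fibres; the sum: `Finset.sum_product'`, `Finset.sum_bij`/`Finset.sum_nbij'` with `v ↦ ((v.1 : ℤ), (v.2 : ℤ))`.  Cardinals: `F = 1`.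
## LEAF `REG-D2` : `reg_idist_self`, `reg_idist_comm`, `reg_idist_triangle`, `reg_idist_ball`, `reg_subset_collar`, `reg_collar_mono`, `reg_collar_union`, `reg_collar_card`, `reg_Dm_card`   (~200 lines)
PLAN.  `Grid.idist1`: `cases G.bc`-split (`unfold Grid.idist1; split`) and `omega`.  Ball: `{b | idist a b ≤ 2} ⊆ {b₁ | idist1 ≤ 2} ×ˢ {b₂ | ..}`, each factor has `≤ 5` elements (`b₁ ∈ {a₁-2..a₁+2}` mod `n`).
`collar X = X.biUnion ball`: `Finset.card_biUnion_le`.  `Dm`: `reg_sites_sum` with `F = 1`, `reg_block_card_le`.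
## LEAF `REG-D3` : `reg_blk1_zero`, `reg_blk1_last`, `reg_blk1_succ`, `reg_idist_nb`   (~150 lines)
PLAN.  `mono` + `surj`: the value `0` is attained, hence at `0`; `blk1 (i+1) ≤ blk1 i + 1`, otherwise the index `blk1 i + 1` has no preimage.  `reg_nb_wall`: one coordinate moves by `±1` and is folded: inside: `reg_blk1_succ`; periodic wrap `M-1 ↔ 0`: indices `n-1`, `0`, `idist1 = min (n-1) 1 ≤ 1`; free wall: same site.
## LEAF `REG-D4` : `reg_up_blk`, `reg_up1_mono`, `reg_up1_succ`, `reg_up_idist`, `reg_up_collar`, `reg_sites_up`, `reg_Dm_subset`, `reg_up_fiber_card`   (~250 lines)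
PLAN.  `up1 (g.blk1 i) = g'.blk1 i` and surjectivity of `g.blk1` transport `mono`, `succ`, `zero`, `last` from `g'.blk1` to `up1`.  Lipschitz: `|up1 a - up1 b| ≤ |a - b|`; periodic: also `n' - |a' - b'| ≤ n - |a - b|` from `up1 0 = 0`, `up1 (n-1) = n'-1`.
Fibre: `∑_{c : up1 c = c'} |fibre c| = |fibre' c'| < 2 L m`, each `≥ m > 0`, so `#{c} < 2L`; product of the two axes.
## LEAF `REG-D5` : `reg_end_of_nb`, `reg_end_count`   (~250 lines)
PLAN.  `reg_nb_wall`.  Count: let `𝒞` be the set of block indices `c` containing an end `j` with `regD1 i j ≤ r`.  A fibre `[s, s+q)` contains at most the two ends `s`, `s+q-1` (an inner site has both neighbours in the fibre, no folding).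
All sites `j'` of such a fibre have `regD1 i j' ≤ r + 2m` (`reg_d1_triangle`, `reg_d1_le`); the fibres are disjoint with `≥ m` sites: `|𝒞| m ≤ 2 (r + 2m) + 1 ≤ (2ρ+5) m` (`reg_d1_ball`).
Helper lemmas with prefix `regd_`.
-/

set_option autoImplicit false

namespace Claimed.Agent.R285.Reg

open scoped BigOperators ENNReal NNReal
open MeasureTheory Matrix
open Claimed.Agent.R285.RG

noncomputable section

variable {G : Geom} (g : Grid G)

/-! ### LEAF `REG-D1` -/

theorem reg_mem_sites (Y : Finset g.I) (v : G.V) : v ∈ g.sites Y ↔ g.blk v ∈ Y := by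
  simp [Grid.sites]

theorem reg_mem_Dm (X : Finset g.I) (v : G.V) : v ∈ g.Dm X ↔ g.blk v ∈ g.collar X := by
  simp [Grid.Dm, Grid.sites]

theorem reg_sites_sum {α : Type} [AddCommMonoid α] (Y : Finset g.I) (F : G.V → α) :
    ∑ v ∈ g.sites Y, F v = ∑ b ∈ Y, ∑ v ∈ g.sites {b}, F v := by
  classical
  rw [← Finset.sum_fiberwise_of_maps_to (s := g.sites Y) (t := Y) (g := g.blk)
    (fun v hv => (reg_mem_sites g Y v).1 hv)]
  refine Finset.sum_congr rfl fun b hb => Finset.sum_congr ?_ fun _ _ => rfl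
  ext v
  simp only [Finset.mem_filter, reg_mem_sites, Finset.mem_singleton]
  constructor
  · rintro ⟨_, h⟩; exact h
  · intro h; exact ⟨h ▸ hb, h⟩

theorem reg_sites_mono {Y Y' : Finset g.I} (h : Y ⊆ Y') : g.sites Y ⊆ g.sites Y' := by
  intro v hv
  rw [reg_mem_sites] at hv ⊢
  exact h hv

theorem reg_sites_sdiff (Y Y' : Finset g.I) : g.sites (Y' \ Y) = g.sites Y' \ g.sites Y := by
  ext v
  simp [reg_mem_sites]

theorem reg_sites_union (Y Y' : Finset g.I) : g.sites (Y ∪ Y') = g.sites Y ∪ g.sites Y' := by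
  ext v
  simp [reg_mem_sites]

/-- the fibres of `blk1` are intervals of length in `[m, 2m)` -/
theorem reg_fiber (hg : g.Ok) (c : Fin g.n) : ∃ s q : ℕ, g.m ≤ q ∧ q < 2 * g.m ∧ s + q ≤ G.M ∧
    ∀ i : Fin G.M, g.blk1 i = c ↔ s ≤ (i : ℕ) ∧ (i : ℕ) < s + q := by
  classical
  set T : Finset (Fin G.M) := Finset.univ.filter fun i => g.blk1 i = c with hT
  have hne : T.Nonempty := by
    obtain ⟨i, hi⟩ := hg.surj c
    exact ⟨i, by simp [hT, hi]⟩
  have hmem : ∀ i, i ∈ T ↔ g.blk1 i = c := fun i => by simp [hT]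
  set a := T.min' hne with ha
  set b := T.max' hne with hb
  have haT : g.blk1 a = c := (hmem a).1 (T.min'_mem hne)
  have hbT : g.blk1 b = c := (hmem b).1 (T.max'_mem hne)
  have hab : a ≤ b := T.min'_le b (T.max'_mem hne)
  have hIcc : T = Finset.Icc a b := by
    ext i
    rw [Finset.mem_Icc, hmem]
    constructor
    · intro hi
      exact ⟨T.min'_le i ((hmem i).2 hi), T.le_max' i ((hmem i).2 hi)⟩
    · rintro ⟨h1, h2⟩
      exact le_antisymm (hbT ▸ hg.mono h2) (haT ▸ hg.mono h1)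
  have hcard : T.card = (b : ℕ) + 1 - a := by
    rw [hIcc, Fin.card_Icc]
  have hab' : (a : ℕ) ≤ b := hab
  obtain ⟨h1, h2⟩ := hg.size c
  refine ⟨a, (b : ℕ) + 1 - a, hcard ▸ h1, hcard ▸ h2, ?_, fun i => ?_⟩
  · have := b.2; omega
  · rw [← hmem, hIcc, Finset.mem_Icc, Fin.le_def, Fin.le_def]
    omega

/-- a block is a rectangle -/
theorem reg_block_rect (hg : g.Ok) (b : g.I) : ∃ s1 q1 s2 q2 : ℕ,
    g.m ≤ q1 ∧ q1 < 2 * g.m ∧ s1 + q1 ≤ G.M ∧ g.m ≤ q2 ∧ q2 < 2 * g.m ∧ s2 + q2 ≤ G.M ∧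
    (∀ v : G.V, v ∈ g.sites {b} ↔
      (s1 ≤ (v.1 : ℕ) ∧ (v.1 : ℕ) < s1 + q1) ∧ (s2 ≤ (v.2 : ℕ) ∧ (v.2 : ℕ) < s2 + q2)) ∧
    (∀ F : ℤ × ℤ → ℝ, ∑ v ∈ g.sites {b}, F (G.ι v)
      = ∑ x ∈ Finset.Ico (s1 : ℤ) (s1 + q1), ∑ y ∈ Finset.Ico (s2 : ℤ) (s2 + q2), F (x, y)) := by
  obtain ⟨s1, q1, h1, h2, h3, h4⟩ := reg_fiber g hg b.1
  obtain ⟨s2, q2, k1, k2, k3, k4⟩ := reg_fiber g hg b.2
  have hmem : ∀ v : G.V, v ∈ g.sites {b} ↔
      (s1 ≤ (v.1 : ℕ) ∧ (v.1 : ℕ) < s1 + q1) ∧ (s2 ≤ (v.2 : ℕ) ∧ (v.2 : ℕ) < s2 + q2) := by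
    intro v
    rw [reg_mem_sites, Finset.mem_singleton, ← h4, ← k4]
    simp [Grid.blk, Prod.ext_iff]
  refine ⟨s1, q1, s2, q2, h1, h2, h3, k1, k2, k3, hmem, fun F => ?_⟩
  rw [← Finset.sum_product']
  refine Finset.sum_bij (fun v _ => G.ι v) ?_ ?_ ?_ ?_
  · intro v hv
    have := (hmem v).1 hv
    simp only [Geom.ι, Finset.mem_product, Finset.mem_Ico]
    omega
  · intro v _ w _ h
    simp only [Geom.ι, Prod.mk.injEq] at h
    exact Prod.ext (Fin.ext (by omega)) (Fin.ext (by omega))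
  · intro p hp
    simp only [Finset.mem_product, Finset.mem_Ico] at hp
    refine ⟨(⟨p.1.toNat, by omega⟩, ⟨p.2.toNat, by omega⟩), ?_, ?_⟩
    · rw [hmem]
      simp only
      omega
    · simp only [Geom.ι]
      exact Prod.ext (by simp only; omega) (by simp only; omega)
  · intro v _
    rfl

theorem regd_block_card (hg : g.Ok) (b : g.I) : ∃ q1 q2 : ℕ, g.m ≤ q1 ∧ q1 < 2 * g.m ∧ g.m ≤ q2 ∧
    q2 < 2 * g.m ∧ (g.sites {b}).card = q1 * q2 := by
  obtain ⟨s1, q1, s2, q2, h1, h2, h3, k1, k2, k3, -, hsum⟩ := reg_block_rect g hg b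
  refine ⟨q1, q2, h1, h2, k1, k2, ?_⟩
  have h := hsum (fun _ => 1)
  simp only [Finset.sum_const, Int.card_Ico, mul_one, nsmul_eq_mul] at h
  have e1 : ((s1 : ℤ) + q1 - s1).toNat = q1 := by omega
  have e2 : ((s2 : ℤ) + q2 - s2).toNat = q2 := by omega
  rw [e1, e2] at h
  exact_mod_cast h

theorem reg_block_card_le (hg : g.Ok) (b : g.I) : (g.sites {b}).card ≤ 4 * g.m ^ 2 := by
  obtain ⟨q1, q2, h1, h2, k1, k2, h⟩ := regd_block_card g hg b
  rw [h]
  nlinarith

theorem reg_block_card_ge (hg : g.Ok) (b : g.I) : g.m ^ 2 ≤ (g.sites {b}).card := by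
  obtain ⟨q1, q2, h1, h2, k1, k2, h⟩ := regd_block_card g hg b
  rw [h]
  nlinarith

/-! ### LEAF `REG-D2` -/

theorem regd_idist1_self (a : Fin g.n) : g.idist1 a a = 0 := by
  unfold Grid.idist1
  split <;> simp

theorem regd_idist1_comm (a b : Fin g.n) : g.idist1 a b = g.idist1 b a := by
  unfold Grid.idist1
  split <;> omega

theorem regd_idist1_triangle (a b c : Fin g.n) : g.idist1 a c ≤ g.idist1 a b + g.idist1 b c := by
  have := a.2
  have := b.2
  have := c.2
  unfold Grid.idist1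
  split <;> omega

theorem reg_idist_self (a : g.I) : g.idist a a = 0 := by
  simp [Grid.idist, regd_idist1_self]

theorem reg_idist_comm (a b : g.I) : g.idist a b = g.idist b a := by
  simp [Grid.idist, regd_idist1_comm g a.1 b.1, regd_idist1_comm g a.2 b.2]

theorem reg_idist_triangle (a b c : g.I) : g.idist a c ≤ g.idist a b + g.idist b c := by
  have h1 := regd_idist1_triangle g a.1 b.1 c.1
  have h2 := regd_idist1_triangle g a.2 b.2 c.2
  simp only [Grid.idist]
  omega

theorem regd_idist1_cases {a b : Fin g.n} {k : ℕ} (h : g.idist1 a b ≤ k) :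
    ((a : ℤ) - b).natAbs ≤ k ∨ g.n - ((a : ℤ) - b).natAbs ≤ k := by
  unfold Grid.idist1 at h
  split at h <;> omega

theorem regd_idist1_ball (a : Fin g.n) : (Finset.univ.filter fun b => g.idist1 a b ≤ 2).card ≤ 5 := by
  have key : (Finset.univ.filter fun b => g.idist1 a b ≤ 2).card ≤ (Finset.range 5).card := by
    refine Finset.card_le_card_of_injOn
      (fun b : Fin g.n => (if (b : ℤ) - a + 2 < 0 then (b : ℤ) - a + 2 + g.n
        else if (g.n : ℤ) ≤ (b : ℤ) - a + 2 then (b : ℤ) - a + 2 - g.n else (b : ℤ) - a + 2).toNat) ?_ ?_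
    · intro b hb
      have hb' := regd_idist1_cases g (Finset.mem_filter.1 hb).2
      have := a.2
      have := b.2
      simp only [Finset.coe_range, Set.mem_Iio]
      split_ifs <;> omega
    · intro b _ b' _ h
      have := a.2
      have := b.2
      have := b'.2
      simp only at h
      apply Fin.ext
      split_ifs at h <;> omega
  simpa using key

theorem reg_idist_ball (a : g.I) : (Finset.univ.filter fun b => g.idist a b ≤ 2).card ≤ 25 := by
  have hsub : (Finset.univ.filter fun b => g.idist a b ≤ 2) ⊆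
      (Finset.univ.filter fun b => g.idist1 a.1 b ≤ 2) ×ˢ
        (Finset.univ.filter fun b => g.idist1 a.2 b ≤ 2) := by
    intro b hb
    have hb' := (Finset.mem_filter.1 hb).2
    simp only [Grid.idist] at hb'
    simp only [Finset.mem_product, Finset.mem_filter, Finset.mem_univ, true_and]
    omega
  calc _ ≤ _ := Finset.card_le_card hsub
    _ = _ := Finset.card_product _ _
    _ ≤ 5 * 5 := Nat.mul_le_mul (regd_idist1_ball g a.1) (regd_idist1_ball g a.2)

theorem regd_mem_collar (X : Finset g.I) (b : g.I) : b ∈ g.collar X ↔ ∃ a ∈ X, g.idist a b ≤ 2 := by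
  simp [Grid.collar]

theorem reg_subset_collar (X : Finset g.I) : X ⊆ g.collar X := by
  intro a ha
  rw [regd_mem_collar]
  exact ⟨a, ha, by simp [reg_idist_self]⟩

theorem reg_collar_mono {X X' : Finset g.I} (h : X ⊆ X') : g.collar X ⊆ g.collar X' := by
  intro b hb
  rw [regd_mem_collar] at hb ⊢
  obtain ⟨a, ha, hab⟩ := hb
  exact ⟨a, h ha, hab⟩

theorem reg_collar_union (X X' : Finset g.I) : g.collar (X ∪ X') = g.collar X ∪ g.collar X' := by
  ext b
  simp only [Finset.mem_union, regd_mem_collar]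
  constructor
  · rintro ⟨a, ha | ha, hab⟩
    · exact Or.inl ⟨a, ha, hab⟩
    · exact Or.inr ⟨a, ha, hab⟩
  · rintro (⟨a, ha, hab⟩ | ⟨a, ha, hab⟩)
    · exact ⟨a, Or.inl ha, hab⟩
    · exact ⟨a, Or.inr ha, hab⟩

theorem reg_collar_card (X : Finset g.I) : (g.collar X).card ≤ 25 * X.card := by
  classical
  have hsub : g.collar X ⊆ X.biUnion fun a => Finset.univ.filter fun b => g.idist a b ≤ 2 := by
    intro b hb
    rw [regd_mem_collar] at hb
    obtain ⟨a, ha, hab⟩ := hb
    exact Finset.mem_biUnion.2 ⟨a, ha, by simp [hab]⟩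
  calc _ ≤ _ := Finset.card_le_card hsub
    _ ≤ X.card * 25 := Finset.card_biUnion_le_card_mul _ _ _ fun a _ => reg_idist_ball g a
    _ = _ := by ring

theorem reg_Dm_card (hg : g.Ok) (X : Finset g.I) : (g.Dm X).card ≤ 100 * g.m ^ 2 * X.card := by
  have h1 : (g.Dm X).card = ∑ b ∈ g.collar X, (g.sites {b}).card := by
    have := reg_sites_sum g (g.collar X) (fun _ => 1)
    simpa [Grid.Dm] using this
  rw [h1]
  calc _ ≤ ∑ _b ∈ g.collar X, 4 * g.m ^ 2 := Finset.sum_le_sum fun b _ => reg_block_card_le g hg b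
    _ = (g.collar X).card * (4 * g.m ^ 2) := by simp
    _ ≤ (25 * X.card) * (4 * g.m ^ 2) := Nat.mul_le_mul_right _ (reg_collar_card g X)
    _ = _ := by ring

/-! ### LEAF `REG-D3` -/

theorem regd_emod {x r M : ℤ} (k : ℤ) (h : x = r + M * k) (h0 : 0 ≤ r) (h1 : r < M) : x % M = r := by
  subst h
  rw [Int.add_mul_emod_self_left, Int.emod_eq_of_lt h0 h1]

theorem regd_fold_in (G : Geom) (x : ℤ) (h0 : 0 ≤ x) (h1 : x < G.M) : ((G.fold x : Fin G.M) : ℕ) = x.toNat := by
  obtain ⟨bc, M, hM⟩ := G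
  cases bc
  · simp only [Geom.fold]
    rw [Int.emod_eq_of_lt h0 h1]
  · simp only [Geom.fold]
    have e : x % (2 * (M : ℤ)) = x := Int.emod_eq_of_lt h0 (by simp only at h1; omega)
    rw [e, if_pos h1]

theorem regd_fold_top (G : Geom) : (G.bc = BC.per → ((G.fold (G.M : ℤ) : Fin G.M) : ℕ) = 0) ∧
    (G.bc = BC.free → ((G.fold (G.M : ℤ) : Fin G.M) : ℕ) + 1 = G.M) := by
  obtain ⟨bc, M, hM⟩ := G
  cases bc
  · refine ⟨fun _ => ?_, fun h => (by cases h)⟩
    simp [Geom.fold]
  · refine ⟨fun h => (by cases h), fun _ => ?_⟩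
    simp only [Geom.fold]
    have e : (M : ℤ) % (2 * (M : ℤ)) = M := Int.emod_eq_of_lt (by omega) (by omega)
    rw [e, if_neg (lt_irrefl _)]
    omega

theorem regd_fold_neg (G : Geom) : (G.bc = BC.per → ((G.fold (-1) : Fin G.M) : ℕ) + 1 = G.M) ∧
    (G.bc = BC.free → ((G.fold (-1) : Fin G.M) : ℕ) = 0) := by
  obtain ⟨bc, M, hM⟩ := G
  cases bc
  · refine ⟨fun _ => ?_, fun h => (by cases h)⟩
    simp only [Geom.fold]
    have e : (-1 : ℤ) % (M : ℤ) = M - 1 := regd_emod (-1) (by ring) (by omega) (by omega)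
    rw [e]
    omega
  · refine ⟨fun h => (by cases h), fun _ => ?_⟩
    simp only [Geom.fold]
    have e : (-1 : ℤ) % (2 * (M : ℤ)) = 2 * M - 1 := regd_emod (-1) (by ring) (by omega) (by omega)
    rw [e, if_neg (by omega)]
    omega

theorem reg_blk1_zero (hg : g.Ok) (i : Fin G.M) (hi : (i : ℕ) = 0) : (g.blk1 i : ℕ) = 0 := by
  have hn : 0 < g.n := lt_of_le_of_lt (Nat.zero_le _) (g.blk1 i).2
  obtain ⟨j, hj⟩ := hg.surj ⟨0, hn⟩
  have h1 : i ≤ j := by rw [Fin.le_def]; omega
  have h2 := hg.mono h1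
  rw [hj, Fin.le_def] at h2
  simpa using h2

theorem reg_blk1_last (hg : g.Ok) (i : Fin G.M) (hi : (i : ℕ) + 1 = G.M) : (g.blk1 i : ℕ) + 1 = g.n := by
  have hn : 0 < g.n := lt_of_le_of_lt (Nat.zero_le _) (g.blk1 i).2
  obtain ⟨j, hj⟩ := hg.surj ⟨g.n - 1, by omega⟩
  have h1 : j ≤ i := by rw [Fin.le_def]; have := j.2; omega
  have h2 := hg.mono h1
  rw [hj, Fin.le_def] at h2
  have := (g.blk1 i).2
  simp only at h2
  omega

theorem reg_blk1_succ (hg : g.Ok) (i j : Fin G.M) (hij : (j : ℕ) = i + 1) :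
    (g.blk1 j : ℕ) = g.blk1 i ∨ (g.blk1 j : ℕ) = g.blk1 i + 1 := by
  have h1 : i ≤ j := by rw [Fin.le_def]; omega
  have h2 : (g.blk1 i : ℕ) ≤ g.blk1 j := hg.mono h1
  by_contra hcon
  have h3 : (g.blk1 i : ℕ) + 1 < g.blk1 j := by omega
  obtain ⟨k, hk⟩ := hg.surj ⟨(g.blk1 i : ℕ) + 1, by have := (g.blk1 j).2; omega⟩
  rcases le_or_gt k i with h | h
  · have h4 : (g.blk1 k : ℕ) ≤ g.blk1 i := hg.mono h
    rw [hk] at h4
    simp only at h4
    omega
  · have h5 : j ≤ k := by rw [Fin.le_def]; rw [Fin.lt_def] at h; omega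
    have h4 : (g.blk1 j : ℕ) ≤ g.blk1 k := hg.mono h5
    rw [hk] at h4
    simp only at h4
    omega

/-- one step on one axis -/
theorem regd_idist1_step (hg : g.Ok) (i : Fin G.M) (σ : ℤ) (hσ : σ = 0 ∨ σ = 1 ∨ σ = -1) :
    g.idist1 (g.blk1 i) (g.blk1 (G.fold ((i : ℕ) + σ))) ≤ 1 := by
  have hi := i.2
  have key : ∀ a b : Fin g.n, ((b : ℕ) = a ∨ (b : ℕ) = a + 1 ∨ (a : ℕ) = b + 1) → g.idist1 a b ≤ 1 := by
    intro a b h
    unfold Grid.idist1
    split <;> omega
  have keyP : G.bc = BC.per → ∀ a b : Fin g.n, (((a : ℕ) = 0 ∧ (b : ℕ) + 1 = g.n) ∨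
      ((b : ℕ) = 0 ∧ (a : ℕ) + 1 = g.n)) → g.idist1 a b ≤ 1 := by
    intro hbc a b h
    unfold Grid.idist1
    split
    · omega
    · rename_i h'; rw [hbc] at h'; cases h'
  rcases hσ with rfl | rfl | rfl
  · rw [add_zero, reg_fold_coe]
    exact key _ _ (Or.inl rfl)
  · rcases Nat.lt_or_ge ((i : ℕ) + 1) G.M with h | h
    · have e := regd_fold_in G ((i : ℕ) + 1) (by omega) (by omega)
      have e' : ((G.fold ((i : ℕ) + 1) : Fin G.M) : ℕ) = i + 1 := by rw [e]; omega
      rcases reg_blk1_succ g hg i _ e' with h1 | h1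
      · exact key _ _ (Or.inl h1)
      · exact key _ _ (Or.inr (Or.inl h1))
    · have hM : ((i : ℕ) : ℤ) + 1 = (G.M : ℤ) := by omega
      rw [hM]
      rcases hbc : G.bc with _ | _
      · have e := (regd_fold_top G).1 hbc
        exact keyP hbc _ _ (Or.inr ⟨reg_blk1_zero g hg _ e, reg_blk1_last g hg i (by omega)⟩)
      · have e := (regd_fold_top G).2 hbc
        have : G.fold (G.M : ℤ) = i := Fin.ext (by omega)
        rw [this]
        exact key _ _ (Or.inl rfl)
  · rcases Nat.eq_zero_or_pos (i : ℕ) with h | h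
    · have hM : ((i : ℕ) : ℤ) + -1 = -1 := by omega
      rw [hM]
      rcases hbc : G.bc with _ | _
      · have e := (regd_fold_neg G).1 hbc
        exact keyP hbc _ _ (Or.inl ⟨reg_blk1_zero g hg i h, reg_blk1_last g hg _ e⟩)
      · have e := (regd_fold_neg G).2 hbc
        have : G.fold (-1) = i := Fin.ext (by omega)
        rw [this]
        exact key _ _ (Or.inl rfl)
    · have e := regd_fold_in G ((i : ℕ) + -1) (by omega) (by omega)
      have e' : (i : ℕ) = ((G.fold ((i : ℕ) + -1) : Fin G.M) : ℕ) + 1 := by rw [e]; omega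
      rcases reg_blk1_succ g hg _ i e' with h1 | h1
      · exact key _ _ (Or.inl h1.symm)
      · exact key _ _ (Or.inr (Or.inr h1))

/-- neighbouring sites lie in the same block or in neighbouring blocks -/
theorem reg_idist_nb (hg : g.Ok) (v : G.V) (e : Fin 4) : g.idist (g.blk v) (g.blk (regNb G v e)) ≤ 1 := by
  rw [reg_nb_wall]
  simp only [Grid.idist, Grid.blk]
  have h1 : (dir e).1 = 0 ∨ (dir e).1 = 1 ∨ (dir e).1 = -1 := by fin_cases e <;> simp [dir]
  have h2 : (dir e).2 = 0 ∨ (dir e).2 = 1 ∨ (dir e).2 = -1 := by fin_cases e <;> simp [dir]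
  exact max_le (regd_idist1_step g hg v.1 _ h1) (regd_idist1_step g hg v.2 _ h2)

/-! ### LEAF `REG-D4` -/

section nest

variable {g} {g' : Grid G} (N : Nest g g')

theorem reg_up_blk (v : G.V) : N.up (g.blk v) = g'.blk v := by
  simp [Nest.up, Grid.blk, N.comm]

theorem reg_up1_mono (hg : g.Ok) (hg' : g'.Ok) : Monotone N.up1 := by
  intro a b hab
  obtain ⟨i, rfl⟩ := hg.surj a
  obtain ⟨j, rfl⟩ := hg.surj b
  rw [← N.comm, ← N.comm]
  rcases le_total i j with h | h
  · exact hg'.mono h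
  · have : g.blk1 i = g.blk1 j := le_antisymm hab (hg.mono h)
    rw [N.comm, N.comm, this]

theorem reg_up1_succ (hg : g.Ok) (hg' : g'.Ok) (a b : Fin g.n) (hab : (b : ℕ) = a + 1) :
    (N.up1 b : ℕ) = N.up1 a ∨ (N.up1 b : ℕ) = N.up1 a + 1 := by
  obtain ⟨s, q, h1, h2, h3, h4⟩ := reg_fiber g hg a
  obtain ⟨j, hj⟩ := hg.surj b
  have hm := hg.pos
  have hk : s + q - 1 < G.M := by omega
  have hka : g.blk1 ⟨s + q - 1, hk⟩ = a := (h4 _).2 (by simp only; omega)
  have hjq : s + q ≤ (j : ℕ) := by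
    by_contra hcon
    have hjs : ¬ (s ≤ (j : ℕ)) := by
      intro hs
      have := (h4 j).2 ⟨hs, by omega⟩
      rw [hj] at this
      rw [this] at hab
      omega
    have hle : j ≤ ⟨s + q - 1, hk⟩ := by rw [Fin.le_def]; simp only; omega
    have := hg.mono hle
    rw [hj, hka, Fin.le_def] at this
    omega
  have hk' : s + q < G.M := lt_of_le_of_lt hjq j.2
  have hsucc : ((⟨s + q, hk'⟩ : Fin G.M) : ℕ) = ((⟨s + q - 1, hk⟩ : Fin G.M) : ℕ) + 1 := by
    simp only; omega
  have hkb : g.blk1 ⟨s + q, hk'⟩ = b := by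
    rcases reg_blk1_succ g hg _ _ hsucc with h | h
    · exfalso
      rw [hka] at h
      have := (h4 ⟨s + q, hk'⟩).1 (Fin.ext h)
      simp only at this
      omega
    · rw [hka] at h
      exact Fin.ext (by omega)
  have := reg_blk1_succ g' hg' _ _ hsucc
  rwa [N.comm, N.comm, hka, hkb] at this

theorem regd_up1_lip (hg : g.Ok) (hg' : g'.Ok) (k : ℕ) : ∀ a b : Fin g.n, (b : ℕ) = a + k →
    (N.up1 b : ℕ) ≤ N.up1 a + k := by
  induction k with
  | zero =>
    intro a b h
    have : b = a := Fin.ext (by omega)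
    rw [this]; omega
  | succ k ih =>
    intro a b h
    have hc : (a : ℕ) + k < g.n := by have := b.2; omega
    have h1 := ih a ⟨(a : ℕ) + k, hc⟩ rfl
    have h2 := reg_up1_succ N hg hg' ⟨(a : ℕ) + k, hc⟩ b (by simp only; omega)
    omega

theorem regd_up1_zero (hg : g.Ok) (hg' : g'.Ok) (a : Fin g.n) (ha : (a : ℕ) = 0) : (N.up1 a : ℕ) = 0 := by
  have h1 := reg_blk1_zero g hg ⟨0, G.hM⟩ rfl
  have h2 := reg_blk1_zero g' hg' ⟨0, G.hM⟩ rfl
  rw [N.comm] at h2
  have : g.blk1 ⟨0, G.hM⟩ = a := Fin.ext (by omega)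
  rwa [this] at h2

theorem regd_up1_last (hg : g.Ok) (hg' : g'.Ok) (a : Fin g.n) (ha : (a : ℕ) + 1 = g.n) :
    (N.up1 a : ℕ) + 1 = g'.n := by
  have hM := G.hM
  have h1 := reg_blk1_last g hg ⟨G.M - 1, by omega⟩ (by simp only; omega)
  have h2 := reg_blk1_last g' hg' ⟨G.M - 1, by omega⟩ (by simp only; omega)
  rw [N.comm] at h2
  have : g.blk1 ⟨G.M - 1, by omega⟩ = a := Fin.ext (by omega)
  rwa [this] at h2

theorem regd_up_idist1_le (hg : g.Ok) (hg' : g'.Ok) (a b : Fin g.n) (hab : a ≤ b) :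
    g'.idist1 (N.up1 a) (N.up1 b) ≤ g.idist1 a b := by
  have hab' : (a : ℕ) ≤ b := hab
  have hn : 0 < g.n := lt_of_le_of_lt (Nat.zero_le _) a.2
  have h1 : (N.up1 a : ℕ) ≤ N.up1 b := reg_up1_mono N hg hg' hab
  have h2 := regd_up1_lip N hg hg' ((b : ℕ) - a) a b (by omega)
  have h3 := regd_up1_lip N hg hg' (a : ℕ) ⟨0, hn⟩ a (by simp)
  have h4 := regd_up1_zero N hg hg' ⟨0, hn⟩ rfl
  have h5 := regd_up1_lip N hg hg' (g.n - 1 - b) b ⟨g.n - 1, by omega⟩ (by have := b.2; simp only; omega)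
  have h6 := regd_up1_last N hg hg' ⟨g.n - 1, by omega⟩ (by simp only; omega)
  have := b.2
  have := (N.up1 b).2
  unfold Grid.idist1
  split <;> omega

theorem regd_up_idist1 (hg : g.Ok) (hg' : g'.Ok) (a b : Fin g.n) :
    g'.idist1 (N.up1 a) (N.up1 b) ≤ g.idist1 a b := by
  rcases le_total a b with h | h
  · exact regd_up_idist1_le N hg hg' a b h
  · have := regd_up_idist1_le N hg hg' b a h
    have e1 : g'.idist1 (N.up1 a) (N.up1 b) = g'.idist1 (N.up1 b) (N.up1 a) := by
      unfold Grid.idist1; split <;> omega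
    have e2 : g.idist1 a b = g.idist1 b a := by
      unfold Grid.idist1; split <;> omega
    rw [e1, e2]; exact this

/-- coarsening does not increase the index distance -/
theorem reg_up_idist (hg : g.Ok) (hg' : g'.Ok) (a b : g.I) : g'.idist (N.up a) (N.up b) ≤ g.idist a b := by
  have h1 := regd_up_idist1 N hg hg' a.1 b.1
  have h2 := regd_up_idist1 N hg hg' a.2 b.2
  simp only [Grid.idist, Nest.up]
  omega

theorem reg_up_collar (hg : g.Ok) (hg' : g'.Ok) (X : Finset g.I) {a : g.I} (ha : a ∈ g.collar X) :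
    N.up a ∈ g'.collar (N.cl X) := by
  classical
  rw [regd_mem_collar] at ha ⊢
  obtain ⟨x, hx, hxa⟩ := ha
  exact ⟨N.up x, Finset.mem_image_of_mem _ hx, (reg_up_idist N hg hg' x a).trans hxa⟩

theorem reg_sites_up (Y' : Finset g'.I) : g'.sites Y' = g.sites (Finset.univ.filter fun b => N.up b ∈ Y') := by
  ext v
  simp [reg_mem_sites, reg_up_blk]

theorem reg_Dm_subset (hg : g.Ok) (hg' : g'.Ok) (X : Finset g.I) (Y : Finset g'.I) (h : N.cl X ⊆ Y) :
    g.Dm X ⊆ g'.Dm Y := by
  intro v hv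
  rw [reg_mem_Dm] at hv ⊢
  rw [← reg_up_blk N v]
  exact reg_collar_mono g' h (reg_up_collar N hg hg' X hv)

theorem regd_up1_fiber_card (hg : g.Ok) (hg' : g'.Ok) (L : ℕ) (hS : g'.m = L * g.m) (c' : Fin g'.n) :
    (Finset.univ.filter fun c : Fin g.n => N.up1 c = c').card ≤ 2 * L := by
  classical
  have h1 : (Finset.univ.filter fun i => g'.blk1 i = c').card =
      ∑ c ∈ Finset.univ.filter (fun c : Fin g.n => N.up1 c = c'),
        ((Finset.univ.filter fun i => g'.blk1 i = c').filter fun i => g.blk1 i = c).card := by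
    refine Finset.card_eq_sum_card_fiberwise fun i hi => ?_
    have hi' : g'.blk1 i = c' := by simpa using hi
    simp only [Finset.coe_filter, Finset.mem_univ, true_and, Set.mem_ofPred_eq]
    rw [← N.comm, hi']
  have h2 : ∀ c ∈ Finset.univ.filter (fun c : Fin g.n => N.up1 c = c'), g.m ≤
      ((Finset.univ.filter fun i => g'.blk1 i = c').filter fun i => g.blk1 i = c).card := by
    intro c hc
    have hc' : N.up1 c = c' := by simpa using hc
    have e : ((Finset.univ.filter fun i => g'.blk1 i = c').filter fun i => g.blk1 i = c) =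
        Finset.univ.filter fun i => g.blk1 i = c := by
      ext i
      simp only [Finset.mem_filter, Finset.mem_univ, true_and]
      constructor
      · exact fun h => h.2
      · intro h
        exact ⟨by rw [N.comm, h, hc'], h⟩
    rw [e]
    exact (hg.size c).1
  have h3 := Finset.card_nsmul_le_sum _ _ _ h2
  rw [← h1, smul_eq_mul] at h3
  have h4 := (hg'.size c').2
  rw [hS] at h4
  have hm := hg.pos
  by_contra hcon
  rw [not_le] at hcon
  have : (2 * L + 1) * g.m ≤ (Finset.univ.filter fun c : Fin g.n => N.up1 c = c').card * g.m :=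
    Nat.mul_le_mul_right _ hcon
  nlinarith

/-- a coarse block contains at most `4 L²` fine blocks -/
theorem reg_up_fiber_card (hg : g.Ok) (hg' : g'.Ok) (L : ℕ) (hS : g'.m = L * g.m) (b' : g'.I) :
    (Finset.univ.filter fun b : g.I => N.up b = b').card ≤ 4 * L ^ 2 := by
  have hsub : (Finset.univ.filter fun b : g.I => N.up b = b') ⊆
      (Finset.univ.filter fun c : Fin g.n => N.up1 c = b'.1) ×ˢ
        (Finset.univ.filter fun c : Fin g.n => N.up1 c = b'.2) := by
    intro b hb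
    have hb' : N.up b = b' := by simpa using hb
    simp only [Finset.mem_product, Finset.mem_filter, Finset.mem_univ, true_and]
    rw [← hb']
    exact ⟨rfl, rfl⟩
  calc _ ≤ _ := Finset.card_le_card hsub
    _ = _ := Finset.card_product _ _
    _ ≤ (2 * L) * (2 * L) := Nat.mul_le_mul (regd_up1_fiber_card N hg hg' L hS b'.1)
        (regd_up1_fiber_card N hg hg' L hS b'.2)
    _ = _ := by ring

end nest

/-! ### LEAF `REG-D5` -/

/-- `i` is the first or the last coordinate of its interval -/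
def regEnd (i : Fin G.M) : Prop :=
  g.blk1 (G.fold ((i : ℕ) + 1)) ≠ g.blk1 i ∨ g.blk1 (G.fold ((i : ℕ) + -1)) ≠ g.blk1 i

theorem reg_end_of_nb (v : G.V) (e : Fin 4) (h : g.blk (regNb G v e) ≠ g.blk v) :
    regEnd g v.1 ∨ regEnd g v.2 := by
  rw [reg_nb_wall] at h
  simp only [Grid.blk, ne_eq, Prod.mk.injEq, not_and_or] at h
  unfold regEnd
  fin_cases e <;> simp only [dir, Fin.zero_eta, Fin.mk_one, Fin.reduceFinMk, Matrix.cons_val_zero,
    Matrix.cons_val_one, Matrix.cons_val, add_zero, reg_fold_coe, not_true_eq_false, or_false,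
    false_or] at h <;> tauto

open Classical in
theorem reg_end_count (hg : g.Ok) (i : Fin G.M) (ρ r : ℕ) (hr : r ≤ ρ * g.m) :
    (Finset.univ.filter fun j => regEnd g j ∧ regD1 G i j ≤ r).card ≤ 4 * ρ + 10 := by
  set E := Finset.univ.filter fun j => regEnd g j ∧ regD1 G i j ≤ r with hE
  have hm := hg.pos
  -- (a) at most two ends in a fibre
  have ha : ∀ c ∈ E.image g.blk1, (E.filter fun x => g.blk1 x = c).card ≤ 2 := by
    intro c _
    obtain ⟨s, q, h1, h2, h3, h4⟩ := reg_fiber g hg c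
    have hs : s < G.M := by omega
    have hs' : s + q - 1 < G.M := by omega
    have hsub : (E.filter fun x => g.blk1 x = c) ⊆ {(⟨s, hs⟩ : Fin G.M), ⟨s + q - 1, hs'⟩} := by
      intro j hj
      rw [Finset.mem_filter] at hj
      obtain ⟨hjE, hjc⟩ := hj
      have hend : regEnd g j := (Finset.mem_filter.1 hjE).2.1
      have hj' := (h4 j).1 hjc
      rw [Finset.mem_insert, Finset.mem_singleton]
      by_contra hcon
      rw [not_or] at hcon
      have n1 : (j : ℕ) ≠ s := fun h => hcon.1 (Fin.ext h)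
      have n2 : (j : ℕ) ≠ s + q - 1 := fun h => hcon.2 (Fin.ext h)
      have e1 := regd_fold_in G ((j : ℕ) + 1) (by omega) (by omega)
      have e2 := regd_fold_in G ((j : ℕ) + -1) (by omega) (by omega)
      have b1 : g.blk1 (G.fold ((j : ℕ) + 1)) = c := (h4 _).2 (by rw [e1]; omega)
      have b2 : g.blk1 (G.fold ((j : ℕ) + -1)) = c := (h4 _).2 (by rw [e2]; omega)
      rcases hend with h | h
      · exact h (by rw [b1, hjc])
      · exact h (by rw [b2, hjc])
    exact (Finset.card_le_card hsub).trans Finset.card_le_two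
  have hcard := Finset.card_le_mul_card_image E 2 ha
  -- (b) the fibres lie in a ball
  set C := E.image g.blk1 with hC
  have hsub : (Finset.univ.filter fun j' => g.blk1 j' ∈ C) ⊆
      Finset.univ.filter fun j' => regD1 G i j' ≤ r + 2 * g.m := by
    intro j' hj'
    have hj'C : g.blk1 j' ∈ C := (Finset.mem_filter.1 hj').2
    obtain ⟨j, hjE, hjj'⟩ := Finset.mem_image.1 hj'C
    have hd : regD1 G i j ≤ r := (Finset.mem_filter.1 hjE).2.2
    obtain ⟨s, q, h1, h2, h3, h4⟩ := reg_fiber g hg (g.blk1 j')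
    have k1 := (h4 j).1 hjj'
    have k2 := (h4 j').1 rfl
    have t1 := reg_d1_triangle G i j j'
    have t2 := reg_d1_le G j j'
    simp only [Finset.mem_filter, Finset.mem_univ, true_and]
    omega
  have h1 : (Finset.univ.filter fun j' => g.blk1 j' ∈ C).card =
      ∑ c ∈ C, ((Finset.univ.filter fun j' => g.blk1 j' ∈ C).filter fun j' => g.blk1 j' = c).card := by
    refine Finset.card_eq_sum_card_fiberwise fun j' hj' => ?_
    exact (Finset.mem_filter.1 hj').2
  have h2 : ∀ c ∈ C, g.m ≤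
      ((Finset.univ.filter fun j' => g.blk1 j' ∈ C).filter fun j' => g.blk1 j' = c).card := by
    intro c hc
    have e : ((Finset.univ.filter fun j' => g.blk1 j' ∈ C).filter fun j' => g.blk1 j' = c) =
        Finset.univ.filter fun j' => g.blk1 j' = c := by
      ext j'
      simp only [Finset.mem_filter, Finset.mem_univ, true_and]
      constructor
      · exact fun h => h.2
      · intro h
        exact ⟨h ▸ hc, h⟩
    rw [e]
    exact (hg.size c).1
  have h3 := Finset.card_nsmul_le_sum _ _ _ h2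
  rw [← h1, smul_eq_mul] at h3
  have h4 := (Finset.card_le_card hsub).trans (reg_d1_ball G i (r + 2 * g.m))
  have h5 : C.card * g.m ≤ (2 * ρ + 5) * g.m := by
    calc C.card * g.m ≤ 2 * (r + 2 * g.m) + 1 := h3.trans h4
      _ ≤ 2 * (ρ * g.m + 2 * g.m) + g.m := by omega
      _ = (2 * ρ + 5) * g.m := by ring
  have h6 : C.card ≤ 2 * ρ + 5 := Nat.le_of_mul_le_mul_right h5 hm
  omega

end

end Claimed.Agent.R285.Reg
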