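import Claimed.Agent.R285.Reg.Grid

/-!
# ROW 285 / PK-REG ([B] Lemma 4.4) / En : block inequalities and the algebra of the energies `g_D`, `P_m`, `T_m`, `U_m`      (architect helper15)   -- KEEP

Notation: `∇_e φ (v) = φ (regNb G v e) - φ v`;  `regN2 g b φ = max_{v ∈ b, |a| = 2} |∇^a φ (v)|`;  `regRaw D φ = ∑_{v ∈ D, e, nb ∉ D} (∇_e φ v)²` (`P_m = m · regRaw`);
`regFace g b φ` = the same sum for one block;  `regBil D φ ζ = ½ ∑_{v ∈ D} ∑_e ∇_e φ ∇_e ζ`;  `regBv D φ` = the vector of the linear form `ζ ↦ regBil D φ ζ` (summation by parts).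

## LEAF `REG-B1` : `reg_trace`   (~250 lines)      [B] (rg:trace), in Sobolev form
PLAN.  `reg_block_rect hg b`.  Say `e = 0` (`dir 0 = (1,0)`; the other three directions are symmetric: do `fin_cases e`, or prove one lemma for an axis and a sign).  If `v ∈ b` and `(v.1 : ℕ) + 1 < s1 + q1` then `regNb G v 0 ∈ b`
(`reg_iota_nb`: no folding, then the membership criterion).  So the filtered sum is `≤ ∑_{y} f (s1+q1-1, y)²` (rewrite the filtered sum with an `if`, use the sum formula of `reg_block_rect` for `F = fun x => if x.1 = s1+q1-1 then f x ^ 2 else 0`).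
For each `y`: `reg_z1_fwd (fun x => f (x,y)) s1 q1 (s1+q1-1)`; `f (x+1, y) - f (x,y) = dif (dir 0) f (x,y)`.  `m · 2/q1 ≤ 2`, `m · 2 q1 ≤ 4 m²`.  For `e = 1, 3` use `reg_z1_bwd` and the face `x = s1`.
## LEAF `REG-B2` : `reg_gradsup`, `reg_sobolev`   (~250 lines)    [B] (rg:gradient-sup) and the two-dimensional discrete Sobolev bound
PLAN.  `reg_block_rect`; `reg_z1_fwd` in `x`, then in `y` for each `x'`:  `f(x,y)² ≤ 4/(q1 q2) ∑ f² + 4 q2/q1 ∑ (∇₂f)² + 4 q1/q2 ∑ (∇₁f)² + 4 q1 q2 ∑ (∇₂∇₁ f)²`, `m ≤ q < 2m`.  `gradsup`: the same two steps with `(∇f)² ≤ K²`: `f² ≤ 4/(q1 q2) ∑ f² + 4 q2² K² + 2 q1² K²`.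
## LEAF `REG-E1` : `reg_gE_eq`, `reg_PE_eq`, `reg_gE_nonneg`, `reg_PE_nonneg`, `reg_TE_nonneg`, `reg_U_nonneg`, `reg_gE_add`, `reg_gE_add_le`, `reg_PE_add_le`, `reg_gE_sdiff`, `reg_TE_sdiff`, `reg_gE_mono`, `reg_TE_mono`  (~200 lines)
PLAN.  `reg_dif_lift`; `(a+b)² ≤ 2a²+2b²`; `Finset.sum_sdiff`.
## LEAF `REG-E2` : `reg_n2_nonneg`, `reg_d2_le_n2`, `reg_n2_le`, `reg_n2_add`, `reg_TE_add_le`, `reg_n2_up`, `reg_lap_le_n2`, `reg_U_add_le`, `reg_U_expand`   (~250 lines)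
PLAN.  `Finset.le_sup`, `Finset.sup_le`, `NNReal.coe_le_coe`, `reg_d2_le_nab`, `reg_nab2_le`; `G.lift (φ + ζ) = G.lift φ + G.lift ζ`, `dif` is additive.  `reg_n2_up`: `g.sites {b} ⊆ g'.sites {N.up b}` (`reg_up_blk`), `Finset.sup_mono`.
`reg_lap_le_n2`: `∇_e φ (z) + ∇_{opp e} φ (z) = - dif (dir e) (dif (dir (regOpp e)) (G.lift φ)) (G.ι z)` (unfold `dif`, `reg_dir_opp`, `add_neg_cancel_right`); pair the four directions as `(0,1)`, `(2,3)` (`Fin.sum_univ_four`).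
`reg_U_expand`: `reg_gE_add`, `reg_PE_add_le`, `reg_TE_add_le`, `gE ζ ≤ 2 gE ζ`.
## LEAF `REG-E3` : `reg_raw_le_face`, `reg_raw_split`, `reg_raw_out`   (~250 lines)     the combinatorics of crossing edges
PLAN.  `reg_raw_le_face`: `reg_sites_sum`; `nb ∉ sites Y → nb ∉ sites {b}`; exchange `∑_v ∑_e`.
`reg_raw_split`: a pair `(v,e)`, `v ∈ sites Y`, `w = nb v e ∉ sites Y`: if `w ∉ sites Y'` it is a term of `regRaw (sites Y')`; otherwise `w ∈ sites {b}`, `b = blk w ∈ Y' \ Y`, and `(w, opp e)` is a term of `regFace g b`: `nb w (opp e) = v` (`reg_nb_rev`, `w ≠ v`), `v ∉ sites {b}`, same square.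
The map `(v,e) ↦ (nb v e, opp e)` is injective on these pairs (it is its own inverse).  Write all sums as sums over `G.V × Fin 4` with `if`s (`Finset.sum_product'`, `Finset.sum_filter`) and use `Finset.sum_le_sum_of_injOn`-type lemmas (`Finset.sum_le_sum_of_subset_of_nonneg` after `Finset.sum_image`).
`reg_raw_out`: the same involution.
## LEAF `REG-E4` : `reg_face_le_sup`, `reg_PE_inner`, `reg_PE_split`   (~150 lines)
PLAN.  `reg_trace` with `f = dif (dir e) (G.lift φ)` (`reg_dif_lift`), `(dif (dir e) f (ι v))² ≤ N2²` (`reg_d2_le_n2`), `reg_block_card_le`: `4 m² · 4 m² N2²`; sum over `e`: `∑_e ∑_{v ∈ b} (∇_e φ)² = 2 gE (sites {b})`.  Then `reg_raw_le_face`, `reg_raw_split`, `reg_sites_sum`.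
## LEAF `REG-E5` : `reg_bil_eq`, `reg_bv_sdiff`, `reg_bv_split`   (~200 lines)     summation by parts
PLAN.  `regBil D φ ζ = ½ ∑_{v∈D,e} ∇_eφ(v) ζ(nb v e) - ½ ∑_{v∈D,e} ∇_eφ(v) ζ(v)`.  In the first sum drop the pairs with `nb v e = v` (`∇ = 0`) and substitute `(v,e) = (nb z e', opp e')`: `∇_e φ (v) = - ∇_{e'} φ (z)`: it becomes `-½ ∑_z ∑_{e'} [nb z e' ∈ D] ∇_{e'} φ (z) ζ (z)`.
(`Finset.sum_bij'`/`Finset.sum_nbij'` on `(G.V × Fin 4).filter (nb ≠ v)` with the involution `(v,e) ↦ (nb v e, opp e)`: `reg_nb_rev`, `reg_opp_opp`.)   `sdiff`, `split`: pointwise, `by_cases` on the memberships.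
Helper lemmas with prefix `rege_`.
-/

set_option autoImplicit false

namespace Claimed.Agent.R285.Reg

open scoped BigOperators ENNReal NNReal
open MeasureTheory Matrix
open Claimed.Agent.R285.RG

noncomputable section

variable {G : Geom} (g : Grid G)

/-! ### definitions -/

/-- `max_{v ∈ b, |a| = 2} |∇^a φ (v)|` -/
def regN2 (b : g.I) (φ : G.V → ℝ) : ℝ := (((g.sites {b}).sup fun v => nab 2 (G.lift φ) (G.ι v) : ℝ≥0) : ℝ)

/-- `∑_{v ∈ D, e, nb ∉ D} (∇_e φ v)²` -/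
def regRaw (D : Finset G.V) (φ : G.V → ℝ) : ℝ :=
  ∑ v ∈ D, ∑ e : Fin 4, if regNb G v e ∈ D then 0 else (φ (regNb G v e) - φ v) ^ 2

/-- the sum over the edges leaving the block `b` -/
def regFace (b : g.I) (φ : G.V → ℝ) : ℝ :=
  ∑ e : Fin 4, ∑ v ∈ (g.sites {b}).filter (fun v => regNb G v e ∉ g.sites {b}), (φ (regNb G v e) - φ v) ^ 2

/-- `B_D (φ, ζ)` -/
def regBil (D : Finset G.V) (φ ζ : G.V → ℝ) : ℝ :=
  (1 / 2) * ∑ v ∈ D, ∑ e : Fin 4, (φ (regNb G v e) - φ v) * (ζ (regNb G v e) - ζ v)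

/-- the vector of the linear form `B_D (φ, ·)` -/
def regBv (D : Finset G.V) (φ : G.V → ℝ) : G.V → ℝ := fun z =>
  -(1 / 2) * ∑ e : Fin 4, ((if regNb G z e ∈ D then 1 else 0) + (if z ∈ D then 1 else 0)) * (φ (regNb G z e) - φ z)

/-- the bulk part `1_D 𝓛 φ` -/
def regBulk (D : Finset G.V) (φ : G.V → ℝ) : G.V → ℝ := fun z =>
  if z ∈ D then -∑ e : Fin 4, (φ (regNb G z e) - φ z) else 0

/-- the boundary part -/
def regBdv (D : Finset G.V) (φ : G.V → ℝ) : G.V → ℝ := fun z =>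
  (1 / 2) * ∑ e : Fin 4, ((if z ∈ D then 1 else 0) - (if regNb G z e ∈ D then 1 else 0)) * (φ (regNb G z e) - φ z)

theorem reg_TE_eq (Y : Finset g.I) (φ : G.V → ℝ) : TE g Y φ = ∑ b ∈ Y, (g.m : ℝ) ^ 4 * regN2 g b φ ^ 2 := rfl

/-! ### LEAF `REG-B1` -/

/-- the one-dimensional inequality, multiplied by `m`, both signs -/
theorem rege_z1m (u : ℤ → ℝ) (s : ℤ) (q m : ℕ) (hm : 0 < m) (h1 : m ≤ q) (h2 : q < 2 * m) (i : ℤ)
    (hi : i ∈ Finset.Ico s (s + q)) (σ : ℤ) (hσ : σ = 1 ∨ σ = -1) :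
    (m : ℝ) * u i ^ 2 ≤ 2 * ∑ j ∈ Finset.Ico s (s + q), u j ^ 2
      + 4 * (m : ℝ) ^ 2 * ∑ j ∈ Finset.Ico s (s + q), (u (j + σ) - u j) ^ 2 := by
  have h : u i ^ 2 ≤ 2 / q * ∑ j ∈ Finset.Ico s (s + q), u j ^ 2
      + 2 * q * ∑ j ∈ Finset.Ico s (s + q), (u (j + σ) - u j) ^ 2 := by
    rcases hσ with rfl | rfl
    · exact reg_z1_fwd u s q i hi
    · exact reg_z1_bwd u s q i hi
  obtain ⟨A, hA⟩ : ∃ A, A = ∑ j ∈ Finset.Ico s (s + q), u j ^ 2 := ⟨_, rfl⟩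
  obtain ⟨B, hB⟩ : ∃ B, B = ∑ j ∈ Finset.Ico s (s + q), (u (j + σ) - u j) ^ 2 := ⟨_, rfl⟩
  have hA0 : 0 ≤ A := by rw [hA]; positivity
  have hB0 : 0 ≤ B := by rw [hB]; positivity
  rw [← hA, ← hB] at h ⊢
  have hmr : (0 : ℝ) < m := by exact_mod_cast hm
  have hq1 : (m : ℝ) ≤ q := by exact_mod_cast h1
  have hq2 : (q : ℝ) ≤ 2 * m := by exact_mod_cast h2.le
  have hq0 : (0 : ℝ) < q := hmr.trans_le hq1
  have e1 : (m : ℝ) * (2 / q * A) ≤ 2 * A := by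
    have : (m : ℝ) * (2 / q * A) = (m / q) * (2 * A) := by field_simp
    rw [this]
    have h3 : (m : ℝ) / q ≤ 1 := (div_le_one hq0).2 hq1
    nlinarith
  have e2 : (m : ℝ) * (2 * q * B) ≤ 4 * (m : ℝ) ^ 2 * B := by nlinarith [mul_nonneg hmr.le hB0]
  calc (m : ℝ) * u i ^ 2 ≤ m * (2 / q * A + 2 * q * B) := mul_le_mul_of_nonneg_left h hmr.le
    _ = m * (2 / q * A) + m * (2 * q * B) := by ring
    _ ≤ _ := add_le_add e1 e2

/-- trace inequality on a rectangle of `ℤ²`, faces `x = x0` -/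
theorem rege_trace_x (f : ℤ × ℤ → ℝ) (a c : ℤ) (q1 q2 m : ℕ) (hm : 0 < m) (h1 : m ≤ q1) (h2 : q1 < 2 * m) (x0 : ℤ)
    (hx0 : x0 ∈ Finset.Ico a (a + q1)) (σ : ℤ) (hσ : σ = 1 ∨ σ = -1) :
    (m : ℝ) * ∑ x ∈ Finset.Ico a (a + q1), ∑ y ∈ Finset.Ico c (c + q2), (if x = x0 then f (x, y) ^ 2 else 0)
      ≤ 2 * ∑ x ∈ Finset.Ico a (a + q1), ∑ y ∈ Finset.Ico c (c + q2), f (x, y) ^ 2
        + 4 * (m : ℝ) ^ 2 * ∑ x ∈ Finset.Ico a (a + q1), ∑ y ∈ Finset.Ico c (c + q2),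
          (f (x + σ, y) - f (x, y)) ^ 2 := by
  have e1 : ∑ x ∈ Finset.Ico a (a + q1), ∑ y ∈ Finset.Ico c (c + q2), (if x = x0 then f (x, y) ^ 2 else 0)
      = ∑ y ∈ Finset.Ico c (c + q2), f (x0, y) ^ 2 := by
    rw [Finset.sum_comm]
    refine Finset.sum_congr rfl fun y _ => ?_
    rw [Finset.sum_ite_eq' (Finset.Ico a (a + q1)) x0 (fun x => f (x, y) ^ 2), if_pos hx0]
  rw [e1, Finset.sum_comm (f := fun x y => f (x, y) ^ 2),
    Finset.sum_comm (f := fun x y => (f (x + σ, y) - f (x, y)) ^ 2), Finset.mul_sum, Finset.mul_sum, Finset.mul_sum,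
    ← Finset.sum_add_distrib]
  exact Finset.sum_le_sum fun y _ => rege_z1m (fun x => f (x, y)) a q1 m hm h1 h2 x0 hx0 σ hσ

/-- trace inequality on a rectangle of `ℤ²`, faces `y = y0` -/
theorem rege_trace_y (f : ℤ × ℤ → ℝ) (a c : ℤ) (q1 q2 m : ℕ) (hm : 0 < m) (h1 : m ≤ q2) (h2 : q2 < 2 * m) (y0 : ℤ)
    (hy0 : y0 ∈ Finset.Ico c (c + q2)) (σ : ℤ) (hσ : σ = 1 ∨ σ = -1) :
    (m : ℝ) * ∑ x ∈ Finset.Ico a (a + q1), ∑ y ∈ Finset.Ico c (c + q2), (if y = y0 then f (x, y) ^ 2 else 0)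
      ≤ 2 * ∑ x ∈ Finset.Ico a (a + q1), ∑ y ∈ Finset.Ico c (c + q2), f (x, y) ^ 2
        + 4 * (m : ℝ) ^ 2 * ∑ x ∈ Finset.Ico a (a + q1), ∑ y ∈ Finset.Ico c (c + q2),
          (f (x, y + σ) - f (x, y)) ^ 2 := by
  have h := rege_trace_x (fun p => f (p.2, p.1)) c a q2 q1 m hm h1 h2 y0 hy0 σ hσ
  rw [Finset.sum_comm, Finset.sum_comm (f := fun x y => f (x, y) ^ 2),
    Finset.sum_comm (f := fun x y => (f (x, y + σ) - f (x, y)) ^ 2)]
  exact h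

/-- a step which stays in the rectangle stays in the block -/
theorem rege_nb_mem {b : g.I} {s1 q1 s2 q2 : ℕ} (h1 : s1 + q1 ≤ G.M) (h2 : s2 + q2 ≤ G.M)
    (hm : ∀ v : G.V, v ∈ g.sites {b} ↔
      (s1 ≤ (v.1 : ℕ) ∧ (v.1 : ℕ) < s1 + q1) ∧ (s2 ≤ (v.2 : ℕ) ∧ (v.2 : ℕ) < s2 + q2))
    (v : G.V) (e : Fin 4) (hx : (s1 : ℤ) ≤ (G.ι v + dir e).1 ∧ (G.ι v + dir e).1 < s1 + q1)
    (hy : (s2 : ℤ) ≤ (G.ι v + dir e).2 ∧ (G.ι v + dir e).2 < s2 + q2) : regNb G v e ∈ g.sites {b} := by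
  have h := reg_iota_nb G v e (by omega) (by omega) (by omega) (by omega)
  have e1 : (((regNb G v e).1 : ℕ) : ℤ) = (G.ι v + dir e).1 := by rw [← h]; rfl
  have e2 : (((regNb G v e).2 : ℕ) : ℤ) = (G.ι v + dir e).2 := by rw [← h]; rfl
  rw [hm]
  omega

/-- trace inequality: the face of `b` in the direction `e` -/
theorem reg_trace (hg : g.Ok) (b : g.I) (e : Fin 4) (f : ℤ × ℤ → ℝ) :
    (g.m : ℝ) * ∑ v ∈ (g.sites {b}).filter (fun v => regNb G v e ∉ g.sites {b}), f (G.ι v) ^ 2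
      ≤ 2 * ∑ v ∈ g.sites {b}, f (G.ι v) ^ 2
        + 4 * (g.m : ℝ) ^ 2 * ∑ v ∈ g.sites {b}, dif (dir e) f (G.ι v) ^ 2 := by
  obtain ⟨s1, q1, s2, q2, h1, h2, h3, h4, h5, h6, hmem, hsum⟩ := reg_block_rect g hg b
  have hpos := hg.pos
  have key : ∀ (P : ℤ × ℤ → Prop) [DecidablePred P],
      (∀ v ∈ g.sites {b}, regNb G v e ∉ g.sites {b} → P (G.ι v)) →
      ∑ v ∈ (g.sites {b}).filter (fun v => regNb G v e ∉ g.sites {b}), f (G.ι v) ^ 2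
        ≤ ∑ x ∈ Finset.Ico (s1 : ℤ) (s1 + q1), ∑ y ∈ Finset.Ico (s2 : ℤ) (s2 + q2),
          (if P (x, y) then f (x, y) ^ 2 else 0) := by
    intro P _ hP
    rw [← hsum (fun p => if P p then f p ^ 2 else 0), Finset.sum_filter]
    refine Finset.sum_le_sum fun v hv => ?_
    by_cases hn : regNb G v e ∉ g.sites {b}
    · rw [if_pos hn, if_pos (hP v hv hn)]
    · rw [if_neg hn]
      split_ifs
      · positivity
      · exact le_rfl
  have hι : ∀ v : G.V, G.ι v = (((v.1 : ℕ) : ℤ), ((v.2 : ℕ) : ℤ)) := fun v => rfl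
  rw [hsum (fun p => f p ^ 2), hsum (fun p => dif (dir e) f p ^ 2)]
  have hm0 : (0 : ℝ) ≤ g.m := Nat.cast_nonneg _
  fin_cases e
  · refine (mul_le_mul_of_nonneg_left (key (fun p => p.1 = (s1 : ℤ) + q1 - 1) ?_) hm0).trans ?_
    · intro v hv hn
      by_contra hc
      have hv' := (hmem v).1 hv
      refine hn (rege_nb_mem g h3 h6 hmem v _ ?_ ?_) <;> simp [hι, dir] at hc ⊢ <;> omega
    · have h := rege_trace_x f s1 s2 q1 q2 g.m hpos h1 h2 ((s1 : ℤ) + q1 - 1)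
        (by rw [Finset.mem_Ico]; omega) 1 (Or.inl rfl)
      refine h.trans (le_of_eq ?_)
      simp [dif, dir]
  · refine (mul_le_mul_of_nonneg_left (key (fun p => p.1 = (s1 : ℤ)) ?_) hm0).trans ?_
    · intro v hv hn
      by_contra hc
      have hv' := (hmem v).1 hv
      refine hn (rege_nb_mem g h3 h6 hmem v _ ?_ ?_) <;> simp [hι, dir] at hc ⊢ <;> omega
    · have h := rege_trace_x f s1 s2 q1 q2 g.m hpos h1 h2 (s1 : ℤ)
        (by rw [Finset.mem_Ico]; omega) (-1) (Or.inr rfl)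
      refine h.trans (le_of_eq ?_)
      simp [dif, dir]
  · refine (mul_le_mul_of_nonneg_left (key (fun p => p.2 = (s2 : ℤ) + q2 - 1) ?_) hm0).trans ?_
    · intro v hv hn
      by_contra hc
      have hv' := (hmem v).1 hv
      refine hn (rege_nb_mem g h3 h6 hmem v _ ?_ ?_) <;> simp [hι, dir] at hc ⊢ <;> omega
    · have h := rege_trace_y f s1 s2 q1 q2 g.m hpos h4 h5 ((s2 : ℤ) + q2 - 1)
        (by rw [Finset.mem_Ico]; omega) 1 (Or.inl rfl)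
      refine h.trans (le_of_eq ?_)
      simp [dif, dir]
  · refine (mul_le_mul_of_nonneg_left (key (fun p => p.2 = (s2 : ℤ)) ?_) hm0).trans ?_
    · intro v hv hn
      by_contra hc
      have hv' := (hmem v).1 hv
      refine hn (rege_nb_mem g h3 h6 hmem v _ ?_ ?_) <;> simp [hι, dir] at hc ⊢ <;> omega
    · have h := rege_trace_y f s1 s2 q1 q2 g.m hpos h4 h5 (s2 : ℤ)
        (by rw [Finset.mem_Ico]; omega) (-1) (Or.inr rfl)
      refine h.trans (le_of_eq ?_)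
      simp [dif, dir]

/-! ### LEAF `REG-B2` -/

/-- every point of the rectangle is a site of the block -/
theorem rege_site_of {b : g.I} {s1 q1 s2 q2 : ℕ} (h1 : s1 + q1 ≤ G.M) (h2 : s2 + q2 ≤ G.M)
    (hm : ∀ v : G.V, v ∈ g.sites {b} ↔
      (s1 ≤ (v.1 : ℕ) ∧ (v.1 : ℕ) < s1 + q1) ∧ (s2 ≤ (v.2 : ℕ) ∧ (v.2 : ℕ) < s2 + q2))
    {x y : ℤ} (hx : x ∈ Finset.Ico (s1 : ℤ) (s1 + q1)) (hy : y ∈ Finset.Ico (s2 : ℤ) (s2 + q2)) :
    ∃ v ∈ g.sites {b}, G.ι v = (x, y) := by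
  rw [Finset.mem_Ico] at hx hy
  refine ⟨(⟨x.toNat, by omega⟩, ⟨y.toNat, by omega⟩), ?_, ?_⟩
  · rw [hm]
    show (s1 ≤ x.toNat ∧ x.toNat < s1 + q1) ∧ (s2 ≤ y.toNat ∧ y.toNat < s2 + q2)
    omega
  · show (((x.toNat : ℕ) : ℤ), ((y.toNat : ℕ) : ℤ)) = (x, y)
    rw [Int.toNat_of_nonneg (by omega), Int.toNat_of_nonneg (by omega)]

/-- the coordinates of a site of the block -/
theorem rege_site_mem {b : g.I} {s1 q1 s2 q2 : ℕ}
    (hm : ∀ v : G.V, v ∈ g.sites {b} ↔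
      (s1 ≤ (v.1 : ℕ) ∧ (v.1 : ℕ) < s1 + q1) ∧ (s2 ≤ (v.2 : ℕ) ∧ (v.2 : ℕ) < s2 + q2))
    {v : G.V} (hv : v ∈ g.sites {b}) :
    (G.ι v).1 ∈ Finset.Ico (s1 : ℤ) (s1 + q1) ∧ (G.ι v).2 ∈ Finset.Ico (s2 : ℤ) (s2 + q2) := by
  have h := (hm v).1 hv
  rw [Finset.mem_Ico, Finset.mem_Ico]
  show ((s1 : ℤ) ≤ ((v.1 : ℕ) : ℤ) ∧ ((v.1 : ℕ) : ℤ) < s1 + q1) ∧ ((s2 : ℤ) ≤ ((v.2 : ℕ) : ℤ) ∧ ((v.2 : ℕ) : ℤ) < s2 + q2)
  omega

/-- arithmetic of `reg_gradsup` -/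
theorem rege_gradsup_arith {M Q1 Q2 F S1 S2 A K2 : ℝ} (hM : 0 < M) (h1 : M ≤ Q1) (h1' : Q1 ≤ 2 * M) (h2 : M ≤ Q2)
    (h2' : Q2 ≤ 2 * M) (hA : 0 ≤ A) (hK : 0 ≤ K2) (hF : F ≤ 2 / Q1 * S1 + 2 * Q1 * S2) (hS2 : S2 ≤ Q1 * K2)
    (hS1 : S1 ≤ 2 / Q2 * A + Q1 * (2 * Q2 * (Q2 * K2))) : M ^ 2 * F ≤ 4 * A + 32 * M ^ 4 * K2 := by
  have hQ1 : 0 < Q1 := hM.trans_le h1
  have hQ2 : 0 < Q2 := hM.trans_le h2
  have e1 : 2 / Q1 * S1 ≤ 2 / Q1 * (2 / Q2 * A + Q1 * (2 * Q2 * (Q2 * K2))) :=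
    mul_le_mul_of_nonneg_left hS1 (by positivity)
  have e2 : 2 / Q1 * (2 / Q2 * A + Q1 * (2 * Q2 * (Q2 * K2))) = 4 * A / (Q1 * Q2) + 4 * Q2 ^ 2 * K2 := by
    field_simp
    ring
  have e3 : 2 * Q1 * S2 ≤ 2 * Q1 ^ 2 * K2 := by nlinarith
  have e4 : M ^ 2 * (4 * A / (Q1 * Q2)) ≤ 4 * A := by
    have : M ^ 2 * (4 * A / (Q1 * Q2)) = (M ^ 2 / (Q1 * Q2)) * (4 * A) := by field_simp
    rw [this]
    have h3 : M ^ 2 / (Q1 * Q2) ≤ 1 := by
      rw [div_le_one (by positivity)]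
      nlinarith
    nlinarith
  have e5 : Q2 ^ 2 ≤ 4 * M ^ 2 := by nlinarith
  have e6 : Q1 ^ 2 ≤ 4 * M ^ 2 := by nlinarith
  have e7 : M ^ 2 * (4 * Q2 ^ 2 * K2 + 2 * Q1 ^ 2 * K2) ≤ 32 * M ^ 4 * K2 := by
    have h4 : 4 * Q2 ^ 2 + 2 * Q1 ^ 2 ≤ 24 * M ^ 2 := by linarith
    have h5 : 0 ≤ M ^ 2 * K2 := by positivity
    nlinarith [mul_le_mul_of_nonneg_left h4 h5, mul_nonneg (by positivity : (0:ℝ) ≤ M ^ 4) hK]
  have e8 : F ≤ 4 * A / (Q1 * Q2) + (4 * Q2 ^ 2 * K2 + 2 * Q1 ^ 2 * K2) := by linarith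
  calc M ^ 2 * F ≤ M ^ 2 * (4 * A / (Q1 * Q2) + (4 * Q2 ^ 2 * K2 + 2 * Q1 ^ 2 * K2)) :=
        mul_le_mul_of_nonneg_left e8 (by positivity)
    _ = M ^ 2 * (4 * A / (Q1 * Q2)) + M ^ 2 * (4 * Q2 ^ 2 * K2 + 2 * Q1 ^ 2 * K2) := by ring
    _ ≤ _ := add_le_add e4 e7

theorem reg_gradsup (hg : g.Ok) (b : g.I) (f : ℤ × ℤ → ℝ) {K : ℝ}
    (hK : ∀ v ∈ g.sites {b}, ∀ e : Fin 4, |dif (dir e) f (G.ι v)| ≤ K) {v : G.V} (hv : v ∈ g.sites {b}) :
    (g.m : ℝ) ^ 2 * f (G.ι v) ^ 2 ≤ 4 * ∑ w ∈ g.sites {b}, f (G.ι w) ^ 2 + 32 * (g.m : ℝ) ^ 4 * K ^ 2 := by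
  obtain ⟨s1, q1, s2, q2, h1, h2, h3, h4, h5, h6, hmem, hsum⟩ := reg_block_rect g hg b
  obtain ⟨hx, hy⟩ := rege_site_mem g hmem hv
  obtain ⟨x, y, hxy⟩ : ∃ x y, G.ι v = (x, y) := ⟨_, _, rfl⟩
  rw [hxy] at hx hy ⊢
  simp only at hx hy
  rw [hsum (fun p => f p ^ 2)]
  have hd1 : ∀ x' ∈ Finset.Ico (s1 : ℤ) (s1 + q1), ∀ y' ∈ Finset.Ico (s2 : ℤ) (s2 + q2),
      (f (x' + 1, y') - f (x', y')) ^ 2 ≤ K ^ 2 := by
    intro x' hx' y' hy'
    obtain ⟨w, hw, hwe⟩ := rege_site_of g h3 h6 hmem hx' hy'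
    have h := hK w hw 0
    rw [hwe] at h
    have e : dif (dir 0) f (x', y') = f (x' + 1, y') - f (x', y') := by simp [dif, dir]
    rw [e] at h
    exact sq_le_sq' (by linarith [abs_le.1 h]) (abs_le.1 h).2
  have hd2 : ∀ x' ∈ Finset.Ico (s1 : ℤ) (s1 + q1), ∀ y' ∈ Finset.Ico (s2 : ℤ) (s2 + q2),
      (f (x', y' + 1) - f (x', y')) ^ 2 ≤ K ^ 2 := by
    intro x' hx' y' hy'
    obtain ⟨w, hw, hwe⟩ := rege_site_of g h3 h6 hmem hx' hy'
    have h := hK w hw 2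
    rw [hwe] at h
    have e : dif (dir 2) f (x', y') = f (x', y' + 1) - f (x', y') := by simp [dif, dir]
    rw [e] at h
    exact sq_le_sq' (by linarith [abs_le.1 h]) (abs_le.1 h).2
  have c1 : ((Finset.Ico (s1 : ℤ) (s1 + q1)).card : ℝ) = q1 := by simp
  have c2 : ((Finset.Ico (s2 : ℤ) (s2 + q2)).card : ℝ) = q2 := by simp
  have hF := reg_z1_fwd (fun x' => f (x', y)) s1 q1 x hx
  have hS2 : ∑ x' ∈ Finset.Ico (s1 : ℤ) (s1 + q1), (f (x' + 1, y) - f (x', y)) ^ 2 ≤ q1 * K ^ 2 := by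
    have h := Finset.sum_le_sum fun x' hx' => hd1 x' hx' y hy
    rwa [Finset.sum_const, nsmul_eq_mul, c1] at h
  have hS1 : ∑ x' ∈ Finset.Ico (s1 : ℤ) (s1 + q1), f (x', y) ^ 2
      ≤ 2 / q2 * (∑ x' ∈ Finset.Ico (s1 : ℤ) (s1 + q1), ∑ y' ∈ Finset.Ico (s2 : ℤ) (s2 + q2), f (x', y') ^ 2)
        + q1 * (2 * q2 * (q2 * K ^ 2)) := by
    have h : ∀ x' ∈ Finset.Ico (s1 : ℤ) (s1 + q1), f (x', y) ^ 2
        ≤ 2 / q2 * (∑ y' ∈ Finset.Ico (s2 : ℤ) (s2 + q2), f (x', y') ^ 2) + 2 * q2 * (q2 * K ^ 2) := by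
      intro x' hx'
      have h7 := reg_z1_fwd (fun y' => f (x', y')) s2 q2 y hy
      have h8 : ∑ y' ∈ Finset.Ico (s2 : ℤ) (s2 + q2), (f (x', y' + 1) - f (x', y')) ^ 2 ≤ q2 * K ^ 2 := by
        have h := Finset.sum_le_sum fun y' hy' => hd2 x' hx' y' hy'
        rwa [Finset.sum_const, nsmul_eq_mul, c2] at h
      have h9 : 2 * (q2 : ℝ) * ∑ y' ∈ Finset.Ico (s2 : ℤ) (s2 + q2), (f (x', y' + 1) - f (x', y')) ^ 2
          ≤ 2 * q2 * (q2 * K ^ 2) := mul_le_mul_of_nonneg_left h8 (by positivity)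
      linarith
    have h' := Finset.sum_le_sum h
    rwa [Finset.sum_add_distrib, ← Finset.mul_sum, Finset.sum_const, nsmul_eq_mul, c1] at h'
  exact rege_gradsup_arith (by exact_mod_cast hg.pos) (by exact_mod_cast h1) (by exact_mod_cast h2.le)
    (by exact_mod_cast h4) (by exact_mod_cast h5.le)
    (Finset.sum_nonneg fun _ _ => Finset.sum_nonneg fun _ _ => by positivity) (by positivity) hF hS2 hS1

theorem reg_sobolev (hg : g.Ok) (b : g.I) (f : ℤ × ℤ → ℝ) {v : G.V} (hv : v ∈ g.sites {b}) :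
    (g.m : ℝ) ^ 2 * f (G.ι v) ^ 2 ≤ 4 * ∑ w ∈ g.sites {b}, f (G.ι w) ^ 2
      + 8 * (g.m : ℝ) ^ 2 * ∑ w ∈ g.sites {b}, (dif (dir 0) f (G.ι w) ^ 2 + dif (dir 2) f (G.ι w) ^ 2)
      + 16 * (g.m : ℝ) ^ 4 * ∑ w ∈ g.sites {b}, dif (dir 2) (dif (dir 0) f) (G.ι w) ^ 2 := by
  obtain ⟨s1, q1, s2, q2, h1, h2, h3, h4, h5, h6, hmem, hsum⟩ := reg_block_rect g hg b
  obtain ⟨hx, hy⟩ := rege_site_mem g hmem hv
  obtain ⟨x, y, hxy⟩ : ∃ x y, G.ι v = (x, y) := ⟨_, _, rfl⟩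
  rw [hxy] at hx hy ⊢
  simp only at hx hy
  rw [Finset.sum_add_distrib, hsum (fun p => f p ^ 2), hsum (fun p => dif (dir 0) f p ^ 2),
    hsum (fun p => dif (dir 2) f p ^ 2), hsum (fun p => dif (dir 2) (dif (dir 0) f) p ^ 2)]
  have hpos := hg.pos
  have hm0 : (0 : ℝ) ≤ g.m := Nat.cast_nonneg _
  -- first step, in `x`
  have a1 := rege_z1m (fun x' => f (x', y)) s1 q1 g.m hpos h1 h2 x hx 1 (Or.inl rfl)
  -- second step, in `y`, for `f` and for `∇₁ f`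
  have a2 : ∀ x' : ℤ, (g.m : ℝ) * f (x', y) ^ 2 ≤ 2 * ∑ y' ∈ Finset.Ico (s2 : ℤ) (s2 + q2), f (x', y') ^ 2
      + 4 * (g.m : ℝ) ^ 2 * ∑ y' ∈ Finset.Ico (s2 : ℤ) (s2 + q2), dif (dir 2) f (x', y') ^ 2 := by
    intro x'
    have h := rege_z1m (fun y' => f (x', y')) s2 q2 g.m hpos h4 h5 y hy 1 (Or.inl rfl)
    refine h.trans (le_of_eq ?_)
    simp [dif, dir]
  have a3 : ∀ x' : ℤ, (g.m : ℝ) * (f (x' + 1, y) - f (x', y)) ^ 2
      ≤ 2 * ∑ y' ∈ Finset.Ico (s2 : ℤ) (s2 + q2), dif (dir 0) f (x', y') ^ 2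
      + 4 * (g.m : ℝ) ^ 2 * ∑ y' ∈ Finset.Ico (s2 : ℤ) (s2 + q2), dif (dir 2) (dif (dir 0) f) (x', y') ^ 2 := by
    intro x'
    have h := rege_z1m (fun y' => f (x' + 1, y') - f (x', y')) s2 q2 g.m hpos h4 h5 y hy 1 (Or.inl rfl)
    refine h.trans (le_of_eq ?_)
    simp [dif, dir]
  have b2 := Finset.sum_le_sum fun x' (_ : x' ∈ Finset.Ico (s1 : ℤ) (s1 + q1)) => a2 x'
  have b3 := Finset.sum_le_sum fun x' (_ : x' ∈ Finset.Ico (s1 : ℤ) (s1 + q1)) => a3 x'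
  rw [← Finset.mul_sum, Finset.sum_add_distrib, ← Finset.mul_sum, ← Finset.mul_sum] at b2 b3
  obtain ⟨A, hA⟩ : ∃ A, A = ∑ x' ∈ Finset.Ico (s1 : ℤ) (s1 + q1), ∑ y' ∈ Finset.Ico (s2 : ℤ) (s2 + q2),
    f (x', y') ^ 2 := ⟨_, rfl⟩
  obtain ⟨B, hB⟩ : ∃ B, B = ∑ x' ∈ Finset.Ico (s1 : ℤ) (s1 + q1), ∑ y' ∈ Finset.Ico (s2 : ℤ) (s2 + q2),
    dif (dir 2) f (x', y') ^ 2 := ⟨_, rfl⟩
  obtain ⟨C, hC⟩ : ∃ C, C = ∑ x' ∈ Finset.Ico (s1 : ℤ) (s1 + q1), ∑ y' ∈ Finset.Ico (s2 : ℤ) (s2 + q2),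
    dif (dir 0) f (x', y') ^ 2 := ⟨_, rfl⟩
  obtain ⟨D, hD⟩ : ∃ D, D = ∑ x' ∈ Finset.Ico (s1 : ℤ) (s1 + q1), ∑ y' ∈ Finset.Ico (s2 : ℤ) (s2 + q2),
    dif (dir 2) (dif (dir 0) f) (x', y') ^ 2 := ⟨_, rfl⟩
  obtain ⟨S1, hS1⟩ : ∃ S, S = ∑ x' ∈ Finset.Ico (s1 : ℤ) (s1 + q1), f (x', y) ^ 2 := ⟨_, rfl⟩
  obtain ⟨S2, hS2⟩ : ∃ S, S = ∑ x' ∈ Finset.Ico (s1 : ℤ) (s1 + q1), (f (x' + 1, y) - f (x', y)) ^ 2 := ⟨_, rfl⟩
  rw [← hA, ← hB, ← hS1] at b2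
  rw [← hC, ← hD, ← hS2] at b3
  rw [← hS1, ← hS2] at a1
  rw [← hA, ← hB, ← hC, ← hD]
  have c1 : (g.m : ℝ) ^ 2 * f (x, y) ^ 2 ≤ 2 * ((g.m : ℝ) * S1) + 4 * (g.m : ℝ) ^ 2 * ((g.m : ℝ) * S2) := by
    have := mul_le_mul_of_nonneg_left a1 hm0
    nlinarith
  have c2 : 4 * (g.m : ℝ) ^ 2 * ((g.m : ℝ) * S2) ≤ 4 * (g.m : ℝ) ^ 2 * (2 * C + 4 * (g.m : ℝ) ^ 2 * D) :=
    mul_le_mul_of_nonneg_left b3 (by positivity)
  nlinarith

/-! ### LEAF `REG-E1` -/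

theorem reg_gE_eq (D : Finset G.V) (φ : G.V → ℝ) :
    gE G D φ = (1 / 2) * ∑ v ∈ D, ∑ e : Fin 4, (φ (regNb G v e) - φ v) ^ 2 := by
  unfold gE
  simp only [reg_dif_lift]

theorem reg_PE_eq (m : ℕ) (D : Finset G.V) (φ : G.V → ℝ) : PE G m D φ = m * regRaw D φ := by
  unfold PE regRaw
  simp only [reg_dif_lift]
  rfl

theorem reg_raw_nonneg (D : Finset G.V) (φ : G.V → ℝ) : 0 ≤ regRaw D φ := by
  unfold regRaw
  refine Finset.sum_nonneg fun v _ => Finset.sum_nonneg fun e _ => ?_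
  split_ifs
  · exact le_refl _
  · positivity

theorem reg_gE_nonneg (D : Finset G.V) (φ : G.V → ℝ) : 0 ≤ gE G D φ := by
  unfold gE
  positivity

theorem reg_PE_nonneg (m : ℕ) (D : Finset G.V) (φ : G.V → ℝ) : 0 ≤ PE G m D φ := by
  rw [reg_PE_eq]
  exact mul_nonneg (Nat.cast_nonneg _) (reg_raw_nonneg D φ)

theorem reg_TE_nonneg (Y : Finset g.I) (φ : G.V → ℝ) : 0 ≤ TE g Y φ := by
  unfold TE
  positivity

theorem reg_U_nonneg {δ : ℝ} (hδ : 0 ≤ δ) (X : Finset g.I) (φ : G.V → ℝ) : 0 ≤ U g δ X φ := by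
  unfold U
  have h1 := reg_gE_nonneg (g.Dm X) φ
  have h2 := reg_PE_nonneg g.m (g.Dm X) φ
  have h3 := reg_TE_nonneg g (g.collar X) φ
  positivity

theorem reg_gE_add (D : Finset G.V) (φ ζ : G.V → ℝ) :
    gE G D (φ + ζ) = gE G D φ + 2 * regBil D φ ζ + gE G D ζ := by
  simp only [reg_gE_eq, regBil, Pi.add_apply]
  have h : ∑ v ∈ D, ∑ e : Fin 4, (φ (regNb G v e) + ζ (regNb G v e) - (φ v + ζ v)) ^ 2
      = ∑ v ∈ D, ∑ e : Fin 4, (φ (regNb G v e) - φ v) ^ 2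
        + 2 * ∑ v ∈ D, ∑ e : Fin 4, (φ (regNb G v e) - φ v) * (ζ (regNb G v e) - ζ v)
        + ∑ v ∈ D, ∑ e : Fin 4, (ζ (regNb G v e) - ζ v) ^ 2 := by
    simp only [Finset.mul_sum, ← Finset.sum_add_distrib]
    refine Finset.sum_congr rfl fun v _ => Finset.sum_congr rfl fun e _ => ?_
    ring
  rw [h]
  ring

theorem reg_gE_add_le (D : Finset G.V) (φ ζ : G.V → ℝ) : gE G D (φ + ζ) ≤ 2 * gE G D φ + 2 * gE G D ζ := by
  simp only [reg_gE_eq, Pi.add_apply]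
  have h : ∑ v ∈ D, ∑ e : Fin 4, (φ (regNb G v e) + ζ (regNb G v e) - (φ v + ζ v)) ^ 2
      ≤ 2 * ∑ v ∈ D, ∑ e : Fin 4, (φ (regNb G v e) - φ v) ^ 2 + 2 * ∑ v ∈ D, ∑ e : Fin 4, (ζ (regNb G v e) - ζ v) ^ 2 := by
    simp only [Finset.mul_sum, ← Finset.sum_add_distrib]
    refine Finset.sum_le_sum fun v _ => Finset.sum_le_sum fun e _ => ?_
    nlinarith [sq_nonneg ((φ (regNb G v e) - φ v) - (ζ (regNb G v e) - ζ v))]
  linarith

theorem reg_PE_add_le (m : ℕ) (D : Finset G.V) (φ ζ : G.V → ℝ) :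
    PE G m D (φ + ζ) ≤ 2 * PE G m D φ + 2 * PE G m D ζ := by
  simp only [reg_PE_eq]
  have h : regRaw D (φ + ζ) ≤ 2 * regRaw D φ + 2 * regRaw D ζ := by
    unfold regRaw
    simp only [Finset.mul_sum, ← Finset.sum_add_distrib, Pi.add_apply]
    refine Finset.sum_le_sum fun v _ => Finset.sum_le_sum fun e _ => ?_
    split_ifs
    · norm_num
    · nlinarith [sq_nonneg ((φ (regNb G v e) - φ v) - (ζ (regNb G v e) - ζ v))]
  have hm : (0 : ℝ) ≤ m := Nat.cast_nonneg _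
  nlinarith [mul_le_mul_of_nonneg_left h hm]

theorem reg_gE_sdiff {D D' : Finset G.V} (h : D ⊆ D') (φ : G.V → ℝ) : gE G D' φ = gE G D φ + gE G (D' \ D) φ := by
  unfold gE
  rw [← mul_add, add_comm, Finset.sum_sdiff h]

theorem reg_TE_sdiff {Y Y' : Finset g.I} (h : Y ⊆ Y') (φ : G.V → ℝ) : TE g Y' φ = TE g Y φ + TE g (Y' \ Y) φ := by
  unfold TE
  rw [add_comm, Finset.sum_sdiff h]

theorem reg_gE_mono {D D' : Finset G.V} (h : D ⊆ D') (φ : G.V → ℝ) : gE G D φ ≤ gE G D' φ := by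
  rw [reg_gE_sdiff h]
  linarith [reg_gE_nonneg (D' \ D) φ]

theorem reg_TE_mono {Y Y' : Finset g.I} (h : Y ⊆ Y') (φ : G.V → ℝ) : TE g Y φ ≤ TE g Y' φ := by
  rw [reg_TE_sdiff g h]
  linarith [reg_TE_nonneg g (Y' \ Y) φ]

/-! ### LEAF `REG-E2` -/

theorem reg_n2_nonneg (b : g.I) (φ : G.V → ℝ) : 0 ≤ regN2 g b φ :=
  NNReal.coe_nonneg _

theorem reg_d2_le_n2 (b : g.I) (φ : G.V → ℝ) {v : G.V} (hv : v ∈ g.sites {b}) (e e' : Fin 4) :
    |dif (dir e) (dif (dir e') (G.lift φ)) (G.ι v)| ≤ regN2 g b φ :=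
  (reg_d2_le_nab e e' _ _).trans
    (NNReal.coe_le_coe.2 (Finset.le_sup (f := fun v => nab 2 (G.lift φ) (G.ι v)) hv))

theorem reg_n2_le (b : g.I) (φ : G.V → ℝ) {K : ℝ} (hK : 0 ≤ K)
    (h : ∀ v ∈ g.sites {b}, ∀ e e' : Fin 4, |dif (dir e) (dif (dir e') (G.lift φ)) (G.ι v)| ≤ K) :
    regN2 g b φ ≤ K := by
  have h1 : ((g.sites {b}).sup fun v => nab 2 (G.lift φ) (G.ι v)) ≤ (⟨K, hK⟩ : ℝ≥0) :=
    Finset.sup_le fun v hv => NNReal.coe_le_coe.1 (reg_nab2_le _ _ hK (h v hv))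
  exact NNReal.coe_le_coe.2 h1

theorem reg_n2_add (b : g.I) (φ ζ : G.V → ℝ) : regN2 g b (φ + ζ) ≤ regN2 g b φ + regN2 g b ζ := by
  refine reg_n2_le g b _ (add_nonneg (reg_n2_nonneg g b φ) (reg_n2_nonneg g b ζ)) fun v hv e e' => ?_
  have h : dif (dir e) (dif (dir e') (G.lift (φ + ζ))) (G.ι v)
      = dif (dir e) (dif (dir e') (G.lift φ)) (G.ι v) + dif (dir e) (dif (dir e') (G.lift ζ)) (G.ι v) := by
    simp only [dif, Geom.lift, Pi.add_apply]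
    ring
  rw [h]
  exact (abs_add_le _ _).trans (add_le_add (reg_d2_le_n2 g b φ hv e e') (reg_d2_le_n2 g b ζ hv e e'))

theorem reg_TE_add_le (Y : Finset g.I) (φ ζ : G.V → ℝ) : TE g Y (φ + ζ) ≤ 2 * TE g Y φ + 2 * TE g Y ζ := by
  simp only [reg_TE_eq, Finset.mul_sum, ← Finset.sum_add_distrib]
  refine Finset.sum_le_sum fun b _ => ?_
  have h0 := reg_n2_nonneg g b (φ + ζ)
  have h1 := reg_n2_add g b φ ζ
  have h2 : regN2 g b (φ + ζ) ^ 2 ≤ 2 * regN2 g b φ ^ 2 + 2 * regN2 g b ζ ^ 2 := by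
    have h3 : regN2 g b (φ + ζ) ^ 2 ≤ (regN2 g b φ + regN2 g b ζ) ^ 2 := pow_le_pow_left₀ h0 h1 2
    nlinarith [sq_nonneg (regN2 g b φ - regN2 g b ζ)]
  have hm : (0 : ℝ) ≤ (g.m : ℝ) ^ 4 := by positivity
  nlinarith [mul_le_mul_of_nonneg_left h2 hm]

theorem reg_n2_up {g} {g' : Grid G} (N : Nest g g') (b : g.I) (φ : G.V → ℝ) :
    regN2 g b φ ≤ regN2 g' (N.up b) φ := by
  refine NNReal.coe_le_coe.2 (Finset.sup_mono fun v hv => ?_)
  rw [reg_mem_sites, Finset.mem_singleton] at hv ⊢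
  rw [← hv, reg_up_blk]

/-- `|𝓛 φ (z)| ≤ 2 max |∇² φ|` -/
theorem reg_lap_le_n2 (b : g.I) (φ : G.V → ℝ) {z : G.V} (hz : z ∈ g.sites {b}) :
    |∑ e : Fin 4, (φ (regNb G z e) - φ z)| ≤ 2 * regN2 g b φ := by
  have key : ∀ e : Fin 4, (φ (regNb G z e) - φ z) + (φ (regNb G z (regOpp e)) - φ z)
      = -dif (dir e) (dif (dir (regOpp e)) (G.lift φ)) (G.ι z) := by
    intro e
    rw [← reg_dif_lift, ← reg_dif_lift]
    simp only [dif, reg_dir_opp, add_neg_cancel_right]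
    ring
  have h01 := key 0
  have h23 := key 2
  have e1 : regOpp 0 = 1 := rfl
  have e3 : regOpp 2 = 3 := rfl
  rw [e1] at h01
  rw [e3] at h23
  rw [Fin.sum_univ_four, show (φ (regNb G z 0) - φ z) + (φ (regNb G z 1) - φ z) + (φ (regNb G z 2) - φ z)
      + (φ (regNb G z 3) - φ z) = ((φ (regNb G z 0) - φ z) + (φ (regNb G z 1) - φ z))
        + ((φ (regNb G z 2) - φ z) + (φ (regNb G z 3) - φ z)) by ring, h01, h23]
  refine (abs_add_le _ _).trans ?_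
  rw [abs_neg, abs_neg]
  linarith [reg_d2_le_n2 g b φ hz 0 1, reg_d2_le_n2 g b φ hz 2 3]

theorem reg_U_add_le {δ : ℝ} (hδ : 0 ≤ δ) (X : Finset g.I) (φ ζ : G.V → ℝ) :
    U g δ X (φ + ζ) ≤ 2 * U g δ X φ + 2 * U g δ X ζ := by
  unfold U
  have h1 := reg_gE_add_le (g.Dm X) φ ζ
  have h2 := mul_le_mul_of_nonneg_left (reg_PE_add_le g.m (g.Dm X) φ ζ) hδ
  have h3 := reg_TE_add_le g (g.collar X) φ ζ
  linarith

/-- the squared triangle inequality is used only for `P_m`, `T_m` -/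
theorem reg_U_expand {δ : ℝ} (hδ : 0 ≤ δ) (X : Finset g.I) (φ ζ : G.V → ℝ) :
    U g δ X (φ + ζ) ≤ (gE G (g.Dm X) φ + 2 * δ * PE G g.m (g.Dm X) φ + 2 * TE g (g.collar X) φ)
      + 2 * regBil (g.Dm X) φ ζ + 2 * U g δ X ζ := by
  unfold U
  have h1 := reg_gE_add (g.Dm X) φ ζ
  have h2 := mul_le_mul_of_nonneg_left (reg_PE_add_le g.m (g.Dm X) φ ζ) hδ
  have h3 := reg_TE_add_le g (g.collar X) φ ζ
  have h4 := reg_gE_nonneg (g.Dm X) ζ
  linarith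

/-! ### LEAF `REG-E3` -/

/-- a sum over some edges leaving the block `b` -/
theorem rege_face_ge (b : g.I) (φ : G.V → ℝ) (P : G.V → Fin 4 → Prop) [∀ w e, Decidable (P w e)]
    (hP : ∀ w e, P w e → regNb G w e ∉ g.sites {b}) :
    ∑ w ∈ g.sites {b}, ∑ e : Fin 4, (if P w e then (φ (regNb G w e) - φ w) ^ 2 else 0) ≤ regFace g b φ := by
  unfold regFace
  rw [Finset.sum_comm]
  refine Finset.sum_le_sum fun e _ => ?_
  rw [Finset.sum_filter]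
  refine Finset.sum_le_sum fun w _ => ?_
  by_cases h : P w e
  · rw [if_pos h, if_pos (hP w e h)]
  · rw [if_neg h]
    split_ifs <;> positivity

/-- the involution `(v, e) ↦ (nb v e, opp e)` on the edges between two disjoint sets -/
theorem rege_swap (A B : Finset G.V) (hAB : Disjoint A B) (φ : G.V → ℝ) :
    ∑ v ∈ A, ∑ e : Fin 4, (if regNb G v e ∈ B then (φ (regNb G v e) - φ v) ^ 2 else 0)
      = ∑ w ∈ B, ∑ e : Fin 4, (if regNb G w e ∈ A then (φ (regNb G w e) - φ w) ^ 2 else 0) := by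
  have key : ∀ (A B : Finset G.V), Disjoint A B → ∀ p : G.V × Fin 4, p.1 ∈ A → regNb G p.1 p.2 ∈ B →
      regNb G (regNb G p.1 p.2) (regOpp p.2) = p.1 := by
    intro A B hAB p h1 h2
    exact reg_nb_rev G p.1 p.2 fun h => Finset.disjoint_left.1 hAB h1 (h ▸ h2)
  rw [← Finset.sum_product', ← Finset.sum_product', ← Finset.sum_filter, ← Finset.sum_filter]
  refine Finset.sum_nbij' (fun p => (regNb G p.1 p.2, regOpp p.2)) (fun p => (regNb G p.1 p.2, regOpp p.2)) ?_ ?_ ?_ ?_ ?_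
  · intro p hp
    simp only [Finset.mem_filter, Finset.mem_product, Finset.mem_univ, and_true] at hp ⊢
    exact ⟨hp.2, by rw [key A B hAB p hp.1 hp.2]; exact hp.1⟩
  · intro p hp
    simp only [Finset.mem_filter, Finset.mem_product, Finset.mem_univ, and_true] at hp ⊢
    exact ⟨hp.2, by rw [key B A hAB.symm p hp.1 hp.2]; exact hp.1⟩
  · intro p hp
    simp only [Finset.mem_filter, Finset.mem_product, Finset.mem_univ, and_true] at hp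
    exact Prod.ext (key A B hAB p hp.1 hp.2) (reg_opp_opp p.2)
  · intro p hp
    simp only [Finset.mem_filter, Finset.mem_product, Finset.mem_univ, and_true] at hp
    exact Prod.ext (key B A hAB.symm p hp.1 hp.2) (reg_opp_opp p.2)
  · intro p hp
    simp only [Finset.mem_filter, Finset.mem_product, Finset.mem_univ, and_true] at hp
    simp only [key A B hAB p hp.1 hp.2]
    ring

theorem reg_raw_le_face (Y : Finset g.I) (φ : G.V → ℝ) : regRaw (g.sites Y) φ ≤ ∑ b ∈ Y, regFace g b φ := by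
  unfold regRaw
  rw [reg_sites_sum]
  refine Finset.sum_le_sum fun b hb => ?_
  refine le_trans (le_of_eq ?_) (rege_face_ge g b φ (fun w e => regNb G w e ∉ g.sites Y) fun w e h h' =>
    h (reg_sites_mono g (Finset.singleton_subset_iff.2 hb) h'))
  refine Finset.sum_congr rfl fun w _ => Finset.sum_congr rfl fun e _ => ?_
  by_cases h : regNb G w e ∈ g.sites Y
  · rw [if_pos h, if_neg (not_not.2 h)]
  · rw [if_neg h, if_pos h]

theorem reg_raw_split {Y Y' : Finset g.I} (h : Y ⊆ Y') (φ : G.V → ℝ) :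
    regRaw (g.sites Y) φ ≤ regRaw (g.sites Y') φ + ∑ b ∈ Y' \ Y, regFace g b φ := by
  have hD : g.sites Y ⊆ g.sites Y' := reg_sites_mono g h
  -- splitting of the crossing edges
  have h1 : regRaw (g.sites Y) φ
      = ∑ v ∈ g.sites Y, ∑ e : Fin 4, (if regNb G v e ∈ g.sites Y' then 0 else (φ (regNb G v e) - φ v) ^ 2)
        + ∑ v ∈ g.sites Y, ∑ e : Fin 4,
            (if regNb G v e ∈ g.sites Y' \ g.sites Y then (φ (regNb G v e) - φ v) ^ 2 else 0) := by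
    unfold regRaw
    simp only [← Finset.sum_add_distrib]
    refine Finset.sum_congr rfl fun v _ => Finset.sum_congr rfl fun e _ => ?_
    by_cases a : regNb G v e ∈ g.sites Y
    · rw [if_pos a, if_pos (hD a), if_neg (fun hh => (Finset.mem_sdiff.1 hh).2 a), add_zero]
    · by_cases a' : regNb G v e ∈ g.sites Y'
      · rw [if_neg a, if_pos a', if_pos (Finset.mem_sdiff.2 ⟨a', a⟩), zero_add]
      · rw [if_neg a, if_neg a', if_neg (fun hh => a' (Finset.mem_sdiff.1 hh).1), add_zero]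
  have h2 : ∑ v ∈ g.sites Y, ∑ e : Fin 4, (if regNb G v e ∈ g.sites Y' then 0 else (φ (regNb G v e) - φ v) ^ 2)
      ≤ regRaw (g.sites Y') φ := by
    unfold regRaw
    refine Finset.sum_le_sum_of_subset_of_nonneg hD fun v _ _ => Finset.sum_nonneg fun e _ => ?_
    split_ifs
    · exact le_refl _
    · positivity
  have h3 : ∑ v ∈ g.sites Y, ∑ e : Fin 4,
      (if regNb G v e ∈ g.sites Y' \ g.sites Y then (φ (regNb G v e) - φ v) ^ 2 else 0)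
      ≤ ∑ b ∈ Y' \ Y, regFace g b φ := by
    rw [rege_swap _ _ Finset.disjoint_sdiff φ, ← reg_sites_sdiff, reg_sites_sum]
    refine Finset.sum_le_sum fun b hb => ?_
    refine rege_face_ge g b φ (fun w e => regNb G w e ∈ g.sites Y) fun w e hw hw' => ?_
    rw [reg_mem_sites] at hw hw'
    rw [Finset.mem_singleton] at hw'
    exact (Finset.mem_sdiff.1 hb).2 (hw' ▸ hw)
  linarith

/-- the crossing edges seen from outside -/
theorem reg_raw_out (D : Finset G.V) (φ : G.V → ℝ) :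
    ∑ z ∈ Finset.univ \ D, ∑ e : Fin 4, (if regNb G z e ∈ D then (φ (regNb G z e) - φ z) ^ 2 else 0) = regRaw D φ := by
  rw [rege_swap _ _ Finset.sdiff_disjoint φ]
  unfold regRaw
  refine Finset.sum_congr rfl fun w _ => Finset.sum_congr rfl fun e _ => ?_
  by_cases h : regNb G w e ∈ D
  · rw [if_pos h, if_neg (fun hh => (Finset.mem_sdiff.1 hh).2 h)]
  · rw [if_neg h, if_pos (Finset.mem_sdiff.2 ⟨Finset.mem_univ _, h⟩)]

/-! ### LEAF `REG-E4` -/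

theorem rege_gE_sites (Y : Finset g.I) (φ : G.V → ℝ) : gE G (g.sites Y) φ = ∑ b ∈ Y, gE G (g.sites {b}) φ := by
  simp only [reg_gE_eq]
  rw [reg_sites_sum, Finset.mul_sum]

theorem reg_face_le_sup (hg : g.Ok) (b : g.I) (φ : G.V → ℝ) :
    (g.m : ℝ) * regFace g b φ ≤ 4 * gE G (g.sites {b}) φ + 64 * ((g.m : ℝ) ^ 4 * regN2 g b φ ^ 2) := by
  have hN := reg_n2_nonneg g b φ
  have key : ∀ e : Fin 4, (g.m : ℝ) * ∑ v ∈ (g.sites {b}).filter (fun v => regNb G v e ∉ g.sites {b}),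
      (φ (regNb G v e) - φ v) ^ 2 ≤ 2 * ∑ v ∈ g.sites {b}, (φ (regNb G v e) - φ v) ^ 2
        + 16 * ((g.m : ℝ) ^ 4 * regN2 g b φ ^ 2) := by
    intro e
    have h := reg_trace g hg b e (dif (dir e) (G.lift φ))
    simp only [reg_dif_lift] at h
    refine le_trans h ?_
    have h2 : ∑ v ∈ g.sites {b}, dif (dir e) (dif (dir e) (G.lift φ)) (G.ι v) ^ 2
        ≤ 4 * (g.m : ℝ) ^ 2 * regN2 g b φ ^ 2 := by
      calc ∑ v ∈ g.sites {b}, dif (dir e) (dif (dir e) (G.lift φ)) (G.ι v) ^ 2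
          ≤ ∑ v ∈ g.sites {b}, regN2 g b φ ^ 2 := Finset.sum_le_sum fun v hv => by
            have := reg_d2_le_n2 g b φ hv e e
            exact sq_le_sq' (by linarith [neg_abs_le (dif (dir e) (dif (dir e) (G.lift φ)) (G.ι v))])
              (le_trans (le_abs_self _) this)
        _ = ((g.sites {b}).card : ℝ) * regN2 g b φ ^ 2 := by rw [Finset.sum_const, nsmul_eq_mul]
        _ ≤ 4 * (g.m : ℝ) ^ 2 * regN2 g b φ ^ 2 := by
            refine mul_le_mul_of_nonneg_right ?_ (sq_nonneg _)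
            exact_mod_cast reg_block_card_le g hg b
    have h3 : 4 * (g.m : ℝ) ^ 2 * ∑ v ∈ g.sites {b}, dif (dir e) (dif (dir e) (G.lift φ)) (G.ι v) ^ 2
        ≤ 4 * (g.m : ℝ) ^ 2 * (4 * (g.m : ℝ) ^ 2 * regN2 g b φ ^ 2) :=
      mul_le_mul_of_nonneg_left h2 (by positivity)
    nlinarith [h3]
  unfold regFace
  rw [Finset.mul_sum]
  refine le_trans (Finset.sum_le_sum fun e _ => key e) ?_
  rw [Finset.sum_add_distrib, ← Finset.mul_sum, reg_gE_eq, Finset.sum_comm]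
  simp only [Finset.sum_const, Finset.card_univ, Fintype.card_fin, nsmul_eq_mul]
  push_cast
  linarith

theorem reg_PE_inner (hg : g.Ok) (Y : Finset g.I) (φ : G.V → ℝ) :
    PE G g.m (g.sites Y) φ ≤ 4 * gE G (g.sites Y) φ + 64 * TE g Y φ := by
  rw [reg_PE_eq, rege_gE_sites, reg_TE_eq, Finset.mul_sum, Finset.mul_sum, ← Finset.sum_add_distrib]
  calc (g.m : ℝ) * regRaw (g.sites Y) φ ≤ (g.m : ℝ) * ∑ b ∈ Y, regFace g b φ :=
        mul_le_mul_of_nonneg_left (reg_raw_le_face g Y φ) (Nat.cast_nonneg _)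
    _ = ∑ b ∈ Y, (g.m : ℝ) * regFace g b φ := Finset.mul_sum _ _ _
    _ ≤ _ := Finset.sum_le_sum fun b _ => reg_face_le_sup g hg b φ

theorem reg_PE_split (hg : g.Ok) {Y Y' : Finset g.I} (h : Y ⊆ Y') (φ : G.V → ℝ) :
    PE G g.m (g.sites Y) φ ≤ PE G g.m (g.sites Y') φ + 4 * gE G (g.sites Y' \ g.sites Y) φ + 64 * TE g (Y' \ Y) φ := by
  rw [reg_PE_eq, reg_PE_eq, ← reg_sites_sdiff, rege_gE_sites, reg_TE_eq, Finset.mul_sum, Finset.mul_sum, add_assoc,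
    ← Finset.sum_add_distrib]
  calc (g.m : ℝ) * regRaw (g.sites Y) φ
      ≤ (g.m : ℝ) * (regRaw (g.sites Y') φ + ∑ b ∈ Y' \ Y, regFace g b φ) :=
        mul_le_mul_of_nonneg_left (reg_raw_split g h φ) (Nat.cast_nonneg _)
    _ = (g.m : ℝ) * regRaw (g.sites Y') φ + ∑ b ∈ Y' \ Y, (g.m : ℝ) * regFace g b φ := by
        rw [mul_add, Finset.mul_sum]
    _ ≤ _ := by
        gcongr with b _
        exact reg_face_le_sup g hg b φ

/-! ### LEAF `REG-E5` -/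

theorem rege_inv (D : Finset G.V) (φ ζ : G.V → ℝ) :
    ∑ v : G.V, ∑ e : Fin 4, ((if v ∈ D then (1 : ℝ) else 0) * (φ (regNb G v e) - φ v) * ζ (regNb G v e)
      + (if regNb G v e ∈ D then (1 : ℝ) else 0) * (φ (regNb G v e) - φ v) * ζ v) = 0 := by
  rw [← Finset.sum_product' (s := Finset.univ) (t := Finset.univ) (f := fun v e =>
    ((if v ∈ D then (1 : ℝ) else 0) * (φ (regNb G v e) - φ v) * ζ (regNb G v e)
      + (if regNb G v e ∈ D then (1 : ℝ) else 0) * (φ (regNb G v e) - φ v) * ζ v))]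
  apply Finset.sum_involution
    (fun x _ => if regNb G x.1 x.2 = x.1 then x else (regNb G x.1 x.2, regOpp x.2))
  · rintro ⟨v, e⟩ -
    by_cases h : regNb G v e = v
    · simp [h]
    · simp only [if_neg h]
      rw [reg_nb_rev G v e h]; ring
  · rintro ⟨v, e⟩ - hne heq
    by_cases h : regNb G v e = v
    · apply hne; simp [h]
    · simp only [if_neg h] at heq
      exact h (congrArg Prod.fst heq)
  · intro x _
    exact Finset.mem_product.2 ⟨Finset.mem_univ _, Finset.mem_univ _⟩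
  · rintro ⟨v, e⟩ -
    by_cases h : regNb G v e = v
    · simp [h]
    · have h' : regNb G (regNb G v e) (regOpp e) ≠ regNb G v e := by
        rw [reg_nb_rev G v e h]; exact fun h'' => h h''.symm
      have h'' : ¬ v = regNb G v e := fun h'' => h h''.symm
      simp only [if_neg h, reg_nb_rev G v e h, reg_opp_opp, if_neg h'']

/-- summation by parts -/
theorem reg_bil_eq (D : Finset G.V) (φ ζ : G.V → ℝ) : regBil D φ ζ = regBv D φ ⬝ᵥ ζ := by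
  have h := rege_inv D φ ζ
  have e1 : regBil D φ ζ = (1 / 2) * ∑ v : G.V, ∑ e : Fin 4,
      (if v ∈ D then (1 : ℝ) else 0) * ((φ (regNb G v e) - φ v) * (ζ (regNb G v e) - ζ v)) := by
    unfold regBil
    congr 1
    have e0 : ∀ f : G.V → ℝ, ∑ v ∈ D, f v = ∑ v : G.V, if v ∈ D then f v else 0 := fun f => by
      rw [Finset.sum_ite_mem, Finset.univ_inter]
    rw [e0]
    refine Finset.sum_congr rfl fun v _ => ?_
    split_ifs <;> simp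
  have e2 : regBil D φ ζ - regBv D φ ⬝ᵥ ζ = (1 / 2) * ∑ v : G.V, ∑ e : Fin 4,
      ((if v ∈ D then (1 : ℝ) else 0) * (φ (regNb G v e) - φ v) * ζ (regNb G v e)
      + (if regNb G v e ∈ D then (1 : ℝ) else 0) * (φ (regNb G v e) - φ v) * ζ v) := by
    rw [e1]
    simp only [dotProduct, regBv]
    rw [Finset.mul_sum, ← Finset.sum_sub_distrib, Finset.mul_sum]
    refine Finset.sum_congr rfl fun v _ => ?_
    simp only [Fin.sum_univ_four]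
    ring
  rw [h, mul_zero] at e2
  linarith

theorem reg_bv_sdiff {D D' : Finset G.V} (h : D ⊆ D') (φ : G.V → ℝ) :
    regBv D φ = regBv D' φ - regBv (D' \ D) φ := by
  have ind : ∀ x : G.V, (if x ∈ D then (1 : ℝ) else 0) = (if x ∈ D' then (1 : ℝ) else 0) -
      (if x ∈ D' \ D then (1 : ℝ) else 0) := by
    intro x
    by_cases h1 : x ∈ D
    · have h2 := h h1
      simp [h1, h2]
    · by_cases h2 : x ∈ D' <;> simp [h1, h2]
  funext z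
  simp only [regBv, Pi.sub_apply]
  rw [← mul_sub, ← Finset.sum_sub_distrib]
  congr 1
  refine Finset.sum_congr rfl fun e _ => ?_
  rw [ind (regNb G z e), ind z]; ring

/-- [B] (rg:ibp) -/
theorem reg_bv_split (D : Finset G.V) (φ : G.V → ℝ) : regBv D φ = regBulk D φ + regBdv D φ := by
  funext z
  simp only [regBv, regBulk, regBdv, Pi.add_apply, Fin.sum_univ_four]
  by_cases h : z ∈ D
  · simp only [if_pos h]; ring
  · simp only [if_neg h]; ring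

end

end Claimed.Agent.R285.Reg
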