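import Claimed.Agent.R285.Reg.En

/-!
# ROW 285 / PK-REG ([B] Lemma 4.4) / Det : the deterministic comparisons between the scales `m` and `S = L m`      (architect helper15)   -- KEEP

`D = g.Dm X`, `D' = g'.Dm Y`, `cl X ⊆ Y`, `E = D' \ D`.
* `reg_TE_coarse`   `T_m (A) ≤ 4 L⁻² T_S (Y')`                                   [B] (rg:det-comparison), first line
* `reg_PE_coarse`   `P_m (D) ≤ L⁻¹ P_S (D') + 4 g_E + 256 L⁻² T_S (D')`           second line
* `reg_mono`, `reg_add`    monotonicity (`δ ≤ 1/64`) and additivity of `U_m`   (= `B4.regulator_mono`, `B4.regulator_add`)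
* `reg_small_gE`, `reg_small_U`   `U_m (X) ≤ (32000 |X| + 260) L⁻² U_S (Y)`        (small polymers)
* `reg_det_main`    the coefficient count at the end of the proof

## LEAF `REG-C1` : `reg_TE_coarse`, `reg_PE_coarse`   (~200 lines)
PLAN.  `TE g A φ = ∑_{b ∈ A} m⁴ N2(b)² ≤ ∑_{b ∈ A} m⁴ N2'(up b)²` (`reg_n2_up`) `= ∑_{b' ∈ Y'} #{b ∈ A : up b = b'} m⁴ N2'(b')²` (`Finset.sum_fiberwise_of_maps_to`) `≤ ∑ 4 L² m⁴ N2'²` (`reg_up_fiber_card`), `S⁴ = L⁴ m⁴`.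
`PE`: `A = g.collar X ⊆ A' = univ.filter (up · ∈ g'.collar Y)` (`reg_up_collar`, `reg_collar_mono`), `g.sites A' = g'.Dm Y` (`reg_sites_up`); `reg_PE_split hg`; `PE G m D' = (m/S) PE G S D'` (`reg_PE_eq`); `reg_TE_coarse` for `A' \ A`.
## LEAF `REG-C2` : `reg_mono`, `reg_add`   (~200 lines)
PLAN.  mono: `reg_collar_mono`, `reg_PE_split`, `reg_gE_sdiff`, `reg_TE_sdiff`, `reg_sites_sdiff`, `4 δ ≤ 1`, `64 δ ≤ 1`.
add: `reg_collar_union`; the collars are disjoint (`reg_idist_triangle`, `reg_idist_comm`: `idist a a' ≤ 2 + 2`); `gE`, `TE` are sums over disjoint unions (`Finset.sum_union`); for `PE`: for `v ∈ D`, `nb v e ∉ D → nb v e ∉ D''` because `idist a (blk (nb v e)) ≤ 2 + 1` (`reg_idist_nb`) and `idist a' (blk (nb v e)) ≤ 2` would give `idist a a' ≤ 5`.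
## LEAF `REG-C3` : `reg_small_gE`, `reg_small_U`   (~200 lines)
PLAN.  For `v ∈ D ⊆ D'` (`reg_Dm_subset`), `b' = g'.blk v ∈ g'.collar Y`: `reg_gradsup hg' b' (f := dif (dir e) (G.lift φ)) (K := regN2 g' b' φ)` (`reg_d2_le_n2`):
`S² (∇_e φ v)² ≤ 4 ∑_{b'} (∇_e φ)² + 32 S⁴ N2'² ≤ 4 ∑_{D'} (∇_e φ)² + 32 T_S`; sum over `e`: `≤ 8 g_{D'} + 128 T_S`; `g_D = ½ ∑_{v ∈ D} .. ≤ ½ |D| S⁻² (..)`, `|D| ≤ 100 m² |X|` (`reg_Dm_card`).
`U`: `reg_PE_inner`, `δ ≤ 1`, `reg_TE_coarse`, `0 ≤ δ P_S`.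
## LEAF `REG-C4` : `reg_det_main`   (~100 lines)
PLAN.  `reg_PE_coarse`, `reg_TE_coarse`, `reg_gE_sdiff` and `nlinarith`/`linarith` after collecting the coefficients of `g_E`, `P_S`, `T_S` (all `≥ 0`):  `8δ + 4κ CV ≤ 1`, `2δ/L + 4κ CV ≤ δ`, `(512 δ + 8)/L² + 4κ CV ≤ 1`.
Helper lemmas with prefix `regc_`.
-/

set_option autoImplicit false

namespace Claimed.Agent.R285.Reg

open scoped BigOperators ENNReal NNReal
open MeasureTheory Matrix
open Claimed.Agent.R285.RG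

noncomputable section

variable {G : Geom} {g g' : Grid G} (N : Nest g g')

/-! ### LEAF `REG-C1` -/

theorem reg_TE_coarse (hg : g.Ok) (hg' : g'.Ok) {L : ℕ} (hL : 0 < L) (hS : g'.m = L * g.m) (A : Finset g.I)
    (Y' : Finset g'.I) (h : ∀ b ∈ A, N.up b ∈ Y') (φ : G.V → ℝ) :
    TE g A φ ≤ 4 / (L : ℝ) ^ 2 * TE g' Y' φ := by
  rw [reg_TE_eq, reg_TE_eq]
  have hLr : (0 : ℝ) < L := by exact_mod_cast hL
  calc ∑ b ∈ A, (g.m : ℝ) ^ 4 * regN2 g b φ ^ 2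
      ≤ ∑ b ∈ A, (g.m : ℝ) ^ 4 * regN2 g' (N.up b) φ ^ 2 := by
        refine Finset.sum_le_sum fun b _ => mul_le_mul_of_nonneg_left ?_ (by positivity)
        exact pow_le_pow_left₀ (reg_n2_nonneg g b φ) (reg_n2_up N b φ) 2
    _ = ∑ b' ∈ Y', ∑ b ∈ A.filter (fun b => N.up b = b'), (g.m : ℝ) ^ 4 * regN2 g' (N.up b) φ ^ 2 :=
        (Finset.sum_fiberwise_of_maps_to h _).symm
    _ ≤ ∑ b' ∈ Y', 4 * (L : ℝ) ^ 2 * ((g.m : ℝ) ^ 4 * regN2 g' b' φ ^ 2) := by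
        refine Finset.sum_le_sum fun b' _ => ?_
        rw [Finset.sum_congr rfl (fun b hb => by rw [(Finset.mem_filter.1 hb).2])]
        rw [Finset.sum_const, nsmul_eq_mul]
        refine mul_le_mul_of_nonneg_right ?_ (by positivity)
        have h1 := reg_up_fiber_card N hg hg' L hS b'
        have h2 : (A.filter fun b => N.up b = b').card ≤ (Finset.univ.filter fun b : g.I => N.up b = b').card :=
          Finset.card_le_card (Finset.filter_subset_filter _ (Finset.subset_univ _))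
        exact_mod_cast le_trans h2 h1
    _ = 4 / (L : ℝ) ^ 2 * ∑ b' ∈ Y', (g'.m : ℝ) ^ 4 * regN2 g' b' φ ^ 2 := by
        rw [Finset.mul_sum]
        refine Finset.sum_congr rfl fun b' _ => ?_
        rw [hS]; push_cast; field_simp

theorem regc_collar_sub (hg : g.Ok) (hg' : g'.Ok) (X : Finset g.I) (Y : Finset g'.I) (h : N.cl X ⊆ Y) :
    g.collar X ⊆ Finset.univ.filter fun b => N.up b ∈ g'.collar Y := fun _ ha =>
  Finset.mem_filter.2 ⟨Finset.mem_univ _, reg_collar_mono g' h (reg_up_collar N hg hg' X ha)⟩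

theorem reg_PE_coarse (hg : g.Ok) (hg' : g'.Ok) {L : ℕ} (hL : 0 < L) (hS : g'.m = L * g.m) (X : Finset g.I)
    (Y : Finset g'.I) (h : N.cl X ⊆ Y) (φ : G.V → ℝ) :
    PE G g.m (g.Dm X) φ ≤ 1 / (L : ℝ) * PE G g'.m (g'.Dm Y) φ + 4 * gE G (g'.Dm Y \ g.Dm X) φ
      + 256 / (L : ℝ) ^ 2 * TE g' (g'.collar Y) φ := by
  have hLr : (0 : ℝ) < L := by exact_mod_cast hL
  have hsub := regc_collar_sub N hg hg' X Y h
  have h1 := reg_PE_split g hg hsub φ
  have e1 : g.sites (Finset.univ.filter fun b => N.up b ∈ g'.collar Y) = g'.Dm Y := (reg_sites_up N _).symm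
  rw [e1] at h1
  have h2 := reg_TE_coarse N hg hg' hL hS ((Finset.univ.filter fun b => N.up b ∈ g'.collar Y) \ g.collar X)
    (g'.collar Y) (fun b hb => (Finset.mem_filter.1 (Finset.mem_sdiff.1 hb).1).2) φ
  have e2 : PE G g.m (g'.Dm Y) φ = 1 / (L : ℝ) * PE G g'.m (g'.Dm Y) φ := by
    rw [reg_PE_eq, reg_PE_eq, hS]; push_cast; field_simp
  rw [e2] at h1
  have e3 : 256 / (L : ℝ) ^ 2 * TE g' (g'.collar Y) φ = 64 * (4 / (L : ℝ) ^ 2 * TE g' (g'.collar Y) φ) := by ring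
  rw [e3]
  have e4 : g.Dm X = g.sites (g.collar X) := rfl
  rw [e4]
  linarith

/-! ### LEAF `REG-C2` -/

theorem reg_mono (hg : g.Ok) {δ : ℝ} (h0 : 0 ≤ δ) (h1 : δ ≤ 1 / 64) {X X' : Finset g.I} (h : X ⊆ X') (φ : G.V → ℝ) :
    U g δ X φ ≤ U g δ X' φ := by
  have hsub := reg_collar_mono g h
  have h2 := reg_PE_split g hg hsub φ
  have h3 := reg_gE_sdiff (reg_sites_mono g hsub) φ
  have h4 := reg_TE_sdiff g hsub φ
  have h5 := reg_gE_nonneg (g.sites (g.collar X') \ g.sites (g.collar X)) φ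
  have h6 := reg_TE_nonneg g (g.collar X' \ g.collar X) φ
  unfold U Grid.Dm
  have h7 := mul_le_mul_of_nonneg_left h2 h0
  nlinarith [mul_nonneg h0 h5, mul_nonneg h0 h6, mul_nonneg (sub_nonneg.2 h1) h5, mul_nonneg (sub_nonneg.2 h1) h6]

theorem reg_add (hg : g.Ok) (δ : ℝ) (X X' : Finset g.I) (h : g.Sep 5 X X') (φ : G.V → ℝ) :
    U g δ (X ∪ X') φ = U g δ X φ + U g δ X' φ := by
  classical
  have hmem : ∀ (Z : Finset g.I) (c : g.I), c ∈ g.collar Z ↔ ∃ a ∈ Z, g.idist a c ≤ 2 := by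
    intro Z c
    simp [Grid.collar]
  -- no block is within distance 3 of X and 2 of X'
  have hfar : ∀ c c' : g.I, c ∈ g.collar X → c' ∈ g.collar X' → 1 < g.idist c c' := by
    intro c c' hc hc'
    obtain ⟨a, ha, hac⟩ := (hmem X c).1 hc
    obtain ⟨a', ha', hac'⟩ := (hmem X' c').1 hc'
    have h1 := h a ha a' ha'
    have h2 := reg_idist_triangle g a c a'
    have h3 := reg_idist_triangle g c c' a'
    have h4 := reg_idist_comm g a' c'
    omega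
  have hdc : Disjoint (g.collar X) (g.collar X') := by
    rw [Finset.disjoint_left]
    intro c hc hc'
    have := hfar c c hc hc'
    rw [reg_idist_self] at this
    omega
  have hds : Disjoint (g.sites (g.collar X)) (g.sites (g.collar X')) := by
    rw [Finset.disjoint_left]
    intro v hv hv'
    exact Finset.disjoint_left.1 hdc ((reg_mem_sites g _ v).1 hv) ((reg_mem_sites g _ v).1 hv')
  have hnb : ∀ v ∈ g.sites (g.collar X), ∀ e, regNb G v e ∉ g.sites (g.collar X') := by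
    intro v hv e hc
    have h1 := hfar _ _ ((reg_mem_sites g _ v).1 hv) ((reg_mem_sites g _ _).1 hc)
    have h2 := reg_idist_nb g hg v e
    omega
  have hnb' : ∀ v ∈ g.sites (g.collar X'), ∀ e, regNb G v e ∉ g.sites (g.collar X) := by
    intro v hv e hc
    have h1 := hfar _ _ ((reg_mem_sites g _ _).1 hc) ((reg_mem_sites g _ v).1 hv)
    have h2 := reg_idist_nb g hg v e
    rw [reg_idist_comm] at h2
    omega
  unfold U Grid.Dm
  rw [reg_collar_union, reg_sites_union]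
  have eg : gE G (g.sites (g.collar X) ∪ g.sites (g.collar X')) φ =
      gE G (g.sites (g.collar X)) φ + gE G (g.sites (g.collar X')) φ := by
    simp only [reg_gE_eq]
    rw [Finset.sum_union hds]; ring
  have eT : TE g (g.collar X ∪ g.collar X') φ = TE g (g.collar X) φ + TE g (g.collar X') φ := by
    simp only [reg_TE_eq]
    rw [Finset.sum_union hdc]
  have eP : PE G g.m (g.sites (g.collar X) ∪ g.sites (g.collar X')) φ =
      PE G g.m (g.sites (g.collar X)) φ + PE G g.m (g.sites (g.collar X')) φ := by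
    simp only [reg_PE_eq, regRaw]
    rw [Finset.sum_union hds, mul_add]
    congr 2
    · refine Finset.sum_congr rfl fun v hv => Finset.sum_congr rfl fun e _ => ?_
      have := hnb v hv e
      by_cases hc : regNb G v e ∈ g.sites (g.collar X)
      · rw [if_pos (Finset.mem_union_left _ hc), if_pos hc]
      · rw [if_neg (by rw [Finset.mem_union]; tauto), if_neg hc]
    · refine Finset.sum_congr rfl fun v hv => Finset.sum_congr rfl fun e _ => ?_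
      have := hnb' v hv e
      by_cases hc : regNb G v e ∈ g.sites (g.collar X')
      · rw [if_pos (Finset.mem_union_right _ hc), if_pos hc]
      · rw [if_neg (by rw [Finset.mem_union]; tauto), if_neg hc]
  rw [eg, eT, eP]; ring

/-! ### LEAF `REG-C3` -/

/-- pointwise gradient bound at the coarse scale -/
theorem regc_grad_pt (hg' : g'.Ok) (Y : Finset g'.I) (φ : G.V → ℝ) {v : G.V} (hv : v ∈ g'.Dm Y) :
    (g'.m : ℝ) ^ 2 * ∑ e : Fin 4, (φ (regNb G v e) - φ v) ^ 2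
      ≤ 128 * (gE G (g'.Dm Y) φ + TE g' (g'.collar Y) φ) := by
  have hb : g'.blk v ∈ g'.collar Y := (reg_mem_Dm g' Y v).1 hv
  have hvb : v ∈ g'.sites {g'.blk v} := (reg_mem_sites g' _ v).2 (Finset.mem_singleton_self _)
  have hsub : g'.sites {g'.blk v} ⊆ g'.Dm Y := reg_sites_mono g' (Finset.singleton_subset_iff.2 hb)
  have hT : (g'.m : ℝ) ^ 4 * regN2 g' (g'.blk v) φ ^ 2 ≤ TE g' (g'.collar Y) φ := by
    rw [reg_TE_eq]
    exact Finset.single_le_sum (f := fun b => (g'.m : ℝ) ^ 4 * regN2 g' b φ ^ 2)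
      (fun b _ => by positivity) hb
  have key : ∀ e : Fin 4, (g'.m : ℝ) ^ 2 * (φ (regNb G v e) - φ v) ^ 2
      ≤ 4 * ∑ w ∈ g'.Dm Y, (φ (regNb G w e) - φ w) ^ 2 + 32 * TE g' (g'.collar Y) φ := by
    intro e
    have h := reg_gradsup g' hg' (g'.blk v) (dif (dir e) (G.lift φ)) (K := regN2 g' (g'.blk v) φ)
      (fun w hw e' => reg_d2_le_n2 g' _ φ hw e' e) hvb
    simp only [reg_dif_lift] at h
    have h2 : ∑ w ∈ g'.sites {g'.blk v}, (φ (regNb G w e) - φ w) ^ 2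
        ≤ ∑ w ∈ g'.Dm Y, (φ (regNb G w e) - φ w) ^ 2 :=
      Finset.sum_le_sum_of_subset_of_nonneg hsub fun _ _ _ => sq_nonneg _
    linarith
  rw [Finset.mul_sum]
  refine le_trans (Finset.sum_le_sum fun e _ => key e) ?_
  rw [Finset.sum_add_distrib, ← Finset.mul_sum, Finset.sum_comm, reg_gE_eq]
  simp only [Finset.sum_const, Finset.card_univ, Fintype.card_fin, nsmul_eq_mul]
  have h0 : 0 ≤ ∑ w ∈ g'.Dm Y, ∑ e : Fin 4, (φ (regNb G w e) - φ w) ^ 2 :=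
    Finset.sum_nonneg fun _ _ => Finset.sum_nonneg fun _ _ => sq_nonneg _
  push_cast
  linarith

theorem reg_small_gE (hg : g.Ok) (hg' : g'.Ok) {L : ℕ} (hL : 0 < L) (hS : g'.m = L * g.m) (X : Finset g.I)
    (Y : Finset g'.I) (h : N.cl X ⊆ Y) (φ : G.V → ℝ) :
    gE G (g.Dm X) φ ≤ 6400 * X.card / (L : ℝ) ^ 2 * (gE G (g'.Dm Y) φ + TE g' (g'.collar Y) φ) := by
  have hLr : (0 : ℝ) < L := by exact_mod_cast hL
  have hm : (0 : ℝ) < g.m := by exact_mod_cast hg.pos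
  have hS' : (g'.m : ℝ) = L * g.m := by rw [hS]; push_cast; ring
  have hSpos : (0 : ℝ) < (g'.m : ℝ) ^ 2 := by rw [hS']; positivity
  have hsub := reg_Dm_subset N hg hg' X Y h
  set Q := gE G (g'.Dm Y) φ + TE g' (g'.collar Y) φ with hQ
  have hQ0 : 0 ≤ Q := add_nonneg (reg_gE_nonneg _ _) (reg_TE_nonneg _ _ _)
  have h1 : ∀ v ∈ g.Dm X, ∑ e : Fin 4, (φ (regNb G v e) - φ v) ^ 2 ≤ 128 * Q / (g'.m : ℝ) ^ 2 := by
    intro v hv
    rw [le_div_iff₀ hSpos, mul_comm]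
    exact regc_grad_pt hg' Y φ (hsub hv)
  have hcard : ((g.Dm X).card : ℝ) ≤ 100 * (g.m : ℝ) ^ 2 * X.card := by exact_mod_cast reg_Dm_card g hg X
  rw [reg_gE_eq]
  calc (1 / 2) * ∑ v ∈ g.Dm X, ∑ e : Fin 4, (φ (regNb G v e) - φ v) ^ 2
      ≤ (1 / 2) * ∑ v ∈ g.Dm X, 128 * Q / (g'.m : ℝ) ^ 2 :=
        mul_le_mul_of_nonneg_left (Finset.sum_le_sum h1) (by norm_num)
    _ = (1 / 2) * (((g.Dm X).card : ℝ) * (128 * Q / (g'.m : ℝ) ^ 2)) := by rw [Finset.sum_const, nsmul_eq_mul]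
    _ ≤ (1 / 2) * ((100 * (g.m : ℝ) ^ 2 * X.card) * (128 * Q / (g'.m : ℝ) ^ 2)) := by
        refine mul_le_mul_of_nonneg_left (mul_le_mul_of_nonneg_right hcard ?_) (by norm_num)
        positivity
    _ = 6400 * X.card / (L : ℝ) ^ 2 * Q := by rw [hS']; field_simp; ring

theorem reg_small_U (hg : g.Ok) (hg' : g'.Ok) {L : ℕ} (hL : 0 < L) (hS : g'.m = L * g.m) {δ : ℝ} (h0 : 0 ≤ δ)
    (h1 : δ ≤ 1) (X : Finset g.I) (Y : Finset g'.I) (h : N.cl X ⊆ Y) (φ : G.V → ℝ) :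
    U g δ X φ ≤ (32000 * X.card + 260) / (L : ℝ) ^ 2 * U g' δ Y φ := by
  have hLr : (0 : ℝ) < L := by exact_mod_cast hL
  have hL2 : (0 : ℝ) < (L : ℝ) ^ 2 := by positivity
  have a1 := reg_small_gE N hg hg' hL hS X Y h φ
  have a2 := reg_PE_inner g hg (g.collar X) φ
  have a3 := reg_TE_coarse N hg hg' hL hS (g.collar X) (g'.collar Y)
    (fun b hb => (Finset.mem_filter.1 (regc_collar_sub N hg hg' X Y h hb)).2) φ
  have n1 := reg_gE_nonneg (g.Dm X) φ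
  have n2 := reg_TE_nonneg g (g.collar X) φ
  have n3 := reg_gE_nonneg (g'.Dm Y) φ
  have n4 := reg_TE_nonneg g' (g'.collar Y) φ
  have n5 := reg_PE_nonneg g'.m (g'.Dm Y) φ
  have n6 := reg_PE_nonneg g.m (g.Dm X) φ
  have e4 : g.Dm X = g.sites (g.collar X) := rfl
  rw [← e4] at a2
  unfold U
  have b1 : δ * PE G g.m (g.Dm X) φ ≤ 4 * gE G (g.Dm X) φ + 64 * TE g (g.collar X) φ :=
    le_trans (mul_le_of_le_one_left n6 h1) a2
  have b2 : gE G (g.Dm X) φ + δ * PE G g.m (g.Dm X) φ + TE g (g.collar X) φ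
      ≤ 5 * (6400 * X.card / (L : ℝ) ^ 2 * (gE G (g'.Dm Y) φ + TE g' (g'.collar Y) φ))
        + 65 * (4 / (L : ℝ) ^ 2 * TE g' (g'.collar Y) φ) := by linarith
  refine le_trans b2 ?_
  have hc : (0 : ℝ) ≤ X.card := Nat.cast_nonneg _
  have e5 : 5 * (6400 * X.card / (L : ℝ) ^ 2 * (gE G (g'.Dm Y) φ + TE g' (g'.collar Y) φ))
        + 65 * (4 / (L : ℝ) ^ 2 * TE g' (g'.collar Y) φ)
      = (32000 * X.card * (gE G (g'.Dm Y) φ + TE g' (g'.collar Y) φ) + 260 * TE g' (g'.collar Y) φ) / (L : ℝ) ^ 2 := by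
    field_simp; ring
  rw [e5, div_mul_eq_mul_div]
  refine div_le_div_of_nonneg_right ?_ hL2.le
  have n7 := mul_nonneg h0 n5
  nlinarith [mul_nonneg hc n7, mul_nonneg hc n3, mul_nonneg hc n4]

/-! ### LEAF `REG-C4` -/

theorem reg_det_main (hg : g.Ok) (hg' : g'.Ok) {L : ℕ} (hL : 5 ≤ L) (hS : g'.m = L * g.m) {δ κ CV : ℝ} (h0 : 0 < δ)
    (h1 : δ ≤ 1 / 64) (hκ : 0 < κ) (hCV : 0 ≤ CV) (hκV : 4 * κ * CV ≤ δ / 2) (X : Finset g.I) (Y : Finset g'.I)
    (h : N.cl X ⊆ Y) (φ : G.V → ℝ) :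
    κ * (gE G (g.Dm X) φ + 2 * δ * PE G g.m (g.Dm X) φ + 2 * TE g (g.collar X) φ)
      + (2 * κ) ^ 2 * (CV * (gE G (g'.Dm Y \ g.Dm X) φ + PE G g'.m (g'.Dm Y) φ + TE g' (g'.collar Y) φ))
      ≤ κ * U g' δ Y φ := by
  have hL0 : 0 < L := by omega
  have hLr : (5 : ℝ) ≤ L := by exact_mod_cast hL
  have a1 := reg_PE_coarse N hg hg' hL0 hS X Y h φ
  have a2 := reg_TE_coarse N hg hg' hL0 hS (g.collar X) (g'.collar Y)
    (fun b hb => (Finset.mem_filter.1 (regc_collar_sub N hg hg' X Y h hb)).2) φ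
  have a3 := reg_gE_sdiff (reg_Dm_subset N hg hg' X Y h) φ
  have nE := reg_gE_nonneg (g'.Dm Y \ g.Dm X) φ
  have nP := reg_PE_nonneg g'.m (g'.Dm Y) φ
  have nT := reg_TE_nonneg g' (g'.collar Y) φ
  unfold U
  rw [a3]
  generalize gE G (g'.Dm Y \ g.Dm X) φ = gEE at *
  generalize PE G g'.m (g'.Dm Y) φ = PS at *
  generalize TE g' (g'.collar Y) φ = TS at *
  generalize gE G (g.Dm X) φ = gD at *
  generalize PE G g.m (g.Dm X) φ = Pm at *
  generalize TE g (g.collar X) φ = Tm at *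
  have i1 : 1 / (L : ℝ) ≤ 1 / 5 := one_div_le_one_div_of_le (by norm_num) hLr
  have i2 : 1 / (L : ℝ) ^ 2 ≤ 1 / 25 := by
    refine one_div_le_one_div_of_le (by norm_num) ?_
    nlinarith
  have b1 : Pm ≤ 1 / 5 * PS + 4 * gEE + 256 / 25 * TS := by
    have c1 : 1 / (L : ℝ) * PS ≤ 1 / 5 * PS := mul_le_mul_of_nonneg_right i1 nP
    have c2 : 256 / (L : ℝ) ^ 2 * TS ≤ 256 / 25 * TS := by
      have : 256 / (L : ℝ) ^ 2 = 256 * (1 / (L : ℝ) ^ 2) := by ring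
      rw [this]
      nlinarith
    linarith
  have b2 : Tm ≤ 4 / 25 * TS := by
    have : 4 / (L : ℝ) ^ 2 = 4 * (1 / (L : ℝ) ^ 2) := by ring
    rw [this] at a2
    nlinarith
  have e : κ * (gD + 2 * δ * Pm + 2 * Tm) + (2 * κ) ^ 2 * (CV * (gEE + PS + TS))
      = κ * (gD + 2 * δ * Pm + 2 * Tm + (4 * κ * CV) * (gEE + PS + TS)) := by ring
  rw [e]
  refine mul_le_mul_of_nonneg_left ?_ hκ.le
  have d1 : 2 * δ * Pm ≤ 2 * δ * (1 / 5 * PS + 4 * gEE + 256 / 25 * TS) :=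
    mul_le_mul_of_nonneg_left b1 (by linarith)
  have d2 : (4 * κ * CV) * (gEE + PS + TS) ≤ δ / 2 * (gEE + PS + TS) :=
    mul_le_mul_of_nonneg_right hκV (by linarith)
  nlinarith [mul_nonneg h0.le nE, mul_nonneg h0.le nP, mul_nonneg h0.le nT,
    mul_nonneg (sub_nonneg.2 h1) nE, mul_nonneg (sub_nonneg.2 h1) nT]

end

end Claimed.Agent.R285.Reg
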