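import Claimed.Agent.R285.Reg.Det

/-!
# ROW 285 / PK-REG ([B] Lemma 4.4) / Var : hypotheses on the covariance, variance of the cross term, pure fluctuation bound      (architect helper15)   -- KEEP

* `FlucOK G C m Γ`        what the pure fluctuation bound uses (holds for shells AND terminal covariances);  `RegCov G C ρ m S Γ` : everything L4.4 uses.
* `reg_var_main`          `Var B_D (φ, ·) ≤ C (64 + 8 C_ρ) (g_E + P_S (D') + T_S (D'))`, `C_ρ = (4ρ+10)(4ρ+8)`                         [B] (rg:cross-variance)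
* `reg_master`            `F ζ ≤ A + t ⟨b,ζ⟩ + c U_m (X,ζ)`  ⟹  `E exp F ≤ exp (A + t² Var⟨b,ζ⟩ + 46 c · 34000 C |X|)`  if `8 · 23 c · 340 C ≤ 1`

## LEAF `REG-V0` : `reg_fluc_of_term`, `reg_fluc_of_shell`, `reg_cov_of_shell`   (~150 lines)
PLAN.  The right sides are monotone in the constant (`le_max_left`, the other factors are `≥ 0`).  `diag` for shells: `ShellBounds.mixed r r` (`r + r ≤ 8 ≤ 12`), `le_abs_self`, `reg_dist_self`, `2 * r = r + r`.  `S = g'.m = 2^ℓ * g.m` (`P.hS`, `push_cast`).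
## LEAF `REG-V1` : `reg_bv_rows`, `reg_var_E`   (~200 lines)
PLAN.  `reg_bv_rows` by `reg_vec_ext`: `reg_bil_eq` (backwards), `reg_row_dot`, `reg_difs_one`, `reg_dif_lift`, `Finset.sum_comm`, `Finset.sum_ite_mem`-type rewriting of `∑_{v ∈ E}` as `∑_v if ..`.
`reg_var_E`: `reg_qf_sum_le` over `Fin 4` (card `4`), `reg_row_qf`, `FlucOK.grad 1`, `m^(2*(1-1)) = 1`;  `4 · C · ∑_e ∑_v (½ 1_E ∇_e φ)² = C · 2 g_E`.
## LEAF `REG-V2` : `reg_var_bulk`   (~120 lines)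
PLAN.  `regQf Γ β ≤ C S² ∑ β²`; `∑_z β² = ∑_{z ∈ D'} (𝓛φ)²` `= ∑_{b'} ∑_{z ∈ b'} ≤ ∑_{b'} 4 S² · 4 N2'²` (`reg_sites_sum`, `reg_lap_le_n2`, `reg_block_card_le`).
## LEAF `REG-V3` : `reg_bdv_supp`, `reg_bdv_sq`   (~150 lines)
PLAN.  `(½ ∑_e s_e x_e)² ≤ ∑_e s_e² x_e²` (Cauchy-Schwarz with 4 terms: `inner_mul_le_norm_mul_norm` or `sq_sum_le_card_mul_sum_sq`), `s_e ∈ {0, ±1}`.  Split `∑_z = ∑_{z ∈ D} + ∑_{z ∉ D}` (`Finset.sum_add_sum_compl`/`sdiff`): the first is `regRaw D φ`, the second is `reg_raw_out`.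
## LEAF `REG-V4` : `reg_bd_end`, `reg_line_sum`, `reg_row_sum`   (~300 lines)     the absolute row sum of `Γ` over the boundary sites is `≤ C C_ρ S`
PLAN.  `reg_bd_end`: `z ∈ regBd (sites Y')` ⟹ for some `e`, `blk (nb z e) ≠ blk z` ⟹ `reg_end_of_nb`.
`reg_line_sum`: `∑_{y'} [d(y,y') ≤ r] (1 + posLog (S/(m + d(y,y')))) = ∑_{k ≤ r} #{y' : d = k} (..) ≤ 2 ∑_{k < r+1} (..) ≤ 2 (r + 1 + S)` (`Finset.sum_fiberwise`, `reg_d1_card`, `reg_log_sum`).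
`reg_row_sum`: `|Γ z z'| ≤ [d(z.1,z'.1) ≤ ρS] [d(z.2,z'.2) ≤ ρS] C (1 + posLog (S/(m + d(z.i,z'.i))))`, `i = 1, 2` (range: `Γ = 0` if `dist > ρS`; `reg_d1_le_dist_*`; `Real.posLog` is monotone, `S/(m+·)` antitone).
`∑_{z' ∈ bd} ≤ ∑_{z' : End z'.1} + ∑_{z' : End z'.2}`; first sum `= ∑_{x' : End, d ≤ ρS} ∑_{y'} ≤ (4ρ+10) · C · 2 (ρS + 1 + S) ≤ (4ρ+10) C (2ρ+4) S` (`reg_end_count`, `1 ≤ S`).
## LEAF `REG-V5` : `reg_var_bdry`, `reg_var_main`   (~150 lines)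
PLAN.  `reg_qf_schur` with `T = regBd D'`, `reg_bdv_supp`, `reg_row_sum`, `reg_bdv_sq`, `reg_PE_eq`.   main: `reg_bv_sdiff` (`reg_Dm_subset`), `reg_qf_sub_le`, `reg_bv_split`, `reg_qf_add_le`, `reg_var_bulk`, `reg_var_bdry`, `reg_var_E`.
## LEAF `REG-F1` : `reg_Q_eq`, `reg_Z_op`, `reg_Z_tr`   (~250 lines)
PLAN.  `Fintype.sum_sigma`, `Fintype.sum_prod_type`.  op: `∑_k u_k • Z_k = ∑_{(r,a)} ∑_v u' v • regRow a v`; `reg_qf_sum_le` over `Σ r : Fin 4, (Fin (r+1) → Fin 4)` (card `4 + 16 + 64 + 256 = 340`: `Fintype.card_sigma`, `simp`/`decide`), `reg_row_qf`, `FlucOK.grad (r+1)`: `C (m^{2r})⁻¹ ∑ (1_D m^r u)² ≤ C ∑ u²`.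
tr: `regQf Γ (c • row) = c² kdif`, `reg_row_cov`, `FlucOK.diag (r+1)`: `m^{2r} C (m^{2(r+1)})⁻¹ = C/m²`.
## LEAF `REG-F2` : `reg_gE_le_Q`, `reg_PE_le_Q`, `reg_TE_le_Q`, `reg_U_le_Q`   (~300 lines)
PLAN.  By `reg_Q_eq`, `regQ = Q¹ + Q² + Q³ + Q⁴` (sums over all words, all terms `≥ 0`; single words are bounded by `Finset.single_le_sum`).
`g_D = ½ Q¹` (words `![e]`, `reg_difs_one`).  `P_m (D) ≤ ∑_{b} m · regFace b ≤ ∑_b ∑_e [2 ∑_b (∇_e ζ)² + 4 ∑_b (m ∇_e ∇_e ζ)²] ≤ 2 Q¹ + 4 Q²` (`reg_raw_le_face`, `reg_trace`).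
`T_m`: for `v ∈ b`, words `e, e'`: `reg_sobolev` with `f = dif (dir e) (dif (dir e') (G.lift ζ))`, times `m²`: `m⁴ f(v)² ≤ 4 ∑_b (m f)² + 8 ∑_b [(m² ∇₁ f)² + (m² ∇₂ f)²] + 16 ∑_b (m³ ∇₂∇₁ f)² ≤ 16 (Q²_b + Q³_b + Q⁴_b)`; `reg_n2_le` (with `K = √..`, or work with squares: `regN2² ≤ K²` from `abs_le_of_sq_le_sq`), sum over `b ∈ collar X` (`reg_sites_sum`).  Words: `reg_difs_cons`.
## LEAF `REG-F3` : `reg_master`   (~150 lines)
PLAN.  `lintegral_mono` with `hF`, `reg_U_le_Q`;  `exp (A + x) = exp A * exp x`, `lintegral_const_mul'`;  `reg_gauss_comb (B := regZ g.m (g.Dm X)) (Λ := 340 C) (τ := 34000 C |X|) (c := 23 c)`;  `reg_Z_op`, `reg_Z_tr` with `reg_Dm_card`: `340 C |D| / m² ≤ 34000 C |X|`.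
Helper lemmas with prefix `regv_`.
-/

set_option autoImplicit false

namespace Claimed.Agent.R285.Reg

open scoped BigOperators ENNReal NNReal
open MeasureTheory Matrix
open Claimed.Agent.R285.RG

noncomputable section

/-! ### hypotheses on the covariance -/

/-- what the pure fluctuation bound uses -/
structure FlucOK (G : Geom) (C : ℝ) (m : ℕ) (Γ : Matrix G.V G.V ℝ) : Prop where
  psd : Γ.PosSemidef
  grad : ∀ r : ℕ, 1 ≤ r → r ≤ 4 → ∀ (a : Fin r → Fin 4) (u : G.V → ℝ),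
    ∑ v, ∑ w, u v * u w * kdif G a a Γ (G.ι v) (G.ι w) ≤ C * ((m : ℝ) ^ (2 * (r - 1)))⁻¹ * ∑ v, u v ^ 2
  diag : ∀ r : ℕ, 1 ≤ r → r ≤ 4 → ∀ (a : Fin r → Fin 4) (v : G.V),
    kdif G a a Γ (G.ι v) (G.ι v) ≤ C * ((m : ℝ) ^ (2 * r))⁻¹

/-- everything Lemma 4.4 uses about the fluctuation covariance from `m` to `S` -/
structure RegCov (G : Geom) (C : ℝ) (ρ m S : ℕ) (Γ : Matrix G.V G.V ℝ) : Prop where
  fluc : FlucOK G C m Γ
  range : FinRange Γ (ρ * S)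
  pointwise : ∀ v w, |Γ v w| ≤ C * (1 + Real.posLog ((S : ℝ) / (m + G.dist v w)))
  opnorm : ∀ f : G.V → ℝ, f ⬝ᵥ Γ *ᵥ f ≤ C * (S : ℝ) ^ 2 * (f ⬝ᵥ f)

variable {G : Geom}

/-! ### LEAF `REG-V0` -/

theorem reg_fluc_of_term {Ct : ℝ} {m : ℕ} {Γ : Matrix G.V G.V ℝ} (hΓ : Γ.PosSemidef) (h : TermBounds G Ct m Γ) :
    FlucOK G (max Ct 1) m Γ where
  psd := hΓ
  grad := fun r h1 h4 a u => (h.grad r h1 (by omega) a u).trans (by
    gcongr
    exact le_max_left _ _)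
  diag := fun r h1 h4 a v => (h.diag r h1 (by omega) a v).trans (by
    gcongr
    exact le_max_left _ _)

theorem reg_fluc_of_shell {Ck ck : ℝ} {L m : ℕ} {Γ : Matrix G.V G.V ℝ} (hΓ : Γ.PosSemidef)
    (h : ShellBounds G Ck ck L m Γ) : FlucOK G (max Ck 1) m Γ where
  psd := hΓ
  grad := fun r h1 h4 a u => (h.grad r h1 (by omega) a u).trans (by
    gcongr
    exact le_max_left _ _)
  diag := fun r h1 h4 a v => by
    have h2 := h.mixed r r (by omega) (by omega) a a v v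
    rw [reg_dist_self, Nat.cast_zero, add_zero, ← two_mul] at h2
    refine ((le_abs_self _).trans h2).trans ?_
    gcongr
    exact le_max_left _ _

theorem reg_cov_of_shell {Ck ck : ℝ} {ρ D0 ℓ : ℕ} {P : Pair G D0 ℓ} {Γ : Matrix G.V G.V ℝ}
    (h : ShellOK Ck ck ρ P Γ) : RegCov G (max Ck 1) ρ P.g.m P.g'.m Γ where
  fluc := reg_fluc_of_shell h.psd h.bounds
  range := h.range
  pointwise := fun v w => by
    have h2 := h.bounds.pointwise v w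
    have e : ((P.g'.m : ℕ) : ℝ) = ((2 ^ ℓ : ℕ) : ℝ) * (P.g.m : ℝ) := by rw [P.hS]; push_cast; ring
    rw [e]
    refine h2.trans ?_
    have := Real.posLog_nonneg (x := ((2 ^ ℓ : ℕ) : ℝ) * (P.g.m : ℝ) / ((P.g.m : ℝ) + (G.dist v w : ℝ)))
    gcongr
    exact le_max_left _ _
  opnorm := fun f => by
    have h2 := h.bounds.opnorm f
    have e : ((P.g'.m : ℕ) : ℝ) = ((2 ^ ℓ : ℕ) : ℝ) * (P.g.m : ℝ) := by rw [P.hS]; push_cast; ring
    rw [e]
    refine h2.trans ?_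
    have h3 : 0 ≤ f ⬝ᵥ f := by
      unfold dotProduct
      exact Finset.sum_nonneg fun i _ => mul_self_nonneg _
    gcongr
    exact le_max_left _ _

/-! ### LEAF `REG-V1` -/

theorem reg_bv_rows (E : Finset G.V) (φ : G.V → ℝ) :
    regBv E φ = ∑ e : Fin 4, ∑ v, (if v ∈ E then (1 / 2) * (φ (regNb G v e) - φ v) else 0) • regRow G ![e] v := by
  apply reg_vec_ext
  intro ζ
  rw [← reg_bil_eq]
  simp only [sum_dotProduct, smul_dotProduct, reg_row_dot, reg_difs_one, reg_dif_lift, smul_eq_mul]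
  unfold regBil
  rw [Finset.sum_comm, Finset.mul_sum]
  refine Finset.sum_congr rfl fun e _ => ?_
  rw [Finset.mul_sum, ← Finset.sum_subset (Finset.subset_univ E)]
  · refine Finset.sum_congr rfl fun v hv => ?_
    rw [if_pos hv]; ring
  · intro v _ hv
    rw [if_neg hv, zero_mul]

theorem reg_var_E {C : ℝ} {m : ℕ} {Γ : Matrix G.V G.V ℝ} (h : FlucOK G C m Γ) (E : Finset G.V) (φ : G.V → ℝ) :
    regQf Γ (regBv E φ) ≤ 2 * C * gE G E φ := by
  rw [reg_bv_rows, reg_gE_eq]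
  refine (reg_qf_sum_le h.psd Finset.univ _).trans ?_
  have h1 : ∀ e : Fin 4, regQf Γ (∑ v, (if v ∈ E then (1 / 2) * (φ (regNb G v e) - φ v) else 0) • regRow G ![e] v)
      ≤ C * ∑ v ∈ E, (1 / 4) * (φ (regNb G v e) - φ v) ^ 2 := by
    intro e
    rw [reg_row_qf]
    refine (h.grad 1 le_rfl (by norm_num) ![e] _).trans (le_of_eq ?_)
    rw [← Finset.sum_subset (Finset.subset_univ E)]
    · simp only [le_refl, tsub_eq_zero_of_le, mul_zero, pow_zero, inv_one, mul_one]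
      congr 1
      refine Finset.sum_congr rfl fun v hv => ?_
      rw [if_pos hv]; ring
    · intro v _ hv
      rw [if_neg hv]; simp
  calc _ ≤ ((Finset.univ : Finset (Fin 4)).card : ℝ) * ∑ e : Fin 4, C * ∑ v ∈ E, (1 / 4) * (φ (regNb G v e) - φ v) ^ 2 := by
        gcongr with e _
        exact h1 e
    _ = _ := by
        rw [Finset.sum_comm (s := E)]
        simp only [Finset.card_univ, Fintype.card_fin, ← Finset.mul_sum]
        push_cast; ring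

/-! ### LEAF `REG-V2` -/

theorem reg_var_bulk {g' : Grid G} (hg' : g'.Ok) {C : ℝ} (hC : 0 ≤ C) {Γ : Matrix G.V G.V ℝ}
    (hop : ∀ f : G.V → ℝ, f ⬝ᵥ Γ *ᵥ f ≤ C * (g'.m : ℝ) ^ 2 * (f ⬝ᵥ f)) (Y' : Finset g'.I) (φ : G.V → ℝ) :
    regQf Γ (regBulk (g'.sites Y') φ) ≤ 16 * C * TE g' Y' φ := by
  unfold regQf
  refine (hop _).trans ?_
  have h1 : regBulk (g'.sites Y') φ ⬝ᵥ regBulk (g'.sites Y') φ
      = ∑ z ∈ g'.sites Y', (∑ e : Fin 4, (φ (regNb G z e) - φ z)) ^ 2 := by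
    unfold dotProduct regBulk
    rw [← Finset.sum_subset (Finset.subset_univ (g'.sites Y'))]
    · refine Finset.sum_congr rfl fun z hz => ?_
      rw [if_pos hz]; ring
    · intro z _ hz
      rw [if_neg hz]; simp
  rw [h1, reg_sites_sum, reg_TE_eq]
  have h2 : ∀ b ∈ Y', ∑ z ∈ g'.sites {b}, (∑ e : Fin 4, (φ (regNb G z e) - φ z)) ^ 2
      ≤ 16 * (g'.m : ℝ) ^ 2 * regN2 g' b φ ^ 2 := by
    intro b _
    have hcard : ((g'.sites {b}).card : ℝ) ≤ 4 * (g'.m : ℝ) ^ 2 := by exact_mod_cast reg_block_card_le g' hg' b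
    calc _ ≤ ∑ z ∈ g'.sites {b}, (2 * regN2 g' b φ) ^ 2 := Finset.sum_le_sum fun z hz => by
            have := reg_lap_le_n2 g' b φ hz
            exact sq_le_sq' (by linarith [(abs_le.1 this).1]) (abs_le.1 this).2
      _ = ((g'.sites {b}).card : ℝ) * (2 * regN2 g' b φ) ^ 2 := by simp [Finset.sum_const, nsmul_eq_mul]
      _ ≤ 4 * (g'.m : ℝ) ^ 2 * (2 * regN2 g' b φ) ^ 2 := by gcongr
      _ = _ := by ring
  calc C * (g'.m : ℝ) ^ 2 * ∑ b ∈ Y', ∑ z ∈ g'.sites {b}, (∑ e : Fin 4, (φ (regNb G z e) - φ z)) ^ 2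
      ≤ C * (g'.m : ℝ) ^ 2 * ∑ b ∈ Y', 16 * (g'.m : ℝ) ^ 2 * regN2 g' b φ ^ 2 := by
        gcongr with b hb
        exact h2 b hb
    _ = _ := by
        rw [Finset.mul_sum, Finset.mul_sum]
        refine Finset.sum_congr rfl fun b _ => ?_
        ring

/-! ### LEAF `REG-V3` -/

open Classical in
/-- the endpoints of the crossing edges -/
def regBd (D : Finset G.V) : Finset G.V :=
  Finset.univ.filter fun z => ∃ e : Fin 4, (z ∈ D ∧ regNb G z e ∉ D) ∨ (z ∉ D ∧ regNb G z e ∈ D)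

theorem reg_bdv_supp (D : Finset G.V) (φ : G.V → ℝ) (z : G.V) (hz : z ∉ regBd D) : regBdv D φ z = 0 := by
  have h : ∀ e : Fin 4, ¬ ((z ∈ D ∧ regNb G z e ∉ D) ∨ (z ∉ D ∧ regNb G z e ∈ D)) := by
    intro e he
    exact hz (Finset.mem_filter.2 ⟨Finset.mem_univ _, e, he⟩)
  unfold regBdv
  rw [Finset.sum_eq_zero, mul_zero]
  intro e _
  have := h e
  by_cases h1 : z ∈ D <;> by_cases h2 : regNb G z e ∈ D <;> simp_all

theorem reg_bdv_sq (D : Finset G.V) (φ : G.V → ℝ) : ∑ z, regBdv D φ z ^ 2 ≤ 2 * regRaw D φ := by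
  have h1 : ∀ z, regBdv D φ z ^ 2 ≤ ∑ e : Fin 4,
      ((((if z ∈ D then 1 else 0) - (if regNb G z e ∈ D then 1 else 0)) : ℝ) * (φ (regNb G z e) - φ z)) ^ 2 := by
    intro z
    unfold regBdv
    have := sq_sum_le_card_mul_sum_sq (s := (Finset.univ : Finset (Fin 4)))
      (f := fun e : Fin 4 => ((((if z ∈ D then 1 else 0) - (if regNb G z e ∈ D then 1 else 0)) : ℝ) * (φ (regNb G z e) - φ z)))
    simp only [Finset.card_univ, Fintype.card_fin, Nat.cast_ofNat] at this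
    rw [mul_pow]
    linarith
  refine (Finset.sum_le_sum fun z _ => h1 z).trans (le_of_eq ?_)
  rw [← Finset.sum_sdiff (Finset.subset_univ D), two_mul]
  congr 1
  · rw [← reg_raw_out D φ]
    refine Finset.sum_congr rfl fun z hz => Finset.sum_congr rfl fun e _ => ?_
    have hz' : z ∉ D := (Finset.mem_sdiff.1 hz).2
    by_cases h2 : regNb G z e ∈ D
    · simp only [hz', h2, if_true, if_false]; ring
    · simp [hz', h2]
  · unfold regRaw
    refine Finset.sum_congr rfl fun z hz => Finset.sum_congr rfl fun e _ => ?_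
    by_cases h2 : regNb G z e ∈ D <;> simp [hz, h2]

/-! ### LEAF `REG-V4` -/

theorem reg_bd_end (g' : Grid G) (Y' : Finset g'.I) {z : G.V} (hz : z ∈ regBd (g'.sites Y')) :
    regEnd g' z.1 ∨ regEnd g' z.2 := by
  classical
  simp only [regBd, Finset.mem_filter, Finset.mem_univ, true_and, reg_mem_sites] at hz
  obtain ⟨e, he⟩ := hz
  refine reg_end_of_nb g' z e fun h => ?_
  rw [h] at he
  tauto

theorem reg_line_sum (G : Geom) (S m r : ℕ) (hm : 1 ≤ m) (y : Fin G.M) :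
    ∑ y' : Fin G.M, (if regD1 G y y' ≤ r then 1 + Real.posLog ((S : ℝ) / ((m : ℝ) + regD1 G y y')) else 0)
      ≤ 2 * ((r : ℝ) + 1 + S) := by
  obtain ⟨w, hw⟩ : ∃ w : ℕ → ℝ, ∀ k, w k = 1 + Real.posLog ((S : ℝ) / ((m : ℝ) + k)) := ⟨_, fun _ => rfl⟩
  have hw0 : ∀ k, 0 ≤ w k := fun k => by rw [hw]; have := Real.posLog_nonneg (x := (S : ℝ) / ((m : ℝ) + k)); linarith
  simp_rw [← hw]
  calc ∑ y' : Fin G.M, (if regD1 G y y' ≤ r then w (regD1 G y y') else 0)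
      = ∑ y' ∈ Finset.univ.filter (fun y' => regD1 G y y' ≤ r), w (regD1 G y y') := (Finset.sum_filter _ _).symm
    _ = ∑ k ∈ Finset.range (r + 1), ∑ y' ∈ (Finset.univ.filter (fun y' => regD1 G y y' ≤ r)).filter
          (fun y' => regD1 G y y' = k), w (regD1 G y y') :=
        (Finset.sum_fiberwise_of_maps_to (fun y' hy' => by
          rw [Finset.mem_filter] at hy'; rw [Finset.mem_range]; omega) _).symm
    _ ≤ ∑ k ∈ Finset.range (r + 1), 2 * w k := by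
        refine Finset.sum_le_sum fun k _ => ?_
        have h1 : ∑ y' ∈ (Finset.univ.filter (fun y' => regD1 G y y' ≤ r)).filter (fun y' => regD1 G y y' = k), w (regD1 G y y')
            = ((Finset.univ.filter (fun y' => regD1 G y y' ≤ r)).filter (fun y' => regD1 G y y' = k)).card * w k := by
          rw [← nsmul_eq_mul, ← Finset.sum_const]
          refine Finset.sum_congr rfl fun y' hy' => ?_
          rw [(Finset.mem_filter.1 hy').2]
        rw [h1]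
        have h2 : ((Finset.univ.filter (fun y' => regD1 G y y' ≤ r)).filter (fun y' => regD1 G y y' = k)).card ≤ 2 :=
          (Finset.card_le_card (Finset.filter_subset_filter _ (Finset.filter_subset _ _))).trans (reg_d1_card G y k)
        have h3 : (((Finset.univ.filter (fun y' => regD1 G y y' ≤ r)).filter (fun y' => regD1 G y y' = k)).card : ℝ) ≤ 2 := by
          exact_mod_cast h2
        exact mul_le_mul_of_nonneg_right h3 (hw0 k)
    _ = 2 * ∑ k ∈ Finset.range (r + 1), w k := by rw [Finset.mul_sum]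
    _ ≤ 2 * ((r : ℝ) + 1 + S) := by
        have := reg_log_sum S m (r + 1) hm
        simp_rw [← hw] at this
        push_cast at this
        linarith

/-- pointwise bound of the kernel by a function of ONE coordinate distance -/
theorem regv_kernel_le {C : ℝ} {ρ m S : ℕ} (hm : 1 ≤ m) {Γ : Matrix G.V G.V ℝ} (h : RegCov G C ρ m S Γ) (hC : 0 ≤ C)
    (z z' : G.V) (d : ℕ) (hd : d ≤ G.dist z z') :
    |Γ z z'| ≤ (if regD1 G z.1 z'.1 ≤ ρ * S ∧ regD1 G z.2 z'.2 ≤ ρ * S then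
      C * (1 + Real.posLog ((S : ℝ) / ((m : ℝ) + d))) else 0) := by
  have hm0 : (0 : ℝ) < m := by exact_mod_cast hm
  split_ifs with hc
  · refine (h.pointwise z z').trans ?_
    gcongr
  · have : ρ * S < G.dist z z' := by
      by_contra hcon
      apply hc
      exact ⟨(reg_d1_le_dist_fst G z z').trans (not_lt.1 hcon), (reg_d1_le_dist_snd G z z').trans (not_lt.1 hcon)⟩
    rw [h.range z z' this]
    simp

open Classical in
theorem regv_half_sum {g' : Grid G} (hg' : g'.Ok) {C : ℝ} (ρ m : ℕ) (hm : 1 ≤ m) (hC : 0 ≤ C) (x y : Fin G.M) :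
    (∑ x' : Fin G.M, (if regEnd g' x' ∧ regD1 G x x' ≤ ρ * g'.m then (1 : ℝ) else 0)) *
      (∑ y' : Fin G.M, (if regD1 G y y' ≤ ρ * g'.m then C * (1 + Real.posLog ((g'.m : ℝ) / ((m : ℝ) + regD1 G y y'))) else 0))
      ≤ C * ((4 * ρ + 10) * (2 * ρ + 4)) * g'.m := by
  have hS : (1 : ℝ) ≤ g'.m := by exact_mod_cast hg'.pos
  have h1 : (∑ x' : Fin G.M, (if regEnd g' x' ∧ regD1 G x x' ≤ ρ * g'.m then (1 : ℝ) else 0)) ≤ 4 * ρ + 10 := by
    rw [Finset.sum_boole]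
    exact_mod_cast reg_end_count g' hg' x ρ (ρ * g'.m) le_rfl
  have h2 : (∑ y' : Fin G.M, (if regD1 G y y' ≤ ρ * g'.m then C * (1 + Real.posLog ((g'.m : ℝ) / ((m : ℝ) + regD1 G y y'))) else 0))
      ≤ C * (2 * (((ρ * g'.m : ℕ) : ℝ) + 1 + g'.m)) := by
    have h3 := reg_line_sum G g'.m m (ρ * g'.m) hm y
    have h4 := mul_le_mul_of_nonneg_left h3 hC
    rw [Finset.mul_sum] at h4
    refine le_trans (le_of_eq (Finset.sum_congr rfl fun y' _ => ?_)) h4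
    split_ifs <;> simp
  have h5 : 0 ≤ (∑ y' : Fin G.M, (if regD1 G y y' ≤ ρ * g'.m then C * (1 + Real.posLog ((g'.m : ℝ) / ((m : ℝ) + regD1 G y y'))) else 0)) := by
    refine Finset.sum_nonneg fun y' _ => ?_
    split_ifs
    · have := Real.posLog_nonneg (x := (g'.m : ℝ) / ((m : ℝ) + regD1 G y y'))
      positivity
    · exact le_rfl
  calc _ ≤ (4 * (ρ : ℝ) + 10) * (C * (2 * (((ρ * g'.m : ℕ) : ℝ) + 1 + g'.m))) :=
        mul_le_mul h1 h2 h5 (by positivity)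
    _ ≤ (4 * (ρ : ℝ) + 10) * (C * (2 * ((ρ : ℝ) * g'.m + g'.m + g'.m))) := by
        push_cast
        gcongr
    _ = _ := by ring

theorem reg_row_sum {g' : Grid G} (hg' : g'.Ok) {C : ℝ} {ρ m : ℕ} (hm : 1 ≤ m) {Γ : Matrix G.V G.V ℝ}
    (h : RegCov G C ρ m g'.m Γ) (hC : 0 ≤ C) (Y' : Finset g'.I) (z : G.V) :
    ∑ z' ∈ regBd (g'.sites Y'), |Γ z z'| ≤ C * ((4 * ρ + 10) * (4 * ρ + 8)) * g'.m := by
  classical
  obtain ⟨w, hw⟩ : ∃ w : ℕ → ℝ, ∀ k, w k = C * (1 + Real.posLog ((g'.m : ℝ) / ((m : ℝ) + k))) := ⟨_, fun _ => rfl⟩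
  have hw0 : ∀ k, 0 ≤ w k := fun k => by
    rw [hw]; have := Real.posLog_nonneg (x := (g'.m : ℝ) / ((m : ℝ) + k)); positivity
  set A : G.V → ℝ := fun z' => (if regEnd g' z'.1 ∧ regD1 G z.1 z'.1 ≤ ρ * g'.m then (1 : ℝ) else 0) *
      (if regD1 G z.2 z'.2 ≤ ρ * g'.m then w (regD1 G z.2 z'.2) else 0) with hA
  set B : G.V → ℝ := fun z' => (if regEnd g' z'.2 ∧ regD1 G z.2 z'.2 ≤ ρ * g'.m then (1 : ℝ) else 0) *
      (if regD1 G z.1 z'.1 ≤ ρ * g'.m then w (regD1 G z.1 z'.1) else 0) with hB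
  have hA0 : ∀ z', 0 ≤ A z' := fun z' => by
    simp only [hA]; split_ifs <;> simp [hw0]
  have hB0 : ∀ z', 0 ≤ B z' := fun z' => by
    simp only [hB]; split_ifs <;> simp [hw0]
  have hle : ∀ z' ∈ regBd (g'.sites Y'), |Γ z z'| ≤ A z' + B z' := by
    intro z' hz'
    rcases reg_bd_end g' Y' hz' with he | he
    · have h1 := regv_kernel_le hm h hC z z' _ (reg_d1_le_dist_snd G z z')
      rw [← hw] at h1
      refine h1.trans (le_trans ?_ (le_add_of_nonneg_right (hB0 z')))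
      by_cases c : regD1 G z.1 z'.1 ≤ ρ * g'.m ∧ regD1 G z.2 z'.2 ≤ ρ * g'.m
      · simp only [hA]
        rw [if_pos c, if_pos ⟨he, c.1⟩, if_pos c.2, one_mul]
      · rw [if_neg c]
        exact hA0 z'
    · have h1 := regv_kernel_le hm h hC z z' _ (reg_d1_le_dist_fst G z z')
      rw [← hw] at h1
      refine h1.trans (le_trans ?_ (le_add_of_nonneg_left (hA0 z')))
      by_cases c : regD1 G z.1 z'.1 ≤ ρ * g'.m ∧ regD1 G z.2 z'.2 ≤ ρ * g'.m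
      · simp only [hB]
        rw [if_pos c, if_pos ⟨he, c.2⟩, if_pos c.1, one_mul]
      · rw [if_neg c]
        exact hB0 z'
  have hsA : ∑ z', A z' ≤ C * ((4 * ρ + 10) * (2 * ρ + 4)) * g'.m := by
    have := regv_half_sum hg' ρ m hm hC z.1 z.2
    simp_rw [← hw] at this
    rw [Finset.sum_mul_sum] at this
    rw [Fintype.sum_prod_type]
    exact this
  have hsB : ∑ z', B z' ≤ C * ((4 * ρ + 10) * (2 * ρ + 4)) * g'.m := by
    have := regv_half_sum hg' ρ m hm hC z.2 z.1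
    simp_rw [← hw] at this
    rw [Finset.sum_mul_sum] at this
    rw [Fintype.sum_prod_type_right]
    exact this
  calc ∑ z' ∈ regBd (g'.sites Y'), |Γ z z'| ≤ ∑ z' ∈ regBd (g'.sites Y'), (A z' + B z') := Finset.sum_le_sum hle
    _ ≤ ∑ z', (A z' + B z') :=
        Finset.sum_le_sum_of_subset_of_nonneg (Finset.subset_univ _) fun z' _ _ => add_nonneg (hA0 z') (hB0 z')
    _ = ∑ z', A z' + ∑ z', B z' := Finset.sum_add_distrib
    _ ≤ C * ((4 * ρ + 10) * (2 * ρ + 4)) * g'.m + C * ((4 * ρ + 10) * (2 * ρ + 4)) * g'.m := add_le_add hsA hsB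
    _ = _ := by ring

/-! ### LEAF `REG-V5` -/

theorem reg_var_bdry {g' : Grid G} (hg' : g'.Ok) {C : ℝ} {ρ m : ℕ} (hm : 1 ≤ m) {Γ : Matrix G.V G.V ℝ}
    (h : RegCov G C ρ m g'.m Γ) (hC : 0 ≤ C) (Y' : Finset g'.I) (φ : G.V → ℝ) :
    regQf Γ (regBdv (g'.sites Y') φ) ≤ 2 * C * ((4 * ρ + 10) * (4 * ρ + 8)) * PE G g'.m (g'.sites Y') φ := by
  have h1 := reg_qf_schur h.fluc.psd (regBd (g'.sites Y')) (regBdv (g'.sites Y') φ)
    (fun z hz => reg_bdv_supp _ φ z hz) (fun z _ => reg_row_sum hg' hm h hC Y' z)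
  refine h1.trans ?_
  rw [reg_PE_eq]
  have h2 := reg_bdv_sq (g'.sites Y') φ
  calc C * ((4 * ρ + 10) * (4 * ρ + 8)) * g'.m * ∑ z, regBdv (g'.sites Y') φ z ^ 2
      ≤ C * ((4 * ρ + 10) * (4 * ρ + 8)) * g'.m * (2 * regRaw (g'.sites Y') φ) := by gcongr
    _ = _ := by ring

/-- [B] (rg:cross-variance) -/
theorem reg_var_main {g g' : Grid G} (N : Nest g g') (hg : g.Ok) (hg' : g'.Ok) {C : ℝ} {ρ : ℕ}
    {Γ : Matrix G.V G.V ℝ} (h : RegCov G C ρ g.m g'.m Γ) (hC : 0 ≤ C) (X : Finset g.I) (Y : Finset g'.I)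
    (hXY : N.cl X ⊆ Y) (φ : G.V → ℝ) :
    regQf Γ (regBv (g.Dm X) φ) ≤ C * (64 + 8 * ((4 * ρ + 10) * (4 * ρ + 8)))
      * (gE G (g'.Dm Y \ g.Dm X) φ + PE G g'.m (g'.Dm Y) φ + TE g' (g'.collar Y) φ) := by
  have hsub := reg_Dm_subset N hg hg' X Y hXY
  have hpsd := h.fluc.psd
  rw [reg_bv_sdiff hsub φ]
  have h1 := reg_qf_sub_le hpsd (regBv (g'.Dm Y) φ) (regBv (g'.Dm Y \ g.Dm X) φ)
  have h2 : regQf Γ (regBv (g'.Dm Y) φ) ≤ 2 * regQf Γ (regBulk (g'.Dm Y) φ) + 2 * regQf Γ (regBdv (g'.Dm Y) φ) := by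
    rw [reg_bv_split]
    exact reg_qf_add_le hpsd _ _
  have h3 : regQf Γ (regBulk (g'.Dm Y) φ) ≤ 16 * C * TE g' (g'.collar Y) φ := reg_var_bulk hg' hC h.opnorm _ φ
  have h4 : regQf Γ (regBdv (g'.Dm Y) φ) ≤ 2 * C * ((4 * ρ + 10) * (4 * ρ + 8)) * PE G g'.m (g'.Dm Y) φ :=
    reg_var_bdry hg' hg.pos h hC _ φ
  have h5 := reg_var_E h.fluc (g'.Dm Y \ g.Dm X) φ
  have e1 := reg_gE_nonneg (g'.Dm Y \ g.Dm X) φ
  have e2 := reg_PE_nonneg g'.m (g'.Dm Y) φ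
  have e3 := reg_TE_nonneg g' (g'.collar Y) φ
  set a := gE G (g'.Dm Y \ g.Dm X) φ
  set b := PE G g'.m (g'.Dm Y) φ
  set c := TE g' (g'.collar Y) φ
  set K : ℝ := (4 * ρ + 10) * (4 * ρ + 8) with hK
  have hK0 : 0 ≤ K := by positivity
  have p1 : 0 ≤ C * a := by positivity
  have p2 : 0 ≤ C * b := by positivity
  have p3 : 0 ≤ C * c := by positivity
  have p4 : 0 ≤ C * K * a := by positivity
  have p5 : 0 ≤ C * K * c := by positivity
  nlinarith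

/-! ### the stacked Gaussian vector `Z = (m^{j-1} ∇^j ζ (v) : 1 ≤ j ≤ 4, v ∈ D)` -/

/-- indices `(j - 1, word of length j, site)` -/
abbrev RegIdx (G : Geom) : Type := Σ r : Fin 4, (Fin ((r : ℕ) + 1) → Fin 4) × G.V

/-- the rows of `Z` -/
def regZ (m : ℕ) (D : Finset G.V) (k : RegIdx G) : G.V → ℝ :=
  if k.2.2 ∈ D then (m : ℝ) ^ (k.1 : ℕ) • regRow G k.2.1 k.2.2 else 0

/-- `|Z|²` -/
def regQ (m : ℕ) (D : Finset G.V) (ζ : G.V → ℝ) : ℝ := ∑ k : RegIdx G, (regZ m D k ⬝ᵥ ζ) ^ 2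

/-! ### LEAF `REG-F1` -/

/-- words of length `1 .. 4` -/
abbrev RegWd : Type := Σ r : Fin 4, (Fin ((r : ℕ) + 1) → Fin 4)

theorem regv_card_wd : Fintype.card RegWd = 340 := by
  simp [Fintype.card_sigma, Fin.sum_univ_four]

theorem regv_sum_idx {M : Type} [AddCommMonoid M] (f : RegIdx G → M) :
    ∑ k, f k = ∑ j : RegWd, ∑ v, f ⟨j.1, (j.2, v)⟩ := by
  rw [Fintype.sum_sigma, Fintype.sum_sigma]
  refine Finset.sum_congr rfl fun r _ => ?_
  rw [Fintype.sum_prod_type]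

theorem regv_sum_mem {M : Type} [AddCommMonoid M] (D : Finset G.V) (f : G.V → M) :
    ∑ v, (if v ∈ D then f v else 0) = ∑ v ∈ D, f v := by
  rw [Finset.sum_ite_mem, Finset.univ_inter]

theorem reg_Q_eq (m : ℕ) (D : Finset G.V) (ζ : G.V → ℝ) :
    regQ m D ζ = ∑ r : Fin 4, ∑ a : Fin ((r : ℕ) + 1) → Fin 4, ∑ v ∈ D,
      ((m : ℝ) ^ (r : ℕ) * difs a (G.lift ζ) (G.ι v)) ^ 2 := by
  unfold regQ
  rw [Fintype.sum_sigma]
  refine Finset.sum_congr rfl fun r _ => ?_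
  rw [Fintype.sum_prod_type]
  refine Finset.sum_congr rfl fun a _ => ?_
  rw [← regv_sum_mem D]
  refine Finset.sum_congr rfl fun v _ => ?_
  unfold regZ
  simp only
  split_ifs
  · rw [smul_dotProduct, reg_row_dot, smul_eq_mul]
  · simp

theorem reg_Z_op {C : ℝ} {m : ℕ} (hm : 0 < m) {Γ : Matrix G.V G.V ℝ} (h : FlucOK G C m Γ) (hC : 0 ≤ C)
    (D : Finset G.V) (u : RegIdx G → ℝ) : regQf Γ (∑ k, u k • regZ m D k) ≤ 340 * C * ∑ k, u k ^ 2 := by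
  have hm0 : (0 : ℝ) < m := by exact_mod_cast hm
  rw [regv_sum_idx, regv_sum_idx]
  have h1 := reg_qf_sum_le h.psd (Finset.univ : Finset RegWd)
    (fun j => ∑ v, u ⟨j.1, (j.2, v)⟩ • regZ m D ⟨j.1, (j.2, v)⟩)
  rw [Finset.card_univ, regv_card_wd] at h1
  refine h1.trans ?_
  rw [mul_assoc (340 : ℝ) C, Finset.mul_sum (a := C)]
  push_cast
  refine mul_le_mul_of_nonneg_left (Finset.sum_le_sum fun j _ => ?_) (by norm_num : (0 : ℝ) ≤ 340)
  obtain ⟨r, a⟩ := j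
  simp only
  have h2 : ∑ v, u ⟨r, (a, v)⟩ • regZ m D ⟨r, (a, v)⟩
      = ∑ v, (if v ∈ D then u ⟨r, (a, v)⟩ * (m : ℝ) ^ (r : ℕ) else 0) • regRow G a v := by
    refine Finset.sum_congr rfl fun v _ => ?_
    unfold regZ
    simp only
    split_ifs
    · rw [smul_smul]
    · simp
  rw [h2, reg_row_qf]
  refine (h.grad ((r : ℕ) + 1) (by omega) (by have := r.2; omega) a _).trans ?_
  rw [mul_assoc]
  gcongr
  rw [Finset.mul_sum]
  gcongr with v _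
  rw [Nat.add_sub_cancel]
  split_ifs
  · apply le_of_eq
    rw [mul_pow, ← pow_mul, mul_comm (r : ℕ) 2]
    field_simp
  · simp only [ne_eq, OfNat.ofNat_ne_zero, not_false_eq_true, zero_pow, mul_zero]
    positivity

theorem reg_Z_tr {C : ℝ} {m : ℕ} (hm : 0 < m) {Γ : Matrix G.V G.V ℝ} (h : FlucOK G C m Γ) (hC : 0 ≤ C)
    (D : Finset G.V) : ∑ k, regQf Γ (regZ m D k) ≤ 340 * C * D.card / (m : ℝ) ^ 2 := by
  have hm0 : (0 : ℝ) < m := by exact_mod_cast hm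
  rw [regv_sum_idx]
  have h1 : ∀ j : RegWd, ∑ v, regQf Γ (regZ m D ⟨j.1, (j.2, v)⟩) ≤ D.card * (C / (m : ℝ) ^ 2) := by
    rintro ⟨r, a⟩
    simp only
    have h2 : ∀ v, regQf Γ (regZ m D ⟨r, (a, v)⟩) ≤ if v ∈ D then C / (m : ℝ) ^ 2 else 0 := by
      intro v
      unfold regZ
      simp only
      split_ifs
      · unfold regQf
        rw [Matrix.mulVec_smul, smul_dotProduct, dotProduct_smul, reg_row_cov, smul_eq_mul, smul_eq_mul]
        have h3 := h.diag ((r : ℕ) + 1) (by omega) (by have := r.2; omega) a v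
        calc (m : ℝ) ^ (r : ℕ) * ((m : ℝ) ^ (r : ℕ) * kdif G a a Γ (G.ι v) (G.ι v))
            ≤ (m : ℝ) ^ (r : ℕ) * ((m : ℝ) ^ (r : ℕ) * (C * ((m : ℝ) ^ (2 * ((r : ℕ) + 1)))⁻¹)) := by gcongr
          _ = C / (m : ℝ) ^ 2 := by
            rw [show 2 * ((r : ℕ) + 1) = (r : ℕ) + (r : ℕ) + 2 by ring, pow_add, pow_add]
            field_simp
      · simp [regQf]
    refine (Finset.sum_le_sum fun v _ => h2 v).trans (le_of_eq ?_)
    rw [regv_sum_mem, Finset.sum_const, nsmul_eq_mul]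
  refine (Finset.sum_le_sum fun j _ => h1 j).trans (le_of_eq ?_)
  rw [Finset.sum_const, Finset.card_univ, regv_card_wd, nsmul_eq_mul]
  push_cast
  ring

/-! ### LEAF `REG-F2` -/

variable (g : Grid G)

/-- the part of `|Z|²` of order `r + 1` -/
def regQl (m : ℕ) (D : Finset G.V) (ζ : G.V → ℝ) (r : ℕ) : ℝ :=
  ∑ a : Fin (r + 1) → Fin 4, ∑ v ∈ D, ((m : ℝ) ^ r * difs a (G.lift ζ) (G.ι v)) ^ 2

theorem regv_Q_split (m : ℕ) (D : Finset G.V) (ζ : G.V → ℝ) :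
    regQ m D ζ = regQl m D ζ 0 + regQl m D ζ 1 + regQl m D ζ 2 + regQl m D ζ 3 := by
  rw [reg_Q_eq, Fin.sum_univ_four]
  rfl

theorem regv_Ql_nonneg (m : ℕ) (D : Finset G.V) (ζ : G.V → ℝ) (r : ℕ) : 0 ≤ regQl m D ζ r :=
  Finset.sum_nonneg fun _ _ => Finset.sum_nonneg fun _ _ => sq_nonneg _

theorem regv_Q_nonneg (m : ℕ) (D : Finset G.V) (ζ : G.V → ℝ) : 0 ≤ regQ m D ζ :=
  Finset.sum_nonneg fun _ _ => sq_nonneg _

theorem regv_word_le (m : ℕ) (D : Finset G.V) (ζ : G.V → ℝ) (r : ℕ) (a : Fin (r + 1) → Fin 4) :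
    ∑ v ∈ D, ((m : ℝ) ^ r * difs a (G.lift ζ) (G.ι v)) ^ 2 ≤ regQl m D ζ r :=
  Finset.single_le_sum (f := fun a : Fin (r + 1) → Fin 4 => ∑ v ∈ D, ((m : ℝ) ^ r * difs a (G.lift ζ) (G.ι v)) ^ 2)
    (fun _ _ => Finset.sum_nonneg fun _ _ => sq_nonneg _) (Finset.mem_univ a)

theorem regv_sum_inj {α β : Type} [Fintype α] [Fintype β] (i : α → β) (hi : Function.Injective i) (F : β → ℝ)
    (hF : ∀ b, 0 ≤ F b) : ∑ a, F (i a) ≤ ∑ b, F b := by
  classical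
  rw [← Finset.sum_image (f := F) (g := i) (s := Finset.univ) (fun a _ b _ h => hi h)]
  exact Finset.sum_le_univ_sum_of_nonneg hF

theorem regv_words_le (m : ℕ) (D : Finset G.V) (ζ : G.V → ℝ) (r : ℕ) (i : Fin 4 → Fin (r + 1) → Fin 4)
    (hi : Function.Injective i) :
    ∑ e : Fin 4, ∑ v ∈ D, ((m : ℝ) ^ r * difs (i e) (G.lift ζ) (G.ι v)) ^ 2 ≤ regQl m D ζ r :=
  regv_sum_inj i hi (fun a : Fin (r + 1) → Fin 4 => ∑ v ∈ D, ((m : ℝ) ^ r * difs a (G.lift ζ) (G.ι v)) ^ 2)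
    (fun _ => Finset.sum_nonneg fun _ _ => sq_nonneg _)

theorem regv_Q_sites (Y : Finset g.I) (ζ : G.V → ℝ) (m : ℕ) :
    regQ m (g.sites Y) ζ = ∑ b ∈ Y, regQ m (g.sites {b}) ζ := by
  simp only [reg_Q_eq]
  rw [Finset.sum_comm (s := Y)]
  refine Finset.sum_congr rfl fun r _ => ?_
  rw [Finset.sum_comm (s := Y)]
  refine Finset.sum_congr rfl fun a _ => ?_
  rw [reg_sites_sum]

theorem regv_inj1 : Function.Injective (fun e : Fin 4 => (![e] : Fin (0 + 1) → Fin 4)) := fun e e' h => by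
  have := congrFun h 0
  simpa using this

theorem regv_inj2 : Function.Injective (fun e : Fin 4 => (![e, e] : Fin (1 + 1) → Fin 4)) := fun e e' h => by
  have := congrFun h 0
  simpa using this

theorem reg_gE_le_Q (D : Finset G.V) (ζ : G.V → ℝ) (m : ℕ) : gE G D ζ ≤ (1 / 2) * regQ m D ζ := by
  have h1 := regv_words_le m D ζ 0 _ regv_inj1
  have h2 : gE G D ζ = (1 / 2) * ∑ e : Fin 4, ∑ v ∈ D, ((m : ℝ) ^ 0 * difs (![e] : Fin (0 + 1) → Fin 4) (G.lift ζ) (G.ι v)) ^ 2 := by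
    unfold gE
    rw [Finset.sum_comm]
    congr 1
    refine Finset.sum_congr rfl fun e _ => Finset.sum_congr rfl fun v _ => ?_
    rw [pow_zero, one_mul]
    have : difs (![e] : Fin (0 + 1) → Fin 4) (G.lift ζ) = dif (dir e) (G.lift ζ) := reg_difs_one e _
    rw [this]
  rw [h2, regv_Q_split]
  have := regv_Ql_nonneg m D ζ 1
  have := regv_Ql_nonneg m D ζ 2
  have := regv_Ql_nonneg m D ζ 3
  linarith

theorem regv_face_le (hg : g.Ok) (b : g.I) (ζ : G.V → ℝ) : (g.m : ℝ) * regFace g b ζ ≤ 4 * regQ g.m (g.sites {b}) ζ := by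
  have h1 := regv_words_le g.m (g.sites {b}) ζ 0 _ regv_inj1
  have h2 := regv_words_le g.m (g.sites {b}) ζ 1 _ regv_inj2
  unfold regFace
  rw [Finset.mul_sum]
  have h3 : ∀ e : Fin 4, (g.m : ℝ) * ∑ v ∈ (g.sites {b}).filter (fun v => regNb G v e ∉ g.sites {b}), (ζ (regNb G v e) - ζ v) ^ 2
      ≤ 2 * ∑ v ∈ g.sites {b}, ((g.m : ℝ) ^ 0 * difs (![e] : Fin (0 + 1) → Fin 4) (G.lift ζ) (G.ι v)) ^ 2
        + 4 * ∑ v ∈ g.sites {b}, ((g.m : ℝ) ^ 1 * difs (![e, e] : Fin (1 + 1) → Fin 4) (G.lift ζ) (G.ι v)) ^ 2 := by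
    intro e
    have h4 := reg_trace g hg b e (dif (dir e) (G.lift ζ))
    have e1 : difs (![e] : Fin (0 + 1) → Fin 4) (G.lift ζ) = dif (dir e) (G.lift ζ) := reg_difs_one e _
    have e2 : difs (![e, e] : Fin (1 + 1) → Fin 4) (G.lift ζ) = dif (dir e) (dif (dir e) (G.lift ζ)) := regl_difs_two e e _
    rw [e1, e2]
    simp only [reg_dif_lift] at h4 ⊢
    refine h4.trans (le_of_eq ?_)
    simp only [pow_zero, one_mul, pow_one, mul_pow, Finset.mul_sum]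
    congr 1
    refine Finset.sum_congr rfl fun v _ => ?_
    ring
  refine (Finset.sum_le_sum fun e _ => h3 e).trans ?_
  rw [Finset.sum_add_distrib, ← Finset.mul_sum, ← Finset.mul_sum, regv_Q_split]
  have := regv_Ql_nonneg g.m (g.sites {b}) ζ 0
  have := regv_Ql_nonneg g.m (g.sites {b}) ζ 2
  have := regv_Ql_nonneg g.m (g.sites {b}) ζ 3
  linarith

theorem reg_PE_le_Q (hg : g.Ok) (Y : Finset g.I) (ζ : G.V → ℝ) : PE G g.m (g.sites Y) ζ ≤ 4 * regQ g.m (g.sites Y) ζ := by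
  have hm0 : (0 : ℝ) ≤ g.m := Nat.cast_nonneg _
  rw [reg_PE_eq, regv_Q_sites, Finset.mul_sum]
  refine (mul_le_mul_of_nonneg_left (reg_raw_le_face g Y ζ) hm0).trans ?_
  rw [Finset.mul_sum]
  exact Finset.sum_le_sum fun b _ => regv_face_le g hg b ζ

theorem regv_difs_three {α : Type} [AddGroup α] (e1 e2 e3 : Fin 4) (f : ℤ × ℤ → α) :
    difs (![e1, e2, e3] : Fin (2 + 1) → Fin 4) f = dif (dir e1) (dif (dir e2) (dif (dir e3) f)) := by
  have h : (![e1, e2, e3] : Fin (2 + 1) → Fin 4) = Fin.cons e1 ![e2, e3] := rfl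
  rw [h, reg_difs_cons, regl_difs_two]

theorem regv_difs_four {α : Type} [AddGroup α] (e0 e1 e2 e3 : Fin 4) (f : ℤ × ℤ → α) :
    difs (![e0, e1, e2, e3] : Fin (3 + 1) → Fin 4) f = dif (dir e0) (dif (dir e1) (dif (dir e2) (dif (dir e3) f))) := by
  have h : (![e0, e1, e2, e3] : Fin (3 + 1) → Fin 4) = Fin.cons e0 (![e1, e2, e3] : Fin (2 + 1) → Fin 4) := rfl
  rw [h, reg_difs_cons, regv_difs_three]

theorem regv_d2_le (hg : g.Ok) (b : g.I) (ζ : G.V → ℝ) {v : G.V} (hv : v ∈ g.sites {b}) (e e' : Fin 4) :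
    (g.m : ℝ) ^ 4 * dif (dir e) (dif (dir e') (G.lift ζ)) (G.ι v) ^ 2 ≤ 16 * regQ g.m (g.sites {b}) ζ := by
  have hs := reg_sobolev g hg b (dif (dir e) (dif (dir e') (G.lift ζ))) hv
  have w1 := regv_word_le g.m (g.sites {b}) ζ 1 ![e, e']
  have w2 := regv_word_le g.m (g.sites {b}) ζ 2 ![0, e, e']
  have w2' := regv_word_le g.m (g.sites {b}) ζ 2 ![2, e, e']
  have w3 := regv_word_le g.m (g.sites {b}) ζ 3 ![2, 0, e, e']
  rw [show difs (![e, e'] : Fin (1 + 1) → Fin 4) (G.lift ζ) = _ from regl_difs_two e e' _] at w1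
  rw [regv_difs_three] at w2 w2'
  rw [regv_difs_four] at w3
  simp only [mul_pow, ← Finset.mul_sum] at w1 w2 w2' w3
  rw [Finset.sum_add_distrib] at hs
  have q0 := regv_Ql_nonneg g.m (g.sites {b}) ζ 0
  have q1 := regv_Ql_nonneg g.m (g.sites {b}) ζ 1
  have hm2 : (0 : ℝ) ≤ (g.m : ℝ) ^ 2 := by positivity
  have hs2 := mul_le_mul_of_nonneg_left hs hm2
  rw [regv_Q_split]
  nlinarith

theorem regv_n2_le (hg : g.Ok) (b : g.I) (ζ : G.V → ℝ) :
    (g.m : ℝ) ^ 4 * regN2 g b ζ ^ 2 ≤ 16 * regQ g.m (g.sites {b}) ζ := by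
  have hm0 : (0 : ℝ) < g.m := by exact_mod_cast hg.pos
  have hQ := regv_Q_nonneg g.m (g.sites {b}) ζ
  have h1 : regN2 g b ζ ≤ Real.sqrt (16 * regQ g.m (g.sites {b}) ζ / (g.m : ℝ) ^ 4) := by
    refine reg_n2_le g b ζ (Real.sqrt_nonneg _) fun v hv e e' => ?_
    apply Real.abs_le_sqrt
    rw [le_div_iff₀ (by positivity), mul_comm]
    exact regv_d2_le g hg b ζ hv e e'
  have h2 := reg_n2_nonneg g b ζ
  have h3 : regN2 g b ζ ^ 2 ≤ 16 * regQ g.m (g.sites {b}) ζ / (g.m : ℝ) ^ 4 := by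
    calc regN2 g b ζ ^ 2 ≤ Real.sqrt (16 * regQ g.m (g.sites {b}) ζ / (g.m : ℝ) ^ 4) ^ 2 := by gcongr
      _ = _ := Real.sq_sqrt (by positivity)
  rw [le_div_iff₀ (by positivity)] at h3
  linarith

theorem reg_TE_le_Q (hg : g.Ok) (Y : Finset g.I) (ζ : G.V → ℝ) : TE g Y ζ ≤ 16 * regQ g.m (g.sites Y) ζ := by
  rw [reg_TE_eq, regv_Q_sites, Finset.mul_sum]
  exact Finset.sum_le_sum fun b _ => regv_n2_le g hg b ζ

theorem reg_U_le_Q (hg : g.Ok) {δ : ℝ} (h0 : 0 ≤ δ) (h1 : δ ≤ 1) (X : Finset g.I) (ζ : G.V → ℝ) :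
    U g δ X ζ ≤ 23 * regQ g.m (g.Dm X) ζ := by
  unfold U
  have a1 := reg_gE_le_Q (g.Dm X) ζ g.m
  have a2 : PE G g.m (g.Dm X) ζ ≤ 4 * regQ g.m (g.Dm X) ζ := reg_PE_le_Q g hg (g.collar X) ζ
  have a3 : TE g (g.collar X) ζ ≤ 16 * regQ g.m (g.Dm X) ζ := reg_TE_le_Q g hg (g.collar X) ζ
  have a4 := reg_PE_nonneg g.m (g.Dm X) ζ
  have a5 := regv_Q_nonneg g.m (g.Dm X) ζ
  have a6 : δ * PE G g.m (g.Dm X) ζ ≤ 1 * PE G g.m (g.Dm X) ζ := by gcongr
  linarith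

/-! ### LEAF `REG-F3` -/

/-- **the Gaussian integration step** -/
theorem reg_master (hg : g.Ok) {C : ℝ} {Γ : Matrix G.V G.V ℝ} (h : FlucOK G C g.m Γ) (hC : 0 ≤ C) {δ : ℝ}
    (h0 : 0 ≤ δ) (h1 : δ ≤ 1) (X : Finset g.I) (b : G.V → ℝ) (A t c : ℝ) (hc : 0 ≤ c)
    (hs : 8 * (23 * c) * (340 * C) ≤ 1) (F : (G.V → ℝ) → ℝ)
    (hF : ∀ ζ, F ζ ≤ A + t * (b ⬝ᵥ ζ) + c * U g δ X ζ) :
    ∫⁻ ζ, ENNReal.ofReal (Real.exp (F ζ)) ∂(gauss G Γ)
      ≤ ENNReal.ofReal (Real.exp (A + t ^ 2 * regQf Γ b + 2 * (23 * c) * (34000 * C * X.card))) := by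
  have hm0 : (0 : ℝ) < g.m := by exact_mod_cast hg.pos
  have htr : ∑ k, regQf Γ (regZ g.m (g.Dm X) k) ≤ 34000 * C * X.card := by
    refine (reg_Z_tr hg.pos h hC (g.Dm X)).trans ?_
    have h2 : ((g.Dm X).card : ℝ) ≤ 100 * (g.m : ℝ) ^ 2 * X.card := by exact_mod_cast reg_Dm_card g hg X
    rw [div_le_iff₀ (by positivity)]
    calc 340 * C * ((g.Dm X).card : ℝ) ≤ 340 * C * (100 * (g.m : ℝ) ^ 2 * X.card) := by gcongr
      _ = _ := by ring
  have key := reg_gauss_comb h.psd b (regZ g.m (g.Dm X)) t (reg_Z_op hg.pos h hC (g.Dm X)) htr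
    (by positivity : 0 ≤ 23 * c) hs
  rw [reg_gauss_eq]
  calc ∫⁻ ζ, ENNReal.ofReal (Real.exp (F ζ)) ∂(regGauss Γ)
      ≤ ∫⁻ ζ, ENNReal.ofReal (Real.exp A) * ENNReal.ofReal (Real.exp (t * (b ⬝ᵥ ζ)
          + 23 * c * ∑ k, (regZ g.m (g.Dm X) k ⬝ᵥ ζ) ^ 2)) ∂(regGauss Γ) := by
        refine lintegral_mono fun ζ => ?_
        rw [← ENNReal.ofReal_mul (Real.exp_pos _).le, ← Real.exp_add]
        refine ENNReal.ofReal_le_ofReal (Real.exp_le_exp.2 ?_)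
        have h3 := reg_U_le_Q g hg h0 h1 X ζ
        have h4 : c * U g δ X ζ ≤ c * (23 * regQ g.m (g.Dm X) ζ) := by gcongr
        have h5 := hF ζ
        unfold regQ at h4
        linarith
    _ = ENNReal.ofReal (Real.exp A) * ∫⁻ ζ, ENNReal.ofReal (Real.exp (t * (b ⬝ᵥ ζ)
          + 23 * c * ∑ k, (regZ g.m (g.Dm X) k ⬝ᵥ ζ) ^ 2)) ∂(regGauss Γ) :=
        lintegral_const_mul' _ _ ENNReal.ofReal_ne_top
    _ ≤ ENNReal.ofReal (Real.exp A) * ENNReal.ofReal (Real.exp (t ^ 2 * regQf Γ b + 2 * (23 * c) * (34000 * C * X.card))) := by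
        gcongr
    _ = _ := by
        rw [← ENNReal.ofReal_mul (Real.exp_pos _).le, ← Real.exp_add, add_assoc]

end

end Claimed.Agent.R285.Reg
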